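import Vale.Agent.P298.H39.RelDefs

/-!
# P298, block S1-GEO: Jacobians of the chart changes of a family
-/

open scoped ContDiff Topology Manifold
open Vale.Agent.P272.K

noncomputable section

namespace Vale.Agent.P298.H39

variable {Z : Type} [TopologicalSpace Z] {F : Fam Z} {e e' e'' : PC Z} {z : Z}

lemma nhds_overlap (hz : z ∈ e.source) (hz' : z ∈ e'.source) :
    ∀ᶠ q in 𝓝 (e z), q ∈ e.target ∧ e.symm q ∈ e'.source := by
  have h1 : ∀ᶠ q in 𝓝 (e z), q ∈ e.target := e.open_target.mem_nhds (e.map_source hz)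
  have h2 : ∀ᶠ q in 𝓝 (e z), e.symm q ∈ e'.source := by
    refine (e.continuousAt_symm (e.map_source hz)).eventually (e'.open_source.mem_nhds ?_)
    rw [e.left_inv hz]
    exact hz'
  exact h1.and h2

lemma tr_diff (he : e ∈ F.A) (he' : e' ∈ F.A) (hz : z ∈ e.source) (hz' : z ∈ e'.source) :
    DifferentiableAt ℂ (fun q => e' (e.symm q)) (e z) :=
  (F.trans e he e' he' z hz hz').differentiableAt (by simp)

lemma tr_diffR (he : e ∈ F.A) (he' : e' ∈ F.A) (hz : z ∈ e.source) (hz' : z ∈ e'.source) :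
    DifferentiableAt ℝ (fun q => e' (e.symm q)) (e z) :=
  (tr_diff he he' hz hz').restrictScalars ℝ

lemma tj_eq (he : e ∈ F.A) (he' : e' ∈ F.A) (hz : z ∈ e.source) (hz' : z ∈ e'.source) :
    tj e e' z = (fderiv ℂ (fun q => e' (e.symm q)) (e z)).restrictScalars ℝ :=
  ((tr_diff he he' hz hz').hasFDerivAt.restrictScalars ℝ).fderiv

lemma tj_smul (he : e ∈ F.A) (he' : e' ∈ F.A) (hz : z ∈ e.source) (hz' : z ∈ e'.source)
    (c : ℂ) (x : Cm 2 × ℂ) : tj e e' z (c • x) = c • tj e e' z x := by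
  rw [tj_eq he he' hz hz']
  simp

lemma tr_snd (he : e ∈ F.A) (he' : e' ∈ F.A) (hz : z ∈ e.source) (hz' : z ∈ e'.source) :
    (fun q => (e' (e.symm q)).2) =ᶠ[𝓝 (e z)] fun q => q.2 := by
  filter_upwards [nhds_overlap hz hz'] with q hq
  rw [F.chart_p e' he' _ hq.2, Fam.p_symm he hq.1]

lemma tj_snd (he : e ∈ F.A) (he' : e' ∈ F.A) (hz : z ∈ e.source) (hz' : z ∈ e'.source)
    (x : Cm 2 × ℂ) : (tj e e' z x).2 = x.2 := by
  have h1 := (tr_diffR he he' hz hz').hasFDerivAt.snd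
  have h2 : HasFDerivAt (fun q : Cm 2 × ℂ => q.2) (ContinuousLinearMap.snd ℝ (Cm 2) ℂ) (e z) :=
    (ContinuousLinearMap.snd ℝ (Cm 2) ℂ).hasFDerivAt
  have h3 := (h2.congr_of_eventuallyEq (tr_snd he he' hz hz')).unique h1
  have h4 := congrArg (fun L : Cm 2 × ℂ →L[ℝ] ℂ => L x) h3
  exact h4.symm

lemma tj_inl (he : e ∈ F.A) (he' : e' ∈ F.A) (hz : z ∈ e.source) (hz' : z ∈ e'.source)
    (u : Cm 2) : tj e e' z (u, 0) = (fj e e' z u, 0) :=
  Prod.ext rfl (tj_snd he he' hz hz' (u, 0))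

/-- fibre Jacobian as a linear map -/
def fjL (e e' : PC Z) (z : Z) : Cm 2 →L[ℝ] Cm 2 :=
  (ContinuousLinearMap.fst ℝ (Cm 2) ℂ).comp ((tj e e' z).comp (ContinuousLinearMap.inl ℝ (Cm 2) ℂ))

lemma fjL_apply (u : Cm 2) : fjL e e' z u = fj e e' z u := rfl

lemma fjL_smul (he : e ∈ F.A) (he' : e' ∈ F.A) (hz : z ∈ e.source) (hz' : z ∈ e'.source)
    (c : ℂ) (u : Cm 2) : fjL e e' z (c • u) = c • fjL e e' z u := by
  have h1 : ((c • u, 0) : Cm 2 × ℂ) = c • (u, 0) := by simp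
  show (tj e e' z (c • u, 0)).1 = c • (tj e e' z (u, 0)).1
  rw [h1, tj_smul he he' hz hz']
  rfl

lemma tj_comp (he : e ∈ F.A) (he' : e' ∈ F.A) (he'' : e'' ∈ F.A) (hz : z ∈ e.source)
    (hz' : z ∈ e'.source) (hz'' : z ∈ e''.source) (x : Cm 2 × ℂ) :
    tj e e'' z x = tj e' e'' z (tj e e' z x) := by
  have h1 : (fun q => e'' (e.symm q)) =ᶠ[𝓝 (e z)] fun q => e'' (e'.symm (e' (e.symm q))) := by
    filter_upwards [nhds_overlap hz hz'] with q hq
    rw [e'.left_inv hq.2]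
  have h2 : e' (e.symm (e z)) = e' z := by rw [e.left_inv hz]
  have h3 : HasFDerivAt (fun q => e'' (e'.symm q)) (tj e' e'' z) (e' (e.symm (e z))) := by
    rw [h2]
    exact (tr_diffR he' he'' hz' hz'').hasFDerivAt
  have h4 := h3.comp (e z) (tr_diffR he he' hz hz').hasFDerivAt
  have h5 := (h4.congr_of_eventuallyEq h1).fderiv
  show fderiv ℝ (fun q => e'' (e.symm q)) (e z) x = _
  rw [h5]
  rfl

lemma tj_self (hz : z ∈ e.source) (x : Cm 2 × ℂ) : tj e e z x = x := by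
  have h1 : (fun q => e (e.symm q)) =ᶠ[𝓝 (e z)] fun q => q := by
    filter_upwards [nhds_overlap hz hz] with q hq
    rw [e.right_inv hq.1]
  show fderiv ℝ (fun q => e (e.symm q)) (e z) x = x
  rw [h1.fderiv_eq]
  simp

lemma fj_comp (he : e ∈ F.A) (he' : e' ∈ F.A) (he'' : e'' ∈ F.A) (hz : z ∈ e.source)
    (hz' : z ∈ e'.source) (hz'' : z ∈ e''.source) (u : Cm 2) :
    fj e e'' z u = fj e' e'' z (fj e e' z u) := by
  show (tj e e'' z (u, 0)).1 = _
  rw [tj_comp he he' he'' hz hz' hz'', tj_inl he he' hz hz']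
  rfl

lemma fj_self (hz : z ∈ e.source) (u : Cm 2) : fj e e z u = u := by
  show (tj e e z (u, 0)).1 = u
  rw [tj_self hz]

section fib
variable {t : ℂ} {f f' : Chart 2 (F.Fib t)} {x : F.Fib t}

lemma IsFC.hasFDerivAt_trans (h : IsFC F t f e) (h' : IsFC F t f' e') (hx : x ∈ f.source)
    (hx' : x ∈ f'.source) :
    HasFDerivAt (fun w => f' (f.symm w)) (fjL e e' x.val) (f x) := by
  refine HasFDerivAt.congr_of_eventuallyEq ?_ (h.trans_eventually h' hx hx')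
  have h1 := (tr_diffR h.mem h'.mem ((h.src x).mp hx) ((h'.src x).mp hx')).hasFDerivAt
  rw [h.apply hx] at h1
  have h2 : HasFDerivAt (fun w : Cm 2 => (w, t)) (ContinuousLinearMap.inl ℝ (Cm 2) ℂ) (f x) := by
    have := (hasFDerivAt_id (𝕜 := ℝ) (f x)).prodMk (hasFDerivAt_const t (f x))
    exact this
  have h3 : HasFDerivAt (fun w : Cm 2 => e' (e.symm (w, t)))
      ((fderiv ℝ (fun q => e' (e.symm q)) (f x, t)).comp (ContinuousLinearMap.inl ℝ (Cm 2) ℂ))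
      (f x) := HasFDerivAt.comp (g := fun q : Cm 2 × ℂ => e' (e.symm q)) (f x) h1 h2
  have h4 := h3.fst
  have h5 : fjL e e' x.val = (ContinuousLinearMap.fst ℝ (Cm 2) ℂ).comp
      ((fderiv ℝ (fun q => e' (e.symm q)) (f x, t)).comp (ContinuousLinearMap.inl ℝ (Cm 2) ℂ)) := by
    rw [fjL, tj, h.apply hx]
  rw [h5]
  exact h4

lemma IsFC.det_fj (h : IsFC F t f e) (h' : IsFC F t f' e') (hx : x ∈ f.source)
    (hx' : x ∈ f'.source) : (fjL e e' x.val).det = ‖(jacM f f' x).det‖ ^ 2 := by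
  rw [← (h.hasFDerivAt_trans h' hx hx').fderiv]
  have a1 : At f x := ⟨mem_atlas_fib.mpr ⟨e, h⟩, hx⟩
  have a2 : At f' x := ⟨mem_atlas_fib.mpr ⟨e', h'⟩, hx'⟩
  exact INT.det_trans a1 a2

lemma IsFC.fjL_id (h : IsFC F t f e) (h' : IsFC F t f e') (hx : x ∈ f.source) :
    fjL e e' x.val = ContinuousLinearMap.id ℝ (Cm 2) := by
  rw [← (h.hasFDerivAt_trans h' hx hx).fderiv]
  have h1 : (fun w => f (f.symm w)) =ᶠ[𝓝 (f x)] id := by
    filter_upwards [f.open_target.mem_nhds (f.map_source hx)] with w hw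
    exact f.right_inv hw
  rw [h1.fderiv_eq, fderiv_id]

end fib

end Vale.Agent.P298.H39
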