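import Vale.Agent.P298.H39.Asm1

/-!
# P298, block S1-GEO: derivative rule and flatness on the module of relative forms
-/

open scoped ContDiff Topology Manifold ComplexConjugate
open Vale.Agent.P272.K MeasureTheory

set_option maxSynthPendingDepth 3

noncomputable section

namespace Vale.Agent.P298.H39

section linear
variable {v : Cm 2 × ℂ → Cm 2} {α β : Cm 2 × ℂ → BF} {q : Cm 2 × ℂ}

lemma csplit {V : Type} [AddCommGroup V] [Module ℂ V] (s : ℂ) (x : V) :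
    s • x = (s.re : ℂ) • ((1 : ℂ) • x) + (s.im : ℂ) • (Complex.I • x) := by
  rw [smul_smul, smul_smul, ← add_smul, mul_one, Complex.re_add_im]

lemma gen1 {V : Type} [AddCommGroup V] [Module ℂ V] (s : ℂ) (X Y : V) :
    (s.re : ℂ) • X + (s.im : ℂ) • Y = s • ((1 / 2 : ℂ) • (X - Complex.I • Y)) +
      conj s • ((1 / 2 : ℂ) • (X + Complex.I • Y)) := by
  have e1 : (s.re : ℂ) = s * (1 / 2) + conj s * (1 / 2) := by
    apply Complex.ext <;> simp
    ring
  have e2 : (s.im : ℂ) = -(s * (1 / 2 * Complex.I)) + conj s * (1 / 2 * Complex.I) := by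
    apply Complex.ext <;> simp
    ring
  rw [e1, e2]
  simp only [smul_sub, smul_add, smul_smul, add_smul, neg_smul]
  abel

lemma gen2 {V : Type} [AddCommGroup V] [Module ℂ V] (P Q R S : V) :
    (1 / 2 : ℂ) • ((1 / 2 : ℂ) • (P + Complex.I • Q) -
      Complex.I • ((1 / 2 : ℂ) • (R + Complex.I • S))) -
    (1 / 2 : ℂ) • ((1 / 2 : ℂ) • (P - Complex.I • Q) +
      Complex.I • ((1 / 2 : ℂ) • (R - Complex.I • S))) = (Complex.I / 2) • (Q - R) := by
  have e1 : (Complex.I / 2 : ℂ) = 1 / 2 * (1 / 2 * Complex.I) + 1 / 2 * (1 / 2 * Complex.I) := by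
    ring
  have e2 : (1 / 2 : ℂ) * (Complex.I * (1 / 2)) = 1 / 2 * (1 / 2 * Complex.I) := by ring
  rw [e1]
  simp only [smul_sub, smul_add, smul_smul, add_smul, e2]
  abel

lemma lieB_real (s : ℂ) :
    lieB v s α q = (s.re : ℂ) • lieB v 1 α q + (s.im : ℂ) • lieB v Complex.I α q := by
  have h1 : ((s • v q, s) : Cm 2 × ℂ) =
      s.re • ((1 : ℂ) • v q, (1 : ℂ)) + s.im • (Complex.I • v q, Complex.I) := by
    ext j
    · show s * v q j = s.re • ((1 : ℂ) * v q j) + s.im • (Complex.I * v q j)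
      rw [Complex.real_smul, Complex.real_smul]
      linear_combination (-(v q j)) * (Complex.re_add_im s)
    · show s = s.re • (1 : ℂ) + s.im • Complex.I
      rw [Complex.real_smul, Complex.real_smul, mul_one, Complex.re_add_im]
  have h2 : s • dfv v q = s.re • ((1 : ℂ) • dfv v q) + s.im • (Complex.I • dfv v q) := by
    ext u j
    show s * dfv v q u j = s.re • ((1 : ℂ) * dfv v q u j) + s.im • (Complex.I * dfv v q u j)
    rw [Complex.real_smul, Complex.real_smul]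
    linear_combination (-(dfv v q u j)) * (Complex.re_add_im s)
  rw [lieB, h1, h2, map_add, map_smul, map_smul, act_add_left, act_smul_left, act_smul_left,
    lieB, lieB]
  ext u x
  simp only [_root_.add_apply, ContinuousLinearMap.smul_apply, Complex.real_smul, smul_eq_mul]
  ring

lemma hasFDerivAt_entry (hα : DifferentiableAt ℝ α q) (i j : Fin 4) :
    ∃ L : Cm 2 × ℂ →L[ℝ] ℂ, HasFDerivAt (fun q => α q (bs i) (bs j)) L q ∧
      ∀ W, L W = fderiv ℝ α q W (bs i) (bs j) := by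
  refine ⟨_, (hα.hasFDerivAt.clm_apply (hasFDerivAt_const (bs i) q)).clm_apply
    (hasFDerivAt_const (bs j) q), fun W => ?_⟩
  simp

lemma fderiv_prg (hα : DifferentiableAt ℝ α q) (hβ : DifferentiableAt ℝ β q) (W : Cm 2 × ℂ) :
    fderiv ℝ (fun q => prg (α q) (β q)) q W =
      prg (fderiv ℝ α q W) (β q) + prg (α q) (fderiv ℝ β q W) := by
  choose L hL eL using hasFDerivAt_entry hα
  choose M hM eM using hasFDerivAt_entry hβ
  have h := ((((((hL 0 1).mul (hM 2 3)).sub ((hL 0 2).mul (hM 1 3))).add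
    ((hL 0 3).mul (hM 1 2))).add ((hL 1 2).mul (hM 0 3))).sub ((hL 1 3).mul (hM 0 2))).add
    ((hL 2 3).mul (hM 0 1))
  have h2 : fderiv ℝ (fun q => prg (α q) (β q)) q = _ := h.fderiv
  rw [h2]
  simp only [_root_.add_apply, _root_.sub_apply, ContinuousLinearMap.smul_apply, smul_eq_mul, eL,
    eM, prg]
  ring

lemma hasFDerivAt_cjB (hβ : DifferentiableAt ℝ β q) :
    HasFDerivAt (fun q => cjB (β q))
      ((ContinuousLinearMap.compL ℝ (Cm 2) (Cm 2 →L[ℝ] ℂ) (Cm 2 →L[ℝ] ℂ)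
        (ContinuousLinearMap.compL ℝ (Cm 2) ℂ ℂ (Complex.conjCLE : ℂ →L[ℝ] ℂ))).comp
        (fderiv ℝ β q)) q :=
  ((ContinuousLinearMap.compL ℝ (Cm 2) (Cm 2 →L[ℝ] ℂ) (Cm 2 →L[ℝ] ℂ)
    (ContinuousLinearMap.compL ℝ (Cm 2) ℂ ℂ
      (Complex.conjCLE : ℂ →L[ℝ] ℂ))).hasFDerivAt).comp q hβ.hasFDerivAt

lemma fderiv_cjB (hβ : DifferentiableAt ℝ β q) (W : Cm 2 × ℂ) :
    fderiv ℝ (fun q => cjB (β q)) q W = cjB (fderiv ℝ β q W) := by
  rw [(hasFDerivAt_cjB hβ).fderiv]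
  rfl

lemma lieB_cjB (hβ : DifferentiableAt ℝ β q) (s : ℂ) :
    lieB v s (fun q => cjB (β q)) q = cjB (lieB v s β q) := by
  rw [lieB, lieB, fderiv_cjB hβ, act_cjB, cjB_add]

/-- the density of the derivative of the pairing -/
lemma fderiv_prh (hα : DifferentiableAt ℝ α q) (hβ : DifferentiableAt ℝ β q)
    (ha : ∀ u v, α q u v = -α q v u) (hb : ∀ u v, β q u v = -β q v u) (s : ℂ) :
    prh (lieB v s α q) (β q) + prh (α q) (lieB v s β q) =
      fderiv ℝ (fun q => prh (α q) (β q)) q (s • v q, s) +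
        ((trR (s • dfv v q) : ℝ) : ℂ) * prh (α q) (β q) := by
  have hc : DifferentiableAt ℝ (fun q => cjB (β q)) q := (hasFDerivAt_cjB hβ).differentiableAt
  have hcb : ∀ u v, cjB (β q) u v = -cjB (β q) v u := fun u v => by
    rw [cjB_apply, cjB_apply, hb u v, map_neg]
  have h1 := fderiv_prg hα hc (s • v q, s)
  have h2 := prg_act (s • dfv v q) ha hcb
  have h3 : fderiv ℝ (fun q => prh (α q) (β q)) q (s • v q, s) =
      prg (fderiv ℝ α q (s • v q, s)) (cjB (β q)) +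
        prg (α q) (fderiv ℝ (fun q => cjB (β q)) q (s • v q, s)) := h1
  rw [h3, prh, prh, prh, ← h2, ← lieB_cjB hβ, lieB, lieB, prg_add_left,
    prg_comm (α q) (_ + _), prg_add_left, prg_comm _ (α q), prg_comm _ (α q)]
  ring

end linear

variable {Z : Type} [TopologicalSpace Z] [T2Space Z] {F : Fam Z} {σ : Z ≃ₜ Z} {χ : ℂ}
  {v : PC Z → Cm 2 × ℂ → Cm 2}

lemma lieM_real (hσ : IsDeck F σ) (hv : IsLift F v) (hvσ : LInv F σ v) (s : ℂ) (a : Md F σ χ) :
    lieM hσ hv hvσ χ s a = s • DM hσ hv hvσ χ a + conj s • DM' hσ hv hvσ χ a := by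
  have h1 : lieM hσ hv hvσ χ s a = (s.re : ℂ) • lieM hσ hv hvσ χ 1 a +
      (s.im : ℂ) • lieM hσ hv hvσ χ Complex.I a := by
    apply Md.ext'
    intro e he q hq
    rw [lieM_apply hσ hv hvσ s a he hq, lieB_real, ← lieM_apply hσ hv hvσ 1 a he hq,
      ← lieM_apply hσ hv hvσ Complex.I a he hq]
    rfl
  rw [h1]
  have h2 : DM hσ hv hvσ χ a = (1 / 2 : ℂ) • (lieM hσ hv hvσ χ 1 a -
    Complex.I • lieM hσ hv hvσ χ Complex.I a) := rfl
  have h3 : DM' hσ hv hvσ χ a = (1 / 2 : ℂ) • (lieM hσ hv hvσ χ 1 a +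
    Complex.I • lieM hσ hv hvσ χ Complex.I a) := rfl
  rw [h2, h3]
  exact gen1 s _ _

lemma pair_lieM (hσ : IsDeck F σ) (hv : IsLift F v) (hvσ : LInv F σ v) (a b : Md F σ χ) {t : ℂ}
    (ht : t ∈ F.Ω) : ∃ L : ℂ →L[ℝ] ℂ, HasFDerivAt (fun t => QM F σ χ t a b) L t ∧
      ∀ s, L s = QM F σ χ t (lieM hσ hv hvσ χ s a) b + QM F σ χ t a (lieM hσ hv hvσ χ s b) := by
  have hD : ∀ s, IsDen F fun e q => prh ((lieM hσ hv hvσ χ s a).1 e q) (b.1 e q) +
      prh (a.1 e q) ((lieM hσ hv hvσ χ s b).1 e q) := fun s =>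
    (isDen_prh (mRF _) (mRF b)).add (isDen_prh (mRF a) (mRF _))
  obtain ⟨L, hL, eL⟩ := hasFDerivAt_intF (isDen_prh (mRF a) (mRF b)) hv hD (fun s e he q hq => by
    rw [lieM_apply hσ hv hvσ s a he hq, lieM_apply hσ hv hvσ s b he hq]
    exact fderiv_prh ((mRF a).diff he hq) ((mRF b).diff he hq) ((mRF a).alt e he q hq)
      ((mRF b).alt e he q hq) s) ht
  refine ⟨L, hL, fun s => ?_⟩
  rw [eL s, intF_add t (isDen_prh (mRF _) (mRF b)) (isDen_prh (mRF a) (mRF _))]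
  rfl

/-- derivative rule -/
theorem deriv_QM (hσ : IsDeck F σ) (hv : IsLift F v) (hvσ : LInv F σ v) (a b : Md F σ χ) {t : ℂ}
    (ht : t ∈ F.Ω) : HasFDerivAt (𝕜 := ℝ) (fun t => QM F σ χ t a b)
      (H265.wd (QM F σ χ t (DM hσ hv hvσ χ a) b + QM F σ χ t a (DM' hσ hv hvσ χ b))
        (QM F σ χ t (DM' hσ hv hvσ χ a) b + QM F σ χ t a (DM hσ hv hvσ χ b))) t := by
  obtain ⟨L, hL, eL⟩ := pair_lieM hσ hv hvσ a b ht
  convert hL using 1
  refine ContinuousLinearMap.ext fun s => ?_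
  rw [eL, H265.wd_apply, lieM_real, lieM_real]
  simp only [map_add, map_smul, LinearMap.map_smulₛₗ, LinearMap.add_apply, LinearMap.smul_apply,
    smul_eq_mul, Complex.conj_conj]
  ring

lemma herm_QM (t : ℂ) (a b : Md F σ χ) : QM F σ χ t a b = conj (QM F σ χ t b a) := by
  rw [QM_apply, QM_apply]
  by_cases ht : t ∈ F.Ω
  · have := F.compact_fib ht
    rw [intF_def ht, intF_def ht]
    have key : ∀ (f : Chart 2 (F.Fib t)) (x : F.Fib t), At f x →
        res F t (fun e q => prh (a.1 e q) (b.1 e q)) f (f x) =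
          conj (res F t (fun e q => prh (b.1 e q) (a.1 e q)) f (f x)) := by
      intro f x hx
      obtain ⟨e, he⟩ := mem_atlas_fib.mp hx.1
      rw [(isDen_prh (mRF a) (mRF b)).res_apply he hx.2,
        (isDen_prh (mRF b) (mRF a)).res_apply he hx.2, prh_conj]
    have h3 : INT.intX (n := 2) (X := F.Fib t)
        (fun f w => (res F t (fun e q => prh (a.1 e q) (b.1 e q)) f w).re) =
        INT.intX (n := 2) (X := F.Fib t)
        (fun f w => (res F t (fun e q => prh (b.1 e q) (a.1 e q)) f w).re) :=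
      INT.intX_congr fun f x hx => by rw [key f x hx, Complex.conj_re]
    have h4 : INT.intX (n := 2) (X := F.Fib t)
        (fun f w => (res F t (fun e q => prh (a.1 e q) (b.1 e q)) f w).im) =
        INT.intX (n := 2) (X := F.Fib t)
        (fun f w => (-1 : ℝ) * (res F t (fun e q => prh (b.1 e q) (a.1 e q)) f w).im) :=
      INT.intX_congr fun f x hx => by rw [key f x hx, Complex.conj_im]; ring
    rw [h3, h4, INT.intX_const_mul]
    apply Complex.ext <;> simp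
  · rw [intF, intF, dif_neg ht, dif_neg ht, map_zero]

/-- pairing with the exterior derivative of a relative 1-form -/
lemma QM_exact {θ : PC Z → Cm 2 × ℂ → LF} (hθ : IsRF1 F θ) {a : Md F σ χ}
    (ha : ∀ e ∈ F.A, ∀ q ∈ e.target, a.1 e q = d1B (θ e) q) (b : Md F σ χ) {t : ℂ}
    (ht : t ∈ F.Ω) : QM F σ χ t a b = 0 := by
  rw [QM_apply]
  have h1 := stokes hθ (isRF2_cjB (mRF b)) (isCl2_cjB (mRF b) (mCl b)) ht
  rw [← h1]
  refine intF_congr (isDen_prh (mRF a) (mRF b))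
    (isDen_prg (isRF2_d1B hθ) (isRF2_cjB (mRF b))) ?_
  intro e he q hq _
  rw [ha e he q hq, prh]

/-- flatness -/
theorem comm_QM (hσ : IsDeck F σ) (hv : IsLift F v) (hvσ : LInv F σ v) (a b : Md F σ χ) {t : ℂ}
    (ht : t ∈ F.Ω) : QM F σ χ t (DM hσ hv hvσ χ (DM' hσ hv hvσ χ a)) b =
      QM F σ χ t (DM' hσ hv hvσ χ (DM hσ hv hvσ χ a)) b := by
  obtain ⟨θ, hθ, h⟩ := H365.R1.r1Flat F v a.1 hv (mRF a) (mCl a)
  obtain ⟨c, hc⟩ : ∃ c : Md F σ χ, c = lieM hσ hv hvσ χ 1 (lieM hσ hv hvσ χ Complex.I a) -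
    lieM hσ hv hvσ χ Complex.I (lieM hσ hv hvσ χ 1 a) := ⟨_, rfl⟩
  have h0 : QM F σ χ t c b = 0 := by
    refine QM_exact hθ ?_ b ht
    intro e he q hq
    have e1 : ∀ s s' : ℂ, (lieM hσ hv hvσ χ s (lieM hσ hv hvσ χ s' a)).1 e q =
        lieF v s (lieF v s' a.1) e q := by
      intro s s'
      rw [lieM_apply hσ hv hvσ s _ he hq]
      have h5 : (lieM hσ hv hvσ χ s' a).1 e =ᶠ[𝓝 q] lieF v s' a.1 e := by
        filter_upwards [e.open_target.mem_nhds hq] with q' hq'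
        exact lieM_apply hσ hv hvσ s' a he hq'
      show _ = lieB _ _ _ _
      rw [lieB, lieB, h5.fderiv_eq, h5.eq_of_nhds]
    have e2 : c.1 e q = (lieM hσ hv hvσ χ 1 (lieM hσ hv hvσ χ Complex.I a)).1 e q -
      (lieM hσ hv hvσ χ Complex.I (lieM hσ hv hvσ χ 1 a)).1 e q := by
      rw [hc]; rfl
    rw [e2, e1, e1]
    ext u x
    rw [d1B_apply]
    exact h e he q hq u x
  have h1 : DM hσ hv hvσ χ (DM' hσ hv hvσ χ a) - DM' hσ hv hvσ χ (DM hσ hv hvσ χ a) =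
      (Complex.I / 2) • c := by
    rw [hc]
    have k1 : ∀ x, DM hσ hv hvσ χ x = (1 / 2 : ℂ) • (lieM hσ hv hvσ χ 1 x -
      Complex.I • lieM hσ hv hvσ χ Complex.I x) := fun _ => rfl
    have k2 : ∀ x, DM' hσ hv hvσ χ x = (1 / 2 : ℂ) • (lieM hσ hv hvσ χ 1 x +
      Complex.I • lieM hσ hv hvσ χ Complex.I x) := fun _ => rfl
    rw [k1 (DM' hσ hv hvσ χ a), k2 (DM hσ hv hvσ χ a), k1 a, k2 a]
    simp only [map_smul, map_add, map_sub]
    exact gen2 _ _ _ _
  have h2 : QM F σ χ t (DM hσ hv hvσ χ (DM' hσ hv hvσ χ a) -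
      DM' hσ hv hvσ χ (DM hσ hv hvσ χ a)) b = 0 := by
    rw [h1, map_smul, LinearMap.smul_apply, h0, smul_zero]
  rw [map_sub, LinearMap.sub_apply] at h2
  exact sub_eq_zero.mp h2

end Vale.Agent.P298.H39
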