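import Vale.Agent.P298.H39.Den

/-!
# P298, block S1-GEO: monotonicity and positivity of fibre integrals
-/

open scoped ContDiff Topology Manifold ComplexConjugate
open Vale.Agent.P272.K MeasureTheory

noncomputable section

namespace Vale.Agent.P298.H39

section surface
variable {n : ℕ} {X : Type} [TopologicalSpace X] [ChartedSpace (Cm n) X]
  [IsManifold 𝓘(ℂ, Cm n) ω X] [T2Space X] [CompactSpace X]

theorem intX_pos' {D : Chart n X → Cm n → ℝ} (hD : INT.IsDensity D)
    (h : ∀ e x, At e x → 0 ≤ D e (e x)) {e₀ : Chart n X} {x : X} (hx₀ : At e₀ x)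
    (hpos : 0 < D e₀ (e₀ x)) : 0 < INT.intX D := by
  set P := INT.part n X with hP
  have h1 : ∃ i, 0 < P.ρ i x := by
    by_contra hcon
    push Not at hcon
    have := P.sum x
    have h2 : ∑ i, P.ρ i x ≤ 0 := Finset.sum_nonpos fun i _ => hcon i
    linarith
  obtain ⟨i, hi⟩ := h1
  have hx : x ∈ (P.e i).source := P.supp i (subset_tsupport _ (by
    simp only [Function.mem_support]; exact hi.ne'))
  have hAt : At (P.e i) x := ⟨P.mem i, hx⟩
  have hDx : 0 < D (P.e i) (P.e i x) := by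
    rcases (h (P.e i) x hAt).lt_or_eq with h2 | h2
    · exact h2
    · have h3 := hD.change e₀ (P.e i) x hx₀ hAt
      rw [← h2, zero_mul] at h3
      rw [h3] at hpos
      exact absurd hpos (lt_irrefl _)
  have hDi : ∀ z ∈ (P.e i).target, 0 ≤ D (P.e i) z := fun z hz => by
    have := h (P.e i) ((P.e i).symm z) ⟨P.mem i, (P.e i).map_target hz⟩
    rwa [(P.e i).right_inv hz] at this
  unfold INT.intX
  rw [← hP]
  refine Finset.sum_pos' (fun j _ => ?_) ⟨i, Finset.mem_univ i, ?_⟩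
  · refine setIntegral_nonneg (P.e j).open_target.measurableSet fun z hz => ?_
    have := h (P.e j) ((P.e j).symm z) ⟨P.mem j, (P.e j).map_target hz⟩
    rw [(P.e j).right_inv hz] at this
    exact mul_nonneg (P.nonneg j _) this
  · rw [setIntegral_pos_iff_support_of_nonneg_ae]
    · have hU : {z | z ∈ (P.e i).target ∧ 0 < P.ρ i ((P.e i).symm z) ∧ 0 < D (P.e i) z} ∈
          𝓝 (P.e i x) := by
        have a1 : ∀ᶠ z in 𝓝 (P.e i x), z ∈ (P.e i).target :=
          (P.e i).open_target.mem_nhds ((P.e i).map_source hx)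
        have a2 : ∀ᶠ z in 𝓝 (P.e i x), 0 < P.ρ i ((P.e i).symm z) := by
          have h5 : ContinuousAt (fun z => P.ρ i ((P.e i).symm z)) (P.e i x) :=
            (P.cont i).continuousAt.comp ((P.e i).continuousAt_symm ((P.e i).map_source hx))
          refine h5.eventually (lt_mem_nhds ?_)
          show 0 < P.ρ i ((P.e i).symm (P.e i x))
          rw [(P.e i).left_inv hx]
          exact hi
        have a3 : ∀ᶠ z in 𝓝 (P.e i x), 0 < D (P.e i) z :=
          (hD.cont (P.e i) x hAt).eventually (lt_mem_nhds hDx)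
        filter_upwards [a1, a2, a3] with z h1 h2 h3 using ⟨h1, h2, h3⟩
      refine (Measure.measure_pos_of_mem_nhds volume hU).trans_le (measure_mono ?_)
      rintro z ⟨hz1, hz2, hz3⟩
      refine ⟨?_, hz1⟩
      simp only [Function.mem_support]
      exact (mul_pos hz2 hz3).ne'
    · filter_upwards [self_mem_ae_restrict (P.e i).open_target.measurableSet] with z hz
      exact mul_nonneg (P.nonneg i _) (hDi z hz)
    · exact INT.integrableOn_part P hD i

end surface

variable {Z : Type} [TopologicalSpace Z] [T2Space Z] {F : Fam Z}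

lemma intF_re {t : ℂ} (ht : t ∈ F.Ω) [CompactSpace (F.Fib t)] (D : PC Z → Cm 2 × ℂ → ℂ) :
    (intF F t D).re = INT.intX (n := 2) (X := F.Fib t) fun f w => (res F t D f w).re := by
  rw [intF_def ht]
  simp

lemma intF_re_nonneg {D : PC Z → Cm 2 × ℂ → ℂ} (hD : IsDen F D) {t : ℂ}
    (h : ∀ e ∈ F.A, ∀ q ∈ e.target, q.2 = t → 0 ≤ (D e q).re) : 0 ≤ (intF F t D).re := by
  by_cases ht : t ∈ F.Ω
  · have := F.compact_fib ht
    rw [intF_re ht]
    refine INT.intX_nonneg fun f x hx => ?_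
    obtain ⟨e, he⟩ := mem_atlas_fib.mp hx.1
    rw [hD.res_apply he hx.2]
    refine h e he.mem _ (e.map_source ((he.src x).mp hx.2)) ?_
    rw [he.apply hx.2]
  · rw [intF, dif_neg ht, Complex.zero_re]

lemma intF_re_mono {D D' : PC Z → Cm 2 × ℂ → ℂ} (hD : IsDen F D) (hD' : IsDen F D') {t : ℂ}
    (h : ∀ e ∈ F.A, ∀ q ∈ e.target, q.2 = t → (D e q).re ≤ (D' e q).re) :
    (intF F t D).re ≤ (intF F t D').re := by
  have h1 := hD'.add (hD.const_mul (-1))
  have h2 := intF_re_nonneg h1 (t := t) (fun e he q hq hqt => by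
    have := h e he q hq hqt
    simp only [Complex.add_re, neg_mul, one_mul, Complex.neg_re]
    linarith)
  rw [intF_add t hD' (hD.const_mul (-1)), intF_const_mul t (-1) hD] at h2
  simp only [Complex.add_re, neg_mul, one_mul, Complex.neg_re] at h2
  linarith

lemma intF_re_pos {D : PC Z → Cm 2 × ℂ → ℂ} (hD : IsDen F D) {t : ℂ}
    (h : ∀ e ∈ F.A, ∀ q ∈ e.target, q.2 = t → 0 ≤ (D e q).re) {e₀ : PC Z} (he₀ : e₀ ∈ F.A)
    {q : Cm 2 × ℂ} (hq : q ∈ e₀.target) (hqt : q.2 = t) (hpos : 0 < (D e₀ q).re) :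
    0 < (intF F t D).re := by
  have hpz : F.p (e₀.symm q) = t := by rw [Fam.p_symm he₀ hq, hqt]
  have ht : t ∈ F.Ω := hpz ▸ F.p_mem _
  have := F.compact_fib ht
  rw [intF_re ht]
  set z₀ : F.Fib t := ⟨e₀.symm q, hpz⟩ with hz₀
  have hFC := isFC_fch z₀ he₀
  have hsrc : z₀ ∈ (fch z₀ e₀ he₀).source := (hFC.src z₀).mpr (e₀.map_target hq)
  refine intX_pos' (hD.isDensity_re t) (fun f x hx => ?_) (e₀ := fch z₀ e₀ he₀) (x := z₀)
    ⟨mem_atlas_fib.mpr ⟨e₀, hFC⟩, hsrc⟩ ?_
  · obtain ⟨e, he⟩ := mem_atlas_fib.mp hx.1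
    rw [hD.res_apply he hx.2]
    refine h e he.mem _ (e.map_source ((he.src x).mp hx.2)) ?_
    rw [he.apply hx.2]
  · rw [hD.res_apply hFC hsrc]
    have : e₀ z₀.val = q := e₀.right_inv hq
    rw [this]
    exact hpos

end Vale.Agent.P298.H39
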