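import Vale.Agent.P298.H39.Asm2
import Vale.Agent.P298.H39.Pos
import Vale.Agent.P298.H723.Comp

/-!
# P298, block S1-GEO: relative holomorphic 2-forms
-/

open scoped ContDiff Topology Manifold ComplexConjugate
open Vale.Agent.P272.K MeasureTheory

set_option maxSynthPendingDepth 3

noncomputable section

namespace Vale.Agent.P298.H39

open H723 (dzz dzz_apply)

section linear

lemma prg_dzz_dzz : prg dzz dzz = 0 := by
  simp only [prg, dzz_apply, bs]
  simp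

lemma prg_act_dzz (B : Cm 2 →L[ℝ] Cm 2) : prg (act B dzz) dzz = 0 := by
  have ha : ∀ u v, dzz u v = -dzz v u := fun u v => by rw [dzz_apply, dzz_apply]; ring
  have h := prg_act B ha ha
  rw [prg_dzz_dzz, mul_zero, prg_comm dzz] at h
  linear_combination h / 2

lemma prh_dzz_dzz : prh dzz dzz = 4 := by
  simp only [prh, prg, cjB_apply, dzz_apply, bs]
  simp
  norm_num

lemma prg_cjdzz_cjdzz : prg (cjB dzz) (cjB dzz) = 0 := by
  rw [prg_cjB, prg_dzz_dzz, map_zero]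

lemma dzz_smul_left (s : ℂ) (u v : Cm 2) : dzz (s • u) v = s * dzz u v := by
  simp only [dzz_apply, Pi.smul_apply, smul_eq_mul]; ring

lemma dzz_smul_right (s : ℂ) (u v : Cm 2) : dzz u (s • v) = s * dzz u v := by
  simp only [dzz_apply, Pi.smul_apply, smul_eq_mul]; ring

variable {v : Cm 2 × ℂ → Cm 2} {h : Cm 2 × ℂ → ℂ} {q : Cm 2 × ℂ}

lemma hasFDerivAt_form (hh : DifferentiableAt ℝ h q) :
    HasFDerivAt (fun q => h q • dzz) ((fderiv ℝ h q).smulRight dzz) q :=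
  hh.hasFDerivAt.smul_const dzz

lemma fderiv_form (hh : DifferentiableAt ℂ h q) (W : Cm 2 × ℂ) :
    fderiv ℝ (fun q => h q • dzz) q W = (fderiv ℂ h q W) • dzz := by
  rw [(hasFDerivAt_form (hh.restrictScalars ℝ)).fderiv, hh.fderiv_restrictScalars ℝ]
  rfl

lemma lieB_form (hh : DifferentiableAt ℂ h q) (s : ℂ) :
    lieB v s (fun q => h q • dzz) q = s • (fderiv ℂ h q (v q, 1) • dzz + h q • act (dfv v q) dzz) := by
  have h1 : ((s • v q, s) : Cm 2 × ℂ) = s • (v q, (1 : ℂ)) := by simp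
  rw [lieB, fderiv_form hh, h1, map_smul, smul_add]
  congr 1
  · rw [smul_smul, smul_eq_mul]
  · ext u x
    simp only [act_apply, ContinuousLinearMap.smul_apply, smul_eq_mul, dzz_smul_left,
      dzz_smul_right]
    ring

lemma prg_lieB_form (hh : DifferentiableAt ℂ h q) (s c : ℂ) :
    prg (lieB v s (fun q => h q • dzz) q) (c • dzz) = 0 := by
  rw [lieB_form hh, prg_smul_left, prg_comm, prg_smul_left, prg_comm, prg_add_left, prg_smul_left,
    prg_smul_left, prg_dzz_dzz, prg_act_dzz]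
  simp

end linear

variable {Z : Type} [TopologicalSpace Z] {F : Fam Z} {σ : Z ≃ₜ Z} {χ : ℂ}

/-- coefficient of a relative holomorphic 2-form -/
structure HCf (F : Fam Z) (h : PC Z → Cm 2 × ℂ → ℂ) : Prop where
  an : ∀ e ∈ F.A, ∀ q ∈ e.target, AnalyticAt ℂ (h e) q
  change : ∀ e ∈ F.A, ∀ e' ∈ F.A, ∀ z ∈ e.source, z ∈ e'.source →
    h e (e z) = (fj e e' z (Pi.single 0 1) 0 * fj e e' z (Pi.single 1 1) 1 -
      fj e e' z (Pi.single 0 1) 1 * fj e e' z (Pi.single 1 1) 0) * h e' (e' z)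

/-- character of a coefficient -/
def HCh (F : Fam Z) (σ : Z ≃ₜ Z) (χ : ℂ) (h : PC Z → Cm 2 × ℂ → ℂ) : Prop :=
  ∀ e ∈ F.A, ∀ q ∈ e.target, h e q = χ * h (σ.transOpenPartialHomeomorph e) q

/-- the form with coefficient `h` -/
def fm (h : PC Z → Cm 2 × ℂ → ℂ) : PC Z → Cm 2 × ℂ → BF := fun e q => h e q • dzz

/-- the conjugate of the form with coefficient `h` -/
def fmc (h : PC Z → Cm 2 × ℂ → ℂ) : PC Z → Cm 2 × ℂ → BF := fun e q => cjB (h e q • dzz)

variable {h : PC Z → Cm 2 × ℂ → ℂ}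

lemma HCf.diff (hh : HCf F h) {e : PC Z} (he : e ∈ F.A) {q : Cm 2 × ℂ} (hq : q ∈ e.target) :
    DifferentiableAt ℂ (h e) q := (hh.an e he q hq).differentiableAt

lemma dzz_pull {e e' : PC Z} (he : e ∈ F.A) (he' : e' ∈ F.A) {z : Z} (hz : z ∈ e.source)
    (hz' : z ∈ e'.source) (u v : Cm 2) : dzz (fj e e' z u) (fj e e' z v) =
      (fj e e' z (Pi.single 0 1) 0 * fj e e' z (Pi.single 1 1) 1 -
      fj e e' z (Pi.single 0 1) 1 * fj e e' z (Pi.single 1 1) 0) * dzz u v := by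
  have key : ∀ u : Cm 2, fj e e' z u = u 0 • fj e e' z (Pi.single 0 1) +
      u 1 • fj e e' z (Pi.single 1 1) := by
    intro u
    have h1 : u = u 0 • (Pi.single 0 1 : Cm 2) + u 1 • (Pi.single 1 1 : Cm 2) := by
      funext j
      fin_cases j <;> simp
    simp only [← fjL_apply]
    conv_lhs => rw [h1]
    rw [map_add, fjL_smul he he' hz hz', fjL_smul he he' hz hz']
  rw [key u, key v]
  simp only [dzz_apply, Pi.add_apply, Pi.smul_apply, smul_eq_mul]
  ring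

lemma isRF2_fm (hh : HCf F h) : IsRF2 F (fm h) where
  smooth e he q hq := by
    have h1 : ContDiffAt ℝ ∞ (h e) q :=
      ((hh.an e he q hq).contDiffAt (n := ∞)).restrict_scalars ℝ
    exact h1.smul contDiffAt_const
  alt e he q hq u v := by
    show h e q * dzz u v = -(h e q * dzz v u)
    rw [dzz_apply, dzz_apply]; ring
  change e he e' he' z hz hz' u v := by
    show h e (e z) * dzz u v = h e' (e' z) * dzz _ _
    rw [dzz_pull he he' hz hz', hh.change e he e' he' z hz hz']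
    ring

lemma isCl2_fm (hh : HCf F h) : IsCl2 F (fm h) := by
  intro e he q hq u v x
  have hd := hh.diff he hq
  show fderiv ℝ (fun q => h e q • dzz) q (u, 0) v x - fderiv ℝ (fun q => h e q • dzz) q (v, 0) u x +
    fderiv ℝ (fun q => h e q • dzz) q (x, 0) u v = 0
  rw [fderiv_form hd, fderiv_form hd, fderiv_form hd]
  have key : ∀ u : Cm 2, fderiv ℂ (h e) q (u, 0) = u 0 * fderiv ℂ (h e) q (Pi.single 0 1, 0) +
      u 1 * fderiv ℂ (h e) q (Pi.single 1 1, 0) := by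
    intro u
    have h1 : ((u, 0) : Cm 2 × ℂ) = u 0 • ((Pi.single 0 1 : Cm 2), (0 : ℂ)) +
        u 1 • ((Pi.single 1 1 : Cm 2), (0 : ℂ)) := by
      ext j
      · fin_cases j <;> simp
      · simp
    rw [h1, map_add, map_smul, map_smul]
    rfl
  show fderiv ℂ (h e) q (u, 0) * dzz v x - fderiv ℂ (h e) q (v, 0) * dzz u x +
    fderiv ℂ (h e) q (x, 0) * dzz u v = 0
  rw [key u, key v, key x, dzz_apply, dzz_apply, dzz_apply]
  ring

lemma isRF2_fmc (hh : HCf F h) : IsRF2 F (fmc h) := isRF2_cjB (isRF2_fm hh)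

lemma isCl2_fmc (hh : HCf F h) : IsCl2 F (fmc h) := isCl2_cjB (isRF2_fm hh) (isCl2_fm hh)

lemma hasCh_fm (hc : HCh F σ χ h) : HasCh F σ χ (fm h) := by
  intro e he q hq
  show h e q • dzz = χ • (h _ q • dzz)
  rw [hc e he q hq, smul_smul]

lemma hasCh_fmc (hc : HCh F σ (conj χ) h) : HasCh F σ χ (fmc h) := by
  intro e he q hq
  show cjB (h e q • dzz) = χ • cjB (h _ q • dzz)
  rw [hc e he q hq, cjB_smul, cjB_smul, smul_smul, map_mul, Complex.conj_conj]

/-- the element of the module given by a holomorphic form -/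
def mF (hσ : IsDeck F σ) (hh : HCf F h) (hc : HCh F σ χ h) : Md F σ χ :=
  mk F hσ (fm h) (isRF2_fm hh) (isCl2_fm hh) (hasCh_fm hc)

/-- the element of the module given by an antiholomorphic form -/
def mG (hσ : IsDeck F σ) (hh : HCf F h) (hc : HCh F σ (conj χ) h) : Md F σ χ :=
  mk F hσ (fmc h) (isRF2_fmc hh) (isCl2_fmc hh) (hasCh_fmc hc)

lemma mF_apply {hσ : IsDeck F σ} {hh : HCf F h} {hc : HCh F σ χ h} {e : PC Z} {q : Cm 2 × ℂ}
    (he : e ∈ F.A) (hq : q ∈ e.target) : (mF hσ hh hc).1 e q = h e q • dzz := nrm_of he hq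

lemma mG_apply {hσ : IsDeck F σ} {hh : HCf F h} {hc : HCh F σ (conj χ) h} {e : PC Z}
    {q : Cm 2 × ℂ} (he : e ∈ F.A) (hq : q ∈ e.target) :
    (mG hσ hh hc).1 e q = cjB (h e q • dzz) := nrm_of he hq

lemma lieM_mF {v : PC Z → Cm 2 × ℂ → Cm 2} (hσ : IsDeck F σ) (hv : IsLift F v)
    (hvσ : LInv F σ v) (hh : HCf F h) (hc : HCh F σ χ h) (s : ℂ) {e : PC Z} {q : Cm 2 × ℂ}
    (he : e ∈ F.A) (hq : q ∈ e.target) : (lieM hσ hv hvσ χ s (mF hσ hh hc)).1 e q =
      lieB (v e) s (fun q => h e q • dzz) q := by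
  rw [lieM_apply hσ hv hvσ s _ he hq]
  have h5 : (mF hσ hh hc).1 e =ᶠ[𝓝 q] fun q => h e q • dzz := by
    filter_upwards [e.open_target.mem_nhds hq] with q' hq'
    exact mF_apply he hq'
  rw [lieB, lieB, h5.fderiv_eq, h5.eq_of_nhds]

lemma lieM_mG {v : PC Z → Cm 2 × ℂ → Cm 2} (hσ : IsDeck F σ) (hv : IsLift F v)
    (hvσ : LInv F σ v) (hh : HCf F h) (hc : HCh F σ (conj χ) h) (s : ℂ) {e : PC Z}
    {q : Cm 2 × ℂ} (he : e ∈ F.A) (hq : q ∈ e.target) :
    (lieM hσ hv hvσ χ s (mG hσ hh hc)).1 e q =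
      cjB (lieB (v e) s (fun q => h e q • dzz) q) := by
  rw [lieM_apply hσ hv hvσ s _ he hq]
  have h5 : (mG hσ hh hc).1 e =ᶠ[𝓝 q] fun q => cjB (h e q • dzz) := by
    filter_upwards [e.open_target.mem_nhds hq] with q' hq'
    exact mG_apply he hq'
  have h6 := lieB_cjB (v := v e) ((hasFDerivAt_form
    ((hh.diff he hq).restrictScalars ℝ)).differentiableAt) s
  rw [← h6, lieB, lieB, h5.fderiv_eq, h5.eq_of_nhds]

/-- holomorphic forms are killed by `D'` -/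
lemma DM'_mF {v : PC Z → Cm 2 × ℂ → Cm 2} (hσ : IsDeck F σ) (hv : IsLift F v)
    (hvσ : LInv F σ v) (hh : HCf F h) (hc : HCh F σ χ h) :
    DM' hσ hv hvσ χ (mF hσ hh hc) = 0 := by
  apply Md.ext'
  intro e he q hq
  show (1 / 2 : ℂ) • ((lieM hσ hv hvσ χ 1 (mF hσ hh hc)).1 e q +
    Complex.I • (lieM hσ hv hvσ χ Complex.I (mF hσ hh hc)).1 e q) = 0
  rw [lieM_mF hσ hv hvσ hh hc 1 he hq, lieM_mF hσ hv hvσ hh hc Complex.I he hq,
    lieB_form (hh.diff he hq), lieB_form (hh.diff he hq), smul_smul, Complex.I_mul_I, ← add_smul]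
  simp

/-- antiholomorphic forms are killed by `D` -/
lemma DM_mG {v : PC Z → Cm 2 × ℂ → Cm 2} (hσ : IsDeck F σ) (hv : IsLift F v)
    (hvσ : LInv F σ v) (hh : HCf F h) (hc : HCh F σ (conj χ) h) :
    DM hσ hv hvσ χ (mG hσ hh hc) = 0 := by
  apply Md.ext'
  intro e he q hq
  show (1 / 2 : ℂ) • ((lieM hσ hv hvσ χ 1 (mG hσ hh hc)).1 e q -
    Complex.I • (lieM hσ hv hvσ χ Complex.I (mG hσ hh hc)).1 e q) = 0
  rw [lieM_mG hσ hv hvσ hh hc 1 he hq, lieM_mG hσ hv hvσ hh hc Complex.I he hq,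
    lieB_form (hh.diff he hq), lieB_form (hh.diff he hq), cjB_smul, cjB_smul, Complex.conj_I,
    map_one, smul_smul, mul_neg, Complex.I_mul_I, ← sub_smul]
  simp

/-- the derivative of a holomorphic form in a chart -/
lemma DM_mF_apply {v : PC Z → Cm 2 × ℂ → Cm 2} (hσ : IsDeck F σ) (hv : IsLift F v)
    (hvσ : LInv F σ v) (hh : HCf F h) (hc : HCh F σ χ h) {e : PC Z} {q : Cm 2 × ℂ}
    (he : e ∈ F.A) (hq : q ∈ e.target) : (DM hσ hv hvσ χ (mF hσ hh hc)).1 e q =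
      fderiv ℂ (h e) q (v e q, 1) • dzz + h e q • act (dfv (v e) q) dzz := by
  show (1 / 2 : ℂ) • ((lieM hσ hv hvσ χ 1 (mF hσ hh hc)).1 e q -
    Complex.I • (lieM hσ hv hvσ χ Complex.I (mF hσ hh hc)).1 e q) = _
  rw [lieM_mF hσ hv hvσ hh hc 1 he hq, lieM_mF hσ hv hvσ hh hc Complex.I he hq,
    lieB_form (hh.diff he hq), lieB_form (hh.diff he hq), smul_smul, Complex.I_mul_I, ← sub_smul,
    smul_smul]
  norm_num

variable [T2Space Z] {k : PC Z → Cm 2 × ℂ → ℂ}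

lemma QM_zero_of (t : ℂ) {a b : Md F σ χ}
    (hab : ∀ e ∈ F.A, ∀ q ∈ e.target, prh (a.1 e q) (b.1 e q) = 0) : QM F σ χ t a b = 0 := by
  rw [QM_apply, ← intF_zero (F := F) t]
  exact intF_congr (isDen_prh (mRF a) (mRF b)) isDen_zero fun e he q hq _ => hab e he q hq

/-- orthogonality of types -/
lemma QM_mF_mG (hσ : IsDeck F σ) (hh : HCf F h) (hc : HCh F σ χ h) (hk : HCf F k)
    (hck : HCh F σ (conj χ) k) (t : ℂ) : QM F σ χ t (mF hσ hh hc) (mG hσ hk hck) = 0 := by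
  refine QM_zero_of t fun e he q hq => ?_
  rw [mF_apply he hq, mG_apply he hq, prh, cjB_cjB, prg_smul_left, prg_comm, prg_smul_left,
    prg_dzz_dzz, mul_zero, mul_zero]

/-- transversality -/
lemma QM_DM_mG {v : PC Z → Cm 2 × ℂ → Cm 2} (hσ : IsDeck F σ) (hv : IsLift F v)
    (hvσ : LInv F σ v) (hh : HCf F h) (hc : HCh F σ χ h) (hk : HCf F k)
    (hck : HCh F σ (conj χ) k) (t : ℂ) :
    QM F σ χ t (DM hσ hv hvσ χ (mF hσ hh hc)) (mG hσ hk hck) = 0 := by
  refine QM_zero_of t fun e he q hq => ?_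
  rw [DM_mF_apply hσ hv hvσ hh hc he hq, mG_apply he hq, prh, cjB_cjB, prg_comm, prg_smul_left,
    prg_comm, prg_add_left, prg_smul_left, prg_smul_left, prg_dzz_dzz, prg_act_dzz]
  simp

/-- positivity: a form which is everywhere a multiple of `dzz` -/
lemma QM_pos {a : Md F σ χ} {c : PC Z → Cm 2 × ℂ → ℂ}
    (ha : ∀ e ∈ F.A, ∀ q ∈ e.target, a.1 e q = c e q • dzz) {t : ℂ} {e₀ : PC Z} (he₀ : e₀ ∈ F.A)
    {q₀ : Cm 2 × ℂ} (hq₀ : q₀ ∈ e₀.target) (hqt : q₀.2 = t) (h0 : c e₀ q₀ ≠ 0) :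
    0 < (QM F σ χ t a a).re := by
  have key : ∀ e ∈ F.A, ∀ q ∈ e.target, prh (a.1 e q) (a.1 e q) =
      ((4 * Complex.normSq (c e q) : ℝ) : ℂ) := by
    intro e he q hq
    rw [ha e he q hq, prh_smul_left, prh_smul_right, prh_dzz_dzz, ← mul_assoc, Complex.mul_conj]
    push_cast
    ring
  refine intF_re_pos (isDen_prh (mRF a) (mRF a)) (fun e he q hq _ => ?_) he₀ hq₀ hqt ?_
  · rw [key e he q hq, Complex.ofReal_re]
    exact mul_nonneg (by norm_num) (Complex.normSq_nonneg _)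
  · rw [key e₀ he₀ q₀ hq₀, Complex.ofReal_re]
    exact mul_pos (by norm_num) (Complex.normSq_pos.mpr h0)

/-- positivity, antiholomorphic case -/
lemma QM_pos' {a : Md F σ χ} {c : PC Z → Cm 2 × ℂ → ℂ}
    (ha : ∀ e ∈ F.A, ∀ q ∈ e.target, a.1 e q = cjB (c e q • dzz)) {t : ℂ} {e₀ : PC Z}
    (he₀ : e₀ ∈ F.A) {q₀ : Cm 2 × ℂ} (hq₀ : q₀ ∈ e₀.target) (hqt : q₀.2 = t) (h0 : c e₀ q₀ ≠ 0) :
    0 < (QM F σ χ t a a).re := by
  have key : ∀ e ∈ F.A, ∀ q ∈ e.target, prh (a.1 e q) (a.1 e q) =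
      ((4 * Complex.normSq (c e q) : ℝ) : ℂ) := by
    intro e he q hq
    have h1 : prh (cjB (c e q • dzz)) (cjB (c e q • dzz)) =
        conj (prh (c e q • dzz) (c e q • dzz)) := by
      rw [prh, prh, ← prg_cjB]
    rw [ha e he q hq, h1, prh_smul_left, prh_smul_right, prh_dzz_dzz, ← mul_assoc,
      Complex.mul_conj, map_mul, Complex.conj_ofReal, map_ofNat]
    push_cast
    ring
  refine intF_re_pos (isDen_prh (mRF a) (mRF a)) (fun e he q hq _ => ?_) he₀ hq₀ hqt ?_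
  · rw [key e he q hq, Complex.ofReal_re]
    exact mul_nonneg (by norm_num) (Complex.normSq_nonneg _)
  · rw [key e₀ he₀ q₀ hq₀, Complex.ofReal_re]
    exact mul_pos (by norm_num) (Complex.normSq_pos.mpr h0)

end Vale.Agent.P298.H39
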