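import Vale.Agent.P298.H39.Stokes2
import Vale.Agent.P298.H265.Conn
import Vale.Agent.P298.H365.R1Flat
import Vale.Agent.P298.H369.R1Nat

/-!
# P298, block S1-GEO: the module of relative closed 2-forms, its pairing and its derivations
-/

open scoped ContDiff Topology Manifold ComplexConjugate
open Vale.Agent.P272.K MeasureTheory

set_option maxSynthPendingDepth 3

noncomputable section

namespace Vale.Agent.P298.H39

section linear

lemma act_add (B : Cm 2 →L[ℝ] Cm 2) (α β : BF) : act B (α + β) = act B α + act B β := by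
  ext u x
  simp only [act_apply, _root_.add_apply]
  ring

lemma act_smul (B : Cm 2 →L[ℝ] Cm 2) (c : ℂ) (α : BF) : act B (c • α) = c • act B α := by
  ext u x
  simp only [act_apply, ContinuousLinearMap.smul_apply, smul_eq_mul]
  ring

lemma act_add_left (B C : Cm 2 →L[ℝ] Cm 2) (α : BF) : act (B + C) α = act B α + act C α := by
  ext u x
  simp only [act_apply, _root_.add_apply, map_add]
  ring

lemma act_smul_left (r : ℝ) (B : Cm 2 →L[ℝ] Cm 2) (α : BF) : act (r • B) α = r • act B α := by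
  ext u x
  simp only [act_apply, ContinuousLinearMap.smul_apply, map_smul, smul_add]

lemma act_cjB (B : Cm 2 →L[ℝ] Cm 2) (α : BF) : act B (cjB α) = cjB (act B α) := by
  ext u x
  simp only [act_apply, cjB_apply, map_add]

lemma cjB_add (α β : BF) : cjB (α + β) = cjB α + cjB β := by
  ext u x
  simp only [cjB_apply, _root_.add_apply, map_add]

lemma cjB_smul (c : ℂ) (α : BF) : cjB (c • α) = conj c • cjB α := by
  ext u x
  simp only [cjB_apply, ContinuousLinearMap.smul_apply, smul_eq_mul, map_mul]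

lemma cjB_rsmul (c : ℝ) (α : BF) : cjB (c • α) = c • cjB α := by
  ext u x
  simp only [cjB_apply, ContinuousLinearMap.smul_apply, Complex.real_smul, map_mul,
    Complex.conj_ofReal]

lemma cjB_cjB (α : BF) : cjB (cjB α) = α := by
  ext u x
  simp only [cjB_apply, Complex.conj_conj]

lemma prg_add_left (α α' β : BF) : prg (α + α') β = prg α β + prg α' β := by
  simp only [prg, _root_.add_apply]
  ring

lemma prg_smul_left (c : ℂ) (α β : BF) : prg (c • α) β = c * prg α β := by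
  simp only [prg, ContinuousLinearMap.smul_apply, smul_eq_mul]
  ring

lemma prg_comm (α β : BF) : prg α β = prg β α := by
  simp only [prg]
  ring

lemma prg_cjB (α β : BF) : prg (cjB α) (cjB β) = conj (prg α β) := by
  simp only [prg, cjB_apply, map_add, map_sub, map_mul]

lemma prh_add_left (α α' β : BF) : prh (α + α') β = prh α β + prh α' β := prg_add_left _ _ _

lemma prh_smul_left (c : ℂ) (α β : BF) : prh (c • α) β = c * prh α β := prg_smul_left _ _ _

lemma prh_conj (α β : BF) : prh α β = conj (prh β α) := by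
  rw [prh, prh, ← prg_cjB, cjB_cjB, prg_comm]

lemma prh_add_right (α β β' : BF) : prh α (β + β') = prh α β + prh α β' := by
  rw [prh_conj, prh_add_left, map_add, ← prh_conj, ← prh_conj]

lemma prh_smul_right (c : ℂ) (α β : BF) : prh α (c • β) = conj c * prh α β := by
  rw [prh_conj, prh_smul_left, map_mul, ← prh_conj]

lemma prh_zero_left (β : BF) : prh 0 β = 0 := by
  have := prh_smul_left 0 0 β
  simpa using this

end linear

variable {Z : Type} [TopologicalSpace Z] {F : Fam Z}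

/-- deck transformation of a family -/
structure IsDeck (F : Fam Z) (σ : Z ≃ₜ Z) : Prop where
  p_eq : ∀ z, F.p (σ z) = F.p z
  mem : ∀ e ∈ F.A, σ.transOpenPartialHomeomorph e ∈ F.A

/-- `σ` acts by the character `χ` -/
def HasCh (F : Fam Z) (σ : Z ≃ₜ Z) (χ : ℂ) (α : PC Z → Cm 2 × ℂ → BF) : Prop :=
  ∀ e ∈ F.A, ∀ q ∈ e.target, α e q = χ • α (σ.transOpenPartialHomeomorph e) q

/-- zero off the charts -/
def IsN (F : Fam Z) (α : PC Z → Cm 2 × ℂ → BF) : Prop :=
  ∀ e q, ¬ (e ∈ F.A ∧ q ∈ e.target) → α e q = 0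

/-- normalisation: zero off the charts -/
def nrm (F : Fam Z) (α : PC Z → Cm 2 × ℂ → BF) : PC Z → Cm 2 × ℂ → BF := fun e q =>
  open Classical in if e ∈ F.A ∧ q ∈ e.target then α e q else 0

lemma nrm_of {α : PC Z → Cm 2 × ℂ → BF} {e : PC Z} {q : Cm 2 × ℂ} (he : e ∈ F.A)
    (hq : q ∈ e.target) : nrm F α e q = α e q := if_pos ⟨he, hq⟩

lemma nrm_off {α : PC Z → Cm 2 × ℂ → BF} {e : PC Z} {q : Cm 2 × ℂ}
    (h : ¬ (e ∈ F.A ∧ q ∈ e.target)) : nrm F α e q = 0 := if_neg h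

lemma isN_nrm (α : PC Z → Cm 2 × ℂ → BF) : IsN F (nrm F α) := fun _ _ h => nrm_off h

lemma nrm_ev {α : PC Z → Cm 2 × ℂ → BF} {e : PC Z} {q : Cm 2 × ℂ} (he : e ∈ F.A)
    (hq : q ∈ e.target) : nrm F α e =ᶠ[𝓝 q] α e := by
  filter_upwards [e.open_target.mem_nhds hq] with q' hq'
  exact nrm_of he hq'

section congr
variable {α β : PC Z → Cm 2 × ℂ → BF}

/-- equality on all charts -/
def EqA (F : Fam Z) (α β : PC Z → Cm 2 × ℂ → BF) : Prop := ∀ e ∈ F.A, ∀ q ∈ e.target, α e q = β e q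

lemma EqA.ev (h : EqA F α β) {e : PC Z} {q : Cm 2 × ℂ} (he : e ∈ F.A) (hq : q ∈ e.target) :
    α e =ᶠ[𝓝 q] β e := by
  filter_upwards [e.open_target.mem_nhds hq] with q' hq'
  exact h e he q' hq'

lemma eqA_nrm : EqA F (nrm F α) α := fun _ he _ hq => nrm_of he hq

lemma EqA.isRF2 (h : EqA F α β) (hβ : IsRF2 F β) : IsRF2 F α where
  smooth e he q hq := (hβ.smooth e he q hq).congr_of_eventuallyEq (h.ev he hq)
  alt e he q hq u v := by rw [h e he q hq, hβ.alt e he q hq u v]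
  change e he e' he' z hz hz' u v := by
    rw [h e he _ (e.map_source hz), h e' he' _ (e'.map_source hz'),
      hβ.change e he e' he' z hz hz' u v]

lemma EqA.isCl2 (h : EqA F α β) (hβ : IsCl2 F β) : IsCl2 F α := by
  intro e he q hq u v x
  rw [(h.ev he hq).fderiv_eq]
  exact hβ e he q hq u v x

lemma EqA.hasCh {σ : Z ≃ₜ Z} (hσ : IsDeck F σ) {χ : ℂ} (h : EqA F α β) (hβ : HasCh F σ χ β) :
    HasCh F σ χ α := by
  intro e he q hq
  rw [h e he q hq, h _ (hσ.mem e he) q hq]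
  exact hβ e he q hq

lemma EqA.lieF (h : EqA F α β) (v : PC Z → Cm 2 × ℂ → Cm 2) (s : ℂ) :
    EqA F (lieF v s α) (lieF v s β) := by
  intro e he q hq
  show lieB _ _ _ _ = lieB _ _ _ _
  rw [lieB, lieB, (h.ev he hq).fderiv_eq, h e he q hq]

end congr

section ops
variable {α β : PC Z → Cm 2 × ℂ → BF}

lemma IsRF2.add (hα : IsRF2 F α) (hβ : IsRF2 F β) : IsRF2 F (α + β) where
  smooth e he q hq := (hα.smooth e he q hq).add (hβ.smooth e he q hq)
  alt e he q hq u v := by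
    show α e q u v + β e q u v = -(α e q v u + β e q v u)
    rw [hα.alt e he q hq u v, hβ.alt e he q hq u v]; ring
  change e he e' he' z hz hz' u v := by
    show α e (e z) u v + β e (e z) u v = α e' (e' z) _ _ + β e' (e' z) _ _
    rw [hα.change e he e' he' z hz hz' u v, hβ.change e he e' he' z hz hz' u v]

lemma IsRF2.smul (c : ℂ) (hα : IsRF2 F α) : IsRF2 F (c • α) where
  smooth e he q hq := (hα.smooth e he q hq).const_smul c
  alt e he q hq u v := by
    show c * α e q u v = -(c * α e q v u)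
    rw [hα.alt e he q hq u v]; ring
  change e he e' he' z hz hz' u v := by
    show c * α e (e z) u v = c * α e' (e' z) _ _
    rw [hα.change e he e' he' z hz hz' u v]

lemma isRF2_zero : IsRF2 F (0 : PC Z → Cm 2 × ℂ → BF) where
  smooth _ _ _ _ := contDiffAt_const
  alt _ _ _ _ _ _ := by show (0 : ℂ) = -0; simp
  change _ _ _ _ _ _ _ _ _ := rfl

lemma IsRF2.diff (hα : IsRF2 F α) {e : PC Z} {q : Cm 2 × ℂ} (he : e ∈ F.A) (hq : q ∈ e.target) :
    DifferentiableAt ℝ (α e) q := (hα.smooth e he q hq).differentiableAt (by simp)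

lemma fderiv_add' (hα : IsRF2 F α) (hβ : IsRF2 F β) {e : PC Z} {q : Cm 2 × ℂ} (he : e ∈ F.A)
    (hq : q ∈ e.target) : fderiv ℝ ((α + β) e) q = fderiv ℝ (α e) q + fderiv ℝ (β e) q := by
  have : (α + β) e = α e + β e := rfl
  rw [this, fderiv_add (hα.diff he hq) (hβ.diff he hq)]

lemma fderiv_smul' (c : ℂ) (hα : IsRF2 F α) {e : PC Z} {q : Cm 2 × ℂ} (he : e ∈ F.A)
    (hq : q ∈ e.target) : fderiv ℝ ((c • α) e) q = c • fderiv ℝ (α e) q := by
  have : (c • α) e = c • α e := rfl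
  rw [this, fderiv_const_smul (hα.diff he hq)]

lemma IsCl2.add (hα : IsRF2 F α) (hβ : IsRF2 F β) (h : IsCl2 F α) (h' : IsCl2 F β) :
    IsCl2 F (α + β) := by
  intro e he q hq u v x
  rw [fderiv_add' hα hβ he hq]
  have h1 := h e he q hq u v x
  have h2 := h' e he q hq u v x
  simp only [_root_.add_apply]
  linear_combination h1 + h2

lemma IsCl2.smul (c : ℂ) (hα : IsRF2 F α) (h : IsCl2 F α) : IsCl2 F (c • α) := by
  intro e he q hq u v x
  rw [fderiv_smul' c hα he hq]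
  have h1 := h e he q hq u v x
  simp only [ContinuousLinearMap.smul_apply, smul_eq_mul]
  linear_combination c * h1

lemma isCl2_cjB (hα : IsRF2 F α) (h : IsCl2 F α) : IsCl2 F fun e q => cjB (α e q) := by
  intro e he q hq u v x
  have h0 := (hα.diff he hq).hasFDerivAt
  have h1 : HasFDerivAt (fun q => cjB (α e q))
      ((ContinuousLinearMap.compL ℝ (Cm 2) (Cm 2 →L[ℝ] ℂ) (Cm 2 →L[ℝ] ℂ)
        (ContinuousLinearMap.compL ℝ (Cm 2) ℂ ℂ (Complex.conjCLE : ℂ →L[ℝ] ℂ))).comp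
        (fderiv ℝ (α e) q)) q :=
    ((ContinuousLinearMap.compL ℝ (Cm 2) (Cm 2 →L[ℝ] ℂ) (Cm 2 →L[ℝ] ℂ)
        (ContinuousLinearMap.compL ℝ (Cm 2) ℂ ℂ
          (Complex.conjCLE : ℂ →L[ℝ] ℂ))).hasFDerivAt).comp q h0
  rw [h1.fderiv]
  have h2 := congrArg (starRingEnd ℂ) (h e he q hq u v x)
  rw [map_add, map_sub, map_zero] at h2
  exact h2

lemma HasCh.add {σ : Z ≃ₜ Z} {χ : ℂ} (h : HasCh F σ χ α) (h' : HasCh F σ χ β) :
    HasCh F σ χ (α + β) := by
  intro e he q hq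
  show α e q + β e q = χ • (α _ q + β _ q)
  rw [h e he q hq, h' e he q hq, smul_add]

lemma HasCh.smul {σ : Z ≃ₜ Z} {χ : ℂ} (c : ℂ) (h : HasCh F σ χ α) : HasCh F σ χ (c • α) := by
  intro e he q hq
  show c • α e q = χ • (c • α _ q)
  rw [h e he q hq, smul_comm]

end ops

/-- the module of relative closed 2-forms with character `χ` -/
def Md (F : Fam Z) (σ : Z ≃ₜ Z) (χ : ℂ) : Submodule ℂ (PC Z → Cm 2 × ℂ → BF) where
  carrier := {α | IsRF2 F α ∧ IsCl2 F α ∧ HasCh F σ χ α ∧ IsN F α}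
  add_mem' := by
    rintro α β ⟨h1, h2, h3, h4⟩ ⟨k1, k2, k3, k4⟩
    refine ⟨h1.add k1, h2.add h1 k1 k2, h3.add k3, fun e q h => ?_⟩
    show α e q + β e q = 0
    rw [h4 e q h, k4 e q h, add_zero]
  zero_mem' := by
    refine ⟨isRF2_zero, ?_, ?_, fun _ _ _ => rfl⟩
    · intro e he q hq u v x
      have : (0 : PC Z → Cm 2 × ℂ → BF) e = fun _ => 0 := rfl
      rw [this]
      simp
    · intro e he q hq
      show (0 : BF) = χ • (0 : BF)
      rw [smul_zero]
  smul_mem' := by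
    rintro c α ⟨h1, h2, h3, h4⟩
    refine ⟨h1.smul c, h2.smul c h1, h3.smul c, fun e q h => ?_⟩
    show c • α e q = 0
    rw [h4 e q h, smul_zero]

section Mdl
variable {σ : Z ≃ₜ Z} {χ : ℂ}

lemma mRF (a : Md F σ χ) : IsRF2 F a.1 := a.2.1
lemma mCl (a : Md F σ χ) : IsCl2 F a.1 := a.2.2.1
lemma mCh (a : Md F σ χ) : HasCh F σ χ a.1 := a.2.2.2.1
lemma mN (a : Md F σ χ) : IsN F a.1 := a.2.2.2.2

/-- element of the module from a form which is not normalised -/
def mk (F : Fam Z) {σ : Z ≃ₜ Z} (hσ : IsDeck F σ) {χ : ℂ} (α : PC Z → Cm 2 × ℂ → BF)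
    (h1 : IsRF2 F α) (h2 : IsCl2 F α) (h3 : HasCh F σ χ α) : Md F σ χ :=
  ⟨nrm F α, eqA_nrm.isRF2 h1, eqA_nrm.isCl2 h2, eqA_nrm.hasCh hσ h3, isN_nrm α⟩

lemma mk_apply {hσ : IsDeck F σ} {α : PC Z → Cm 2 × ℂ → BF} {h1 : IsRF2 F α} {h2 : IsCl2 F α}
    {h3 : HasCh F σ χ α} {e : PC Z} {q : Cm 2 × ℂ} (he : e ∈ F.A) (hq : q ∈ e.target) :
    (mk F hσ α h1 h2 h3).1 e q = α e q := nrm_of he hq

lemma Md.ext' {a b : Md F σ χ} (h : ∀ e ∈ F.A, ∀ q ∈ e.target, a.1 e q = b.1 e q) : a = b := by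
  apply Subtype.ext
  funext e q
  by_cases h1 : e ∈ F.A ∧ q ∈ e.target
  · exact h e h1.1 q h1.2
  · rw [mN a e q h1, mN b e q h1]

/-- invariance of the lift under the deck transformation -/
def LInv (F : Fam Z) (σ : Z ≃ₜ Z) (v : PC Z → Cm 2 × ℂ → Cm 2) : Prop :=
  ∀ e ∈ F.A, ∀ q ∈ e.target, v (σ.transOpenPartialHomeomorph e) q = v e q

lemma hasCh_lieF {v : PC Z → Cm 2 × ℂ → Cm 2} (hvσ : LInv F σ v) (s : ℂ)
    {α : PC Z → Cm 2 × ℂ → BF} (hα : IsRF2 F α) (hσ : IsDeck F σ) (h : HasCh F σ χ α) :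
    HasCh F σ χ (lieF v s α) := by
  intro e he q hq
  have hT := hσ.mem e he
  have hq' : q ∈ (σ.transOpenPartialHomeomorph e).target := hq
  have h1 : v (σ.transOpenPartialHomeomorph e) =ᶠ[𝓝 q] v e := by
    filter_upwards [e.open_target.mem_nhds hq] with q' hq'
    exact hvσ e he q' hq'
  have h2 : α e =ᶠ[𝓝 q] χ • α (σ.transOpenPartialHomeomorph e) := by
    filter_upwards [e.open_target.mem_nhds hq] with q' hq'
    exact h e he q' hq'
  show lieB (v e) s (α e) q = χ • lieB (v _) s (α _) q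
  rw [lieB, lieB, h2.fderiv_eq, h2.eq_of_nhds, dfv, dfv, h1.fderiv_eq, h1.eq_of_nhds,
    fderiv_const_smul (hα.diff hT hq'), smul_add]
  congr 1
  rw [Pi.smul_apply, act_smul]

/-- the Lie derivative on the module -/
def lieM {v : PC Z → Cm 2 × ℂ → Cm 2} (hσ : IsDeck F σ) (hv : IsLift F v) (hvσ : LInv F σ v)
    (χ : ℂ) (s : ℂ) : Md F σ χ →ₗ[ℂ] Md F σ χ where
  toFun a := mk F hσ (lieF v s a.1) (H369.r1Nat F v s a.1 hv (mRF a)).1
    ((H369.r1Nat F v s a.1 hv (mRF a)).2 (mCl a)) (hasCh_lieF hvσ s (mRF a) hσ (mCh a))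
  map_add' a b := by
    apply Md.ext'
    intro e he q hq
    show nrm F _ e q = nrm F _ e q + nrm F _ e q
    rw [nrm_of he hq, nrm_of he hq, nrm_of he hq]
    show lieB _ _ _ _ = lieB _ _ _ _ + lieB _ _ _ _
    have h1 : fderiv ℝ ((a + b).1 e) q = fderiv ℝ (a.1 e) q + fderiv ℝ (b.1 e) q :=
      fderiv_add' (mRF a) (mRF b) he hq
    have h2 : (a + b).1 e q = a.1 e q + b.1 e q := rfl
    rw [lieB, lieB, lieB, h1, h2, act_add, _root_.add_apply]
    abel
  map_smul' c a := by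
    apply Md.ext'
    intro e he q hq
    show nrm F _ e q = c • nrm F _ e q
    rw [nrm_of he hq, nrm_of he hq]
    show lieB _ _ _ _ = c • lieB _ _ _ _
    have h1 : fderiv ℝ ((c • a).1 e) q = c • fderiv ℝ (a.1 e) q :=
      fderiv_smul' c (mRF a) he hq
    have h2 : (c • a).1 e q = c • a.1 e q := rfl
    rw [lieB, lieB, h1, h2, act_smul, ContinuousLinearMap.smul_apply, smul_add]

lemma lieM_apply {v : PC Z → Cm 2 × ℂ → Cm 2} (hσ : IsDeck F σ) (hv : IsLift F v)
    (hvσ : LInv F σ v) (s : ℂ) (a : Md F σ χ) {e : PC Z} {q : Cm 2 × ℂ} (he : e ∈ F.A)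
    (hq : q ∈ e.target) : (lieM hσ hv hvσ χ s a).1 e q = lieB (v e) s (a.1 e) q := nrm_of he hq

/-- the derivation in the direction `t` -/
def DM {v : PC Z → Cm 2 × ℂ → Cm 2} (hσ : IsDeck F σ) (hv : IsLift F v) (hvσ : LInv F σ v)
    (χ : ℂ) : Md F σ χ →ₗ[ℂ] Md F σ χ :=
  (1 / 2 : ℂ) • (lieM hσ hv hvσ χ 1 - Complex.I • lieM hσ hv hvσ χ Complex.I)

/-- the derivation in the direction `conj t` -/
def DM' {v : PC Z → Cm 2 × ℂ → Cm 2} (hσ : IsDeck F σ) (hv : IsLift F v) (hvσ : LInv F σ v)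
    (χ : ℂ) : Md F σ χ →ₗ[ℂ] Md F σ χ :=
  (1 / 2 : ℂ) • (lieM hσ hv hvσ χ 1 + Complex.I • lieM hσ hv hvσ χ Complex.I)

/-- the pairing on the fibre over `t` -/
def QM (F : Fam Z) [T2Space Z] (σ : Z ≃ₜ Z) (χ : ℂ) (t : ℂ) :
    Md F σ χ →ₗ[ℂ] Md F σ χ →ₗ⋆[ℂ] ℂ :=
  LinearMap.mk₂'ₛₗ (RingHom.id ℂ) (starRingEnd ℂ)
    (fun a b => intF F t fun e q => prh (a.1 e q) (b.1 e q))
    (fun a a' b => by
      have := intF_add t (isDen_prh (mRF a) (mRF b)) (isDen_prh (mRF a') (mRF b))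
      rw [← this]
      congr 1
      funext e q
      exact prh_add_left _ _ _)
    (fun c a b => by
      have := intF_const_mul t c (isDen_prh (mRF a) (mRF b))
      show _ = c * _
      rw [← this]
      congr 1
      funext e q
      exact prh_smul_left _ _ _)
    (fun a b b' => by
      have := intF_add t (isDen_prh (mRF a) (mRF b)) (isDen_prh (mRF a) (mRF b'))
      rw [← this]
      congr 1
      funext e q
      exact prh_add_right _ _ _)
    (fun c a b => by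
      have := intF_const_mul t (conj c) (isDen_prh (mRF a) (mRF b))
      show _ = conj c * _
      rw [← this]
      congr 1
      funext e q
      exact prh_smul_right _ _ _)

lemma QM_apply [T2Space Z] (t : ℂ) (a b : Md F σ χ) :
    QM F σ χ t a b = intF F t fun e q => prh (a.1 e q) (b.1 e q) := rfl

end Mdl

end Vale.Agent.P298.H39
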