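import Vale.Agent.P298.H39.Asm3

/-!
# P298, block S1-GEO: the abstract connection data of a family
-/

open scoped ContDiff Topology Manifold ComplexConjugate
open Vale.Agent.P272.K MeasureTheory

set_option maxSynthPendingDepth 3

noncomputable section

namespace Vale.Agent.P298.H39

open H723 (dzz dzz_apply)

variable {Z : Type} [TopologicalSpace Z] [T2Space Z] {F : Fam Z} {σ : Z ≃ₜ Z} {χ : ℂ}
  {v : PC Z → Cm 2 × ℂ → Cm 2}

omit [T2Space Z] in
lemma sum_val {p : ℕ} (c : Fin p → ℂ) (a : Fin p → Md F σ χ) (e : PC Z) (q : Cm 2 × ℂ) :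
    (∑ i, c i • a i).1 e q = ∑ i, c i • (a i).1 e q := by
  have h1 : (∑ i, c i • a i).1 = ∑ i, c i • (a i).1 := by
    rw [Submodule.coe_sum]
    rfl
  rw [h1]
  simp only [Finset.sum_apply]
  rfl

/-- abstract connection data from a family with frames -/
theorem connData (hσ : IsDeck F σ) (hv : IsLift F v) (hvσ : LInv F σ v) {p r : ℕ}
    {w : Fin p → PC Z → Cm 2 × ℂ → ℂ} {u : Fin r → PC Z → Cm 2 × ℂ → ℂ}
    {η : PC Z → Cm 2 × ℂ → ℂ}
    (hw : ∀ i, HCf F (w i)) (hwc : ∀ i, HCh F σ χ (w i))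
    (hu : ∀ j, HCf F (u j)) (huc : ∀ j, HCh F σ (conj χ) (u j))
    (hη : HCf F η) (hηc : HCh F σ χ η)
    (iw : ∀ t ∈ F.Ω, ∀ c : Fin p → ℂ, c ≠ 0 → ∃ e ∈ F.A, ∃ q ∈ e.target, q.2 = t ∧
      ∑ i, c i * w i e q ≠ 0)
    (iu : ∀ t ∈ F.Ω, ∀ c : Fin r → ℂ, c ≠ 0 → ∃ e ∈ F.A, ∃ q ∈ e.target, q.2 = t ∧
      ∑ j, c j * u j e q ≠ 0)
    (mη : ∀ t ∈ F.Ω, ∃ c : Fin p → ℂ, ∀ e ∈ F.A, ∀ q ∈ e.target, q.2 = t →
      η e q = ∑ i, c i * w i e q)
    (neg : ∀ t ∈ F.Ω, ∀ a : Md F σ χ, (∀ i, QM F σ χ t a (mF hσ (hw i) (hwc i)) = 0) →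
      (∀ j, QM F σ χ t a (mG hσ (hu j) (huc j)) = 0) → (QM F σ χ t a a).re ≤ 0) :
    H265.ConnData (QM F σ χ) (DM hσ hv hvσ χ) (DM' hσ hv hvσ χ) F.Ω
      (fun i => mF hσ (hw i) (hwc i)) (fun j => mG hσ (hu j) (huc j)) (mF hσ hη hηc) where
  isOpen := F.isOpen
  herm t _ a b := herm_QM t a b
  deriv_Q t ht a b := deriv_QM hσ hv hvσ a b ht
  comm t ht a b := comm_QM hσ hv hvσ a b ht
  w_hol t _ i b := by rw [DM'_mF hσ hv hvσ (hw i) (hwc i), map_zero]; rfl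
  η_hol t _ b := by rw [DM'_mF hσ hv hvσ hη hηc, map_zero]; rfl
  u_anti t _ j b := by rw [DM_mG hσ hv hvσ (hu j) (huc j), map_zero]; rfl
  w_u t _ i j := QM_mF_mG hσ (hw i) (hwc i) (hu j) (huc j) t
  dw_u t _ i j := QM_DM_mG hσ hv hvσ (hw i) (hwc i) (hu j) (huc j) t
  dη_u t _ j := QM_DM_mG hσ hv hvσ hη hηc (hu j) (huc j) t
  η_mem t ht := by
    obtain ⟨c, hc⟩ := mη t ht
    refine ⟨c, fun b => ?_⟩
    rw [QM_apply, ← intF_zero (F := F) t]
    refine intF_congr (isDen_prh (mRF _) (mRF b)) isDen_zero fun e he q hq hqt => ?_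
    have h1 : (mF hσ hη hηc - ∑ i, c i • mF hσ (hw i) (hwc i)).1 e q = 0 := by
      have h2 : (mF hσ hη hηc - ∑ i, c i • mF hσ (hw i) (hwc i)).1 e q =
          (mF hσ hη hηc).1 e q - (∑ i, c i • mF hσ (hw i) (hwc i)).1 e q := rfl
      rw [h2, sum_val, mF_apply he hq, hc e he q hq hqt, Finset.sum_smul, sub_eq_zero]
      refine Finset.sum_congr rfl fun i _ => ?_
      rw [mF_apply he hq, smul_smul]
    rw [h1, prh_zero_left]
  w_pos t ht c hc := by
    obtain ⟨e, he, q, hq, hqt, h0⟩ := iw t ht c hc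
    refine QM_pos (c := fun e q => ∑ i, c i * w i e q) (fun e he q hq => ?_) he hq hqt h0
    rw [sum_val, Finset.sum_smul]
    refine Finset.sum_congr rfl fun i _ => ?_
    rw [mF_apply he hq, smul_smul]
  u_pos t ht c hc := by
    have hc' : (fun j => conj (c j)) ≠ 0 := by
      intro h
      apply hc
      funext j
      have h1 := congrFun h j
      exact (map_eq_zero (starRingEnd ℂ)).mp h1
    obtain ⟨e, he, q, hq, hqt, h0⟩ := iu t ht _ hc'
    refine QM_pos' (c := fun e q => ∑ j, conj (c j) * u j e q) (fun e he q hq => ?_) he hq hqt h0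
    rw [sum_val]
    have h2 : cjB ((∑ j, conj (c j) * u j e q) • dzz) =
        ∑ j, cjB ((conj (c j) * u j e q) • dzz) := by
      rw [Finset.sum_smul]
      simp only [cjB, ContinuousLinearMap.comp_finset_sum]
    rw [h2]
    refine Finset.sum_congr rfl fun j _ => ?_
    rw [mG_apply he hq, ← smul_smul, cjB_smul (conj (c j)), Complex.conj_conj]
  neg := neg

end Vale.Agent.P298.H39
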