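import Vale.Agent.P298.H39.Pair

/-!
# P298, block S1-GEO: relative densities and their integrals over the fibres
-/

open scoped ContDiff Topology Manifold ComplexConjugate
open Vale.Agent.P272.K MeasureTheory

noncomputable section

namespace Vale.Agent.P298.H39

variable {Z : Type} [TopologicalSpace Z] {F : Fam Z}

/-- real Jacobian of the change of fibre coordinates -/
def dj (e e' : PC Z) (z : Z) : ℝ :=
  Complex.normSq (fjL e e' z (Pi.single 0 1) 0 * fjL e e' z (Pi.single 1 1) 1 -
    fjL e e' z (Pi.single 0 1) 1 * fjL e e' z (Pi.single 1 1) 0)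

/-- relative smooth density -/
structure IsDen (F : Fam Z) (D : PC Z → Cm 2 × ℂ → ℂ) : Prop where
  smooth : ∀ e ∈ F.A, ∀ q ∈ e.target, ContDiffAt ℝ ∞ (D e) q
  change : ∀ e ∈ F.A, ∀ e' ∈ F.A, ∀ z ∈ e.source, z ∈ e'.source →
    D e (e z) = ((dj e e' z : ℝ) : ℂ) * D e' (e' z)

lemma isDen_prg {α β : PC Z → Cm 2 × ℂ → BF} (hα : IsRF2 F α) (hβ : IsRF2 F β) :
    IsDen F fun e q => prg (α e q) (β e q) where
  smooth e he q hq := by
    have h1 : ∀ (γ : PC Z → Cm 2 × ℂ → BF), IsRF2 F γ → ∀ i j,
        ContDiffAt ℝ ∞ (fun q => γ e q (bs i) (bs j)) q := fun γ hγ i j =>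
      ((hγ.smooth e he q hq).clm_apply contDiffAt_const).clm_apply contDiffAt_const
    have a := h1 α hα
    have b := h1 β hβ
    exact (((((a 0 1).mul (b 2 3)).sub ((a 0 2).mul (b 1 3))).add ((a 0 3).mul (b 1 2))).add
      ((a 1 2).mul (b 0 3))).sub ((a 1 3).mul (b 0 2)) |>.add ((a 2 3).mul (b 0 1))
  change e he e' he' z hz hz' := by
    have hz2 := e'.map_source hz'
    refine prg_pull (A := fjL e e' z) (fun u => fjL_smul he he' hz hz' Complex.I u)
      (hα.alt e' he' _ hz2) (hβ.alt e' he' _ hz2) ?_ ?_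
    · intro u v; exact hα.change e he e' he' z hz hz' u v
    · intro u v; exact hβ.change e he e' he' z hz hz' u v

lemma isRF2_cjB {β : PC Z → Cm 2 × ℂ → BF} (hβ : IsRF2 F β) :
    IsRF2 F fun e q => cjB (β e q) where
  smooth e he q hq := by
    have h1 := hβ.smooth e he q hq
    exact (contDiffAt_const (c := ContinuousLinearMap.compL ℝ (Cm 2) ℂ ℂ
      (Complex.conjCLE : ℂ →L[ℝ] ℂ))).clm_comp h1
  alt e he q hq u v := by
    rw [cjB_apply, cjB_apply, hβ.alt e he q hq u v, map_neg]
  change e he e' he' z hz hz' u v := by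
    rw [cjB_apply, cjB_apply, hβ.change e he e' he' z hz hz' u v]

lemma isDen_prh {α β : PC Z → Cm 2 × ℂ → BF} (hα : IsRF2 F α) (hβ : IsRF2 F β) :
    IsDen F fun e q => prh (α e q) (β e q) :=
  isDen_prg hα (isRF2_cjB hβ)

lemma IsDen.add {D D' : PC Z → Cm 2 × ℂ → ℂ} (hD : IsDen F D) (hD' : IsDen F D') :
    IsDen F fun e q => D e q + D' e q where
  smooth e he q hq := (hD.smooth e he q hq).add (hD'.smooth e he q hq)
  change e he e' he' z hz hz' := by
    rw [hD.change e he e' he' z hz hz', hD'.change e he e' he' z hz hz']; ring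

lemma IsDen.const_mul {D : PC Z → Cm 2 × ℂ → ℂ} (hD : IsDen F D) (c : ℂ) :
    IsDen F fun e q => c * D e q where
  smooth e he q hq := contDiffAt_const.mul (hD.smooth e he q hq)
  change e he e' he' z hz hz' := by
    rw [hD.change e he e' he' z hz hz']; ring

lemma isDen_zero : IsDen F fun _ _ => (0 : ℂ) where
  smooth _ _ _ _ := contDiffAt_const
  change _ _ _ _ _ _ _ := by simp

lemma IsDen.sum {ι : Type} (s : Finset ι) {D : ι → PC Z → Cm 2 × ℂ → ℂ}
    (hD : ∀ i ∈ s, IsDen F (D i)) : IsDen F fun e q => ∑ i ∈ s, D i e q := by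
  classical
  induction s using Finset.induction_on with
  | empty => simpa using isDen_zero
  | insert a s ha ih =>
    simp only [Finset.sum_insert ha]
    exact (hD a (Finset.mem_insert_self a s)).add
      (ih fun i hi => hD i (Finset.mem_insert_of_mem hi))

/-- multiplication by a smooth function on the total space -/
lemma IsDen.mul_fun {D : PC Z → Cm 2 × ℂ → ℂ} (hD : IsDen F D) {κ : Z → ℂ}
    (hκ : ∀ e ∈ F.A, ∀ q ∈ e.target, ContDiffAt ℝ ∞ (fun q => κ (e.symm q)) q) :
    IsDen F fun e q => κ (e.symm q) * D e q where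
  smooth e he q hq := (hκ e he q hq).mul (hD.smooth e he q hq)
  change e he e' he' z hz hz' := by
    rw [hD.change e he e' he' z hz hz', e.left_inv hz, e'.left_inv hz']; ring

section fib
variable {t : ℂ} {f f' : Chart 2 (F.Fib t)} {e e' : PC Z} {x : F.Fib t}

lemma IsFC.jac_entry (h : IsFC F t f e) (h' : IsFC F t f' e') (hx : x ∈ f.source)
    (hx' : x ∈ f'.source) (p i : Fin 2) :
    jacM f f' x p i = fjL e e' x.val (Pi.single i 1) p := by
  have h1 := h.hasFDerivAt_trans h' hx hx'
  have h2 : HasFDerivAt (fun w => f' (f.symm w) p)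
      ((ContinuousLinearMap.proj p).comp (fjL e e' x.val)) (f x) := (hasFDerivAt_pi'.mp h1) p
  have i1 : (Pi.single i Complex.I : Cm 2) = Complex.I • Pi.single i 1 := by
    rw [← Pi.single_smul]; simp
  show dz i (fun z => f' (f.symm z) p) (f x) = _
  rw [dz, h2.fderiv, i1]
  have h3 := fjL_smul h.mem h'.mem ((h.src x).mp hx) ((h'.src x).mp hx') Complex.I
    (Pi.single i 1)
  simp only [ContinuousLinearMap.comp_apply, ContinuousLinearMap.proj_apply, h3, Pi.smul_apply,
    smul_eq_mul]
  linear_combination (-(fjL e e' x.val (Pi.single i 1) p) / 2) * Complex.I_mul_I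

lemma IsFC.dj_eq (h : IsFC F t f e) (h' : IsFC F t f' e') (hx : x ∈ f.source)
    (hx' : x ∈ f'.source) : dj e e' x.val = ‖(jacM f f' x).det‖ ^ 2 := by
  rw [Matrix.det_fin_two, h.jac_entry h' hx hx', h.jac_entry h' hx hx', h.jac_entry h' hx hx',
    h.jac_entry h' hx hx', dj, ← Complex.normSq_eq_norm_sq]
  congr 1
  ring

lemma IsFC.dj_one (h : IsFC F t f e) (h' : IsFC F t f e') (hx : x ∈ f.source) :
    dj e e' x.val = 1 := by
  rw [dj, h.fjL_id h' hx]
  simp

lemma IsDen.res_apply {D : PC Z → Cm 2 × ℂ → ℂ} (hD : IsDen F D) (h : IsFC F t f e)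
    (hx : x ∈ f.source) : res F t D f (f x) = D e (e x.val) := by
  have h1 : ∃ e, IsFC F t f e := ⟨e, h⟩
  have h2 := isFC_up f h1
  rw [res, dif_pos h1, ← h2.apply hx, hD.change _ h2.mem e h.mem x.val ((h2.src x).mp hx)
    ((h.src x).mp hx), h2.dj_one h hx]
  simp

lemma IsDen.res_eq {D : PC Z → Cm 2 × ℂ → ℂ} (hD : IsDen F D) (h : IsFC F t f e)
    {w : Cm 2} (hw : w ∈ f.target) : res F t D f w = D e (w, t) := by
  have h1 := hD.res_apply h (f.map_target hw)
  rw [f.right_inv hw, h.symm_val hw, e.right_inv (h.mem_target hw)] at h1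
  exact h1

lemma IsDen.isDensity_re {D : PC Z → Cm 2 × ℂ → ℂ} (hD : IsDen F D) (t : ℂ) :
    INT.IsDensity (n := 2) (X := F.Fib t) fun f w => (res F t D f w).re where
  cont f x hx := by
    obtain ⟨e, he⟩ := mem_atlas_fib.mp hx.1
    have h1 : (fun w => (res F t D f w).re) =ᶠ[𝓝 (f x)] fun w => (D e (w, t)).re := by
      filter_upwards [f.open_target.mem_nhds (f.map_source hx.2)] with w hw
      rw [hD.res_eq he hw]
    refine ContinuousAt.congr ?_ h1.symm
    have h2 := (hD.smooth e he.mem (e x.val) (e.map_source ((he.src x).mp hx.2))).continuousAt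
    rw [he.apply hx.2] at h2
    have h3 : ContinuousAt (fun w : Cm 2 => (w, t)) (f x) := by fun_prop
    exact Complex.continuous_re.continuousAt.comp (ContinuousAt.comp (g := D e) h2 h3)
  change f f' x hx hx' := by
    obtain ⟨e, he⟩ := mem_atlas_fib.mp hx.1
    obtain ⟨e', he'⟩ := mem_atlas_fib.mp hx'.1
    show (res F t D f (f x)).re = (res F t D f' (f' x)).re * _
    rw [hD.res_apply he hx.2, hD.res_apply he' hx'.2,
      hD.change e he.mem e' he'.mem x.val ((he.src x).mp hx.2) ((he'.src x).mp hx'.2),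
      ← he.dj_eq he' hx.2 hx'.2, Complex.re_ofReal_mul]
    ring

lemma IsDen.isDensity_im {D : PC Z → Cm 2 × ℂ → ℂ} (hD : IsDen F D) (t : ℂ) :
    INT.IsDensity (n := 2) (X := F.Fib t) fun f w => (res F t D f w).im where
  cont f x hx := by
    obtain ⟨e, he⟩ := mem_atlas_fib.mp hx.1
    have h1 : (fun w => (res F t D f w).im) =ᶠ[𝓝 (f x)] fun w => (D e (w, t)).im := by
      filter_upwards [f.open_target.mem_nhds (f.map_source hx.2)] with w hw
      rw [hD.res_eq he hw]
    refine ContinuousAt.congr ?_ h1.symm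
    have h2 := (hD.smooth e he.mem (e x.val) (e.map_source ((he.src x).mp hx.2))).continuousAt
    rw [he.apply hx.2] at h2
    have h3 : ContinuousAt (fun w : Cm 2 => (w, t)) (f x) := by fun_prop
    exact Complex.continuous_im.continuousAt.comp (ContinuousAt.comp (g := D e) h2 h3)
  change f f' x hx hx' := by
    obtain ⟨e, he⟩ := mem_atlas_fib.mp hx.1
    obtain ⟨e', he'⟩ := mem_atlas_fib.mp hx'.1
    show (res F t D f (f x)).im = (res F t D f' (f' x)).im * _
    rw [hD.res_apply he hx.2, hD.res_apply he' hx'.2,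
      hD.change e he.mem e' he'.mem x.val ((he.src x).mp hx.2) ((he'.src x).mp hx'.2),
      ← he.dj_eq he' hx.2 hx'.2, Complex.im_ofReal_mul]
    ring

end fib

variable [T2Space Z]

/-- integral of a relative density over the fibre over `t` -/
def intF (F : Fam Z) (t : ℂ) (D : PC Z → Cm 2 × ℂ → ℂ) : ℂ :=
  open Classical in
  if h : t ∈ F.Ω then
    haveI := F.compact_fib h
    ((INT.intX (n := 2) (X := F.Fib t) fun f w => (res F t D f w).re : ℝ) : ℂ) +
      ((INT.intX (n := 2) (X := F.Fib t) fun f w => (res F t D f w).im : ℝ) : ℂ) * Complex.I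
  else 0

lemma intF_def {t : ℂ} (h : t ∈ F.Ω) [CompactSpace (F.Fib t)] (D : PC Z → Cm 2 × ℂ → ℂ) :
    intF F t D = ((INT.intX (n := 2) (X := F.Fib t) fun f w => (res F t D f w).re : ℝ) : ℂ) +
      ((INT.intX (n := 2) (X := F.Fib t) fun f w => (res F t D f w).im : ℝ) : ℂ) * Complex.I := by
  rw [intF, dif_pos h]

lemma intF_congr {D D' : PC Z → Cm 2 × ℂ → ℂ} {t : ℂ} (hD : IsDen F D) (hD' : IsDen F D')
    (h : ∀ e ∈ F.A, ∀ q ∈ e.target, q.2 = t → D e q = D' e q) : intF F t D = intF F t D' := by
  by_cases ht : t ∈ F.Ω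
  · have := F.compact_fib ht
    rw [intF_def ht, intF_def ht]
    have key : ∀ (f : Chart 2 (F.Fib t)) (x : F.Fib t), At f x →
        res F t D f (f x) = res F t D' f (f x) := by
      intro f x hx
      obtain ⟨e, he⟩ := mem_atlas_fib.mp hx.1
      rw [hD.res_apply he hx.2, hD'.res_apply he hx.2]
      refine h e he.mem _ (e.map_source ((he.src x).mp hx.2)) ?_
      rw [he.apply hx.2]
    have h3 : INT.intX (n := 2) (X := F.Fib t) (fun f w => (res F t D f w).re) =
        INT.intX (n := 2) (X := F.Fib t) (fun f w => (res F t D' f w).re) :=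
      INT.intX_congr fun f x hx => by rw [key f x hx]
    have h4 : INT.intX (n := 2) (X := F.Fib t) (fun f w => (res F t D f w).im) =
        INT.intX (n := 2) (X := F.Fib t) (fun f w => (res F t D' f w).im) :=
      INT.intX_congr fun f x hx => by rw [key f x hx]
    rw [h3, h4]
  · rw [intF, intF, dif_neg ht, dif_neg ht]

lemma intF_add {D D' : PC Z → Cm 2 × ℂ → ℂ} (t : ℂ) (hD : IsDen F D) (hD' : IsDen F D') :
    intF F t (fun e q => D e q + D' e q) = intF F t D + intF F t D' := by
  by_cases ht : t ∈ F.Ω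
  · have := F.compact_fib ht
    rw [intF_def ht, intF_def ht, intF_def ht]
    have h1 := INT.intX_add (hD.isDensity_re t) (hD'.isDensity_re t)
    have h2 := INT.intX_add (hD.isDensity_im t) (hD'.isDensity_im t)
    have key : ∀ (f : Chart 2 (F.Fib t)) (x : F.Fib t), At f x →
        res F t (fun e q => D e q + D' e q) f (f x) = res F t D f (f x) + res F t D' f (f x) := by
      intro f x hx
      obtain ⟨e, he⟩ := mem_atlas_fib.mp hx.1
      rw [hD.res_apply he hx.2, hD'.res_apply he hx.2, (hD.add hD').res_apply he hx.2]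
    have h3 : INT.intX (n := 2) (X := F.Fib t)
        (fun f w => (res F t (fun e q => D e q + D' e q) f w).re) =
        INT.intX (n := 2) (X := F.Fib t)
          (fun f w => (res F t D f w).re + (res F t D' f w).re) :=
      INT.intX_congr fun f x hx => by rw [key f x hx, Complex.add_re]
    have h4 : INT.intX (n := 2) (X := F.Fib t)
        (fun f w => (res F t (fun e q => D e q + D' e q) f w).im) =
        INT.intX (n := 2) (X := F.Fib t)
          (fun f w => (res F t D f w).im + (res F t D' f w).im) :=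
      INT.intX_congr fun f x hx => by rw [key f x hx, Complex.add_im]
    rw [h3, h4, h1, h2]
    push_cast
    ring
  · rw [intF, intF, intF, dif_neg ht, dif_neg ht, dif_neg ht, add_zero]

lemma intF_const_mul {D : PC Z → Cm 2 × ℂ → ℂ} (t c : ℂ) (hD : IsDen F D) :
    intF F t (fun e q => c * D e q) = c * intF F t D := by
  by_cases ht : t ∈ F.Ω
  · have := F.compact_fib ht
    rw [intF_def ht, intF_def ht]
    have key : ∀ (f : Chart 2 (F.Fib t)) (x : F.Fib t), At f x →
        res F t (fun e q => c * D e q) f (f x) = c * res F t D f (f x) := by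
      intro f x hx
      obtain ⟨e, he⟩ := mem_atlas_fib.mp hx.1
      rw [hD.res_apply he hx.2, (hD.const_mul c).res_apply he hx.2]
    have h3 : INT.intX (n := 2) (X := F.Fib t)
        (fun f w => (res F t (fun e q => c * D e q) f w).re) =
        INT.intX (n := 2) (X := F.Fib t)
          (fun f w => c.re * (res F t D f w).re - c.im * (res F t D f w).im) :=
      INT.intX_congr fun f x hx => by rw [key f x hx, Complex.mul_re]
    have h4 : INT.intX (n := 2) (X := F.Fib t)
        (fun f w => (res F t (fun e q => c * D e q) f w).im) =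
        INT.intX (n := 2) (X := F.Fib t)
          (fun f w => c.re * (res F t D f w).im + c.im * (res F t D f w).re) :=
      INT.intX_congr fun f x hx => by rw [key f x hx, Complex.mul_im]
    rw [h3, h4, INT.intX_sub ((hD.isDensity_re t).const_mul c.re)
      ((hD.isDensity_im t).const_mul c.im), INT.intX_add ((hD.isDensity_im t).const_mul c.re)
      ((hD.isDensity_re t).const_mul c.im), INT.intX_const_mul, INT.intX_const_mul,
      INT.intX_const_mul, INT.intX_const_mul]
    apply Complex.ext <;> simp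
  · rw [intF, intF, dif_neg ht, dif_neg ht, mul_zero]

lemma intF_zero (t : ℂ) : intF F t (fun _ _ => 0) = 0 := by
  have h1 := intF_const_mul (F := F) t 0 isDen_zero
  simpa using h1

lemma intF_sum {ι : Type} (t : ℂ) (s : Finset ι) {D : ι → PC Z → Cm 2 × ℂ → ℂ}
    (hD : ∀ i ∈ s, IsDen F (D i)) :
    intF F t (fun e q => ∑ i ∈ s, D i e q) = ∑ i ∈ s, intF F t (D i) := by
  classical
  induction s using Finset.induction_on with
  | empty => simpa using intF_zero t
  | insert a s ha ih =>
    simp only [Finset.sum_insert ha]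
    rw [intF_add t (hD a (Finset.mem_insert_self a s))
      (IsDen.sum s fun i hi => hD i (Finset.mem_insert_of_mem hi)),
      ih fun i hi => hD i (Finset.mem_insert_of_mem hi)]

end Vale.Agent.P298.H39
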