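import Vale.Agent.P298.H39.Asm4
import Vale.Agent.P298.H265.Alg
import Vale.Agent.P298.H723.Res3

/-!
# P298, block S1-GEO: from a family with frames to `HasConn`
-/

open scoped ContDiff Topology Manifold ComplexConjugate
open Vale.Agent.P272.K MeasureTheory

set_option maxSynthPendingDepth 3

noncomputable section

namespace Vale.Agent.P298.H39

open H723 (dzz dzz_apply)

variable {Z : Type} [TopologicalSpace Z] [T2Space Z] {F : Fam Z} {σ : Z ≃ₜ Z} {χ : ℂ}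
  {v : PC Z → Cm 2 × ℂ → Cm 2}

omit [T2Space Z] in
lemma res_nrm_fm {h : PC Z → Cm 2 × ℂ → ℂ} {t : ℂ} {f : Chart 2 (F.Fib t)}
    (hf : f ∈ atlas (Cm 2) (F.Fib t)) {q : Cm 2} (hq : q ∈ f.target) :
    res F t (nrm F (fm h)) f q = res F t h f q • dzz := by
  have h1 : ∃ e, IsFC F t f e := mem_atlas_fib.mp hf
  have h2 := isFC_up f h1
  rw [res, dif_pos h1, res, dif_pos h1, nrm_of h2.mem (h2.mem_target hq)]
  rfl

omit [T2Space Z] in
lemma res_nrm_fmc {h : PC Z → Cm 2 × ℂ → ℂ} {t : ℂ} {f : Chart 2 (F.Fib t)}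
    (hf : f ∈ atlas (Cm 2) (F.Fib t)) {q : Cm 2} (hq : q ∈ f.target) :
    res F t (nrm F (fmc h)) f q = cjB (res F t h f q • dzz) := by
  have h1 : ∃ e, IsFC F t f e := mem_atlas_fib.mp hf
  have h2 := isFC_up f h1
  rw [res, dif_pos h1, res, dif_pos h1, nrm_of h2.mem (h2.mem_target hq)]
  rfl

/-- the geometric input over one family: deck transformation of order `m`, character, frames of the
holomorphic 2-forms with character `χ` and `conj χ`, a section `η`, Kähler metrics on connected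
fibres -/
structure Geo (F : Fam Z) (σ : Z ≃ₜ Z) (m : ℕ) (χ : ℂ) {p r : ℕ}
    (w : Fin p → PC Z → Cm 2 × ℂ → ℂ) (u : Fin r → PC Z → Cm 2 × ℂ → ℂ)
    (η : PC Z → Cm 2 × ℂ → ℂ) : Prop where
  deck : IsDeck F σ
  m_pos : 0 < m
  iter : ∀ z, σ^[m] z = z
  pow : χ ^ m = 1
  ne_one : χ ≠ 1
  conn : ∀ t ∈ F.Ω, ConnectedSpace (F.Fib t)
  kahler : ∀ t ∈ F.Ω, ∃ g : Chart 2 (F.Fib t) → Cm 2 → Matrix (Fin 2) (Fin 2) ℂ, IsKahler g
  hw : ∀ i, HCf F (w i)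
  hwc : ∀ i, HCh F σ χ (w i)
  hu : ∀ j, HCf F (u j)
  huc : ∀ j, HCh F σ (conj χ) (u j)
  hη : HCf F η
  hηc : HCh F σ χ η
  iw : ∀ t ∈ F.Ω, ∀ c : Fin p → ℂ, c ≠ 0 → ∃ e ∈ F.A, ∃ q ∈ e.target, q.2 = t ∧
    ∑ i, c i * w i e q ≠ 0
  iu : ∀ t ∈ F.Ω, ∀ c : Fin r → ℂ, c ≠ 0 → ∃ e ∈ F.A, ∃ q ∈ e.target, q.2 = t ∧
    ∑ j, c j * u j e q ≠ 0
  mη : ∀ t ∈ F.Ω, ∃ c : Fin p → ℂ, ∀ e ∈ F.A, ∀ q ∈ e.target, q.2 = t →
    η e q = ∑ i, c i * w i e q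
  sw : ∀ t ∈ F.Ω, ∀ h : Chart 2 (F.Fib t) → Cm 2 → ℂ, H723.IsHol2 (Z := F.Fib t) h →
    (∀ f ∈ atlas (Cm 2) (F.Fib t), ∀ q ∈ f.target,
      h f q = χ * h ((H723.fibH σ deck.p_eq t).transOpenPartialHomeomorph f) q) →
    ∃ c : Fin p → ℂ, ∀ f ∈ atlas (Cm 2) (F.Fib t), ∀ q ∈ f.target,
      h f q = ∑ i, c i * res F t (w i) f q
  su : ∀ t ∈ F.Ω, ∀ h : Chart 2 (F.Fib t) → Cm 2 → ℂ, H723.IsHol2 (Z := F.Fib t) h →
    (∀ f ∈ atlas (Cm 2) (F.Fib t), ∀ q ∈ f.target,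
      h f q = conj χ * h ((H723.fibH σ deck.p_eq t).transOpenPartialHomeomorph f) q) →
    ∃ c : Fin r → ℂ, ∀ f ∈ atlas (Cm 2) (F.Fib t), ∀ q ∈ f.target,
      h f q = ∑ i, c i * res F t (u i) f q

section geo
variable {m p r : ℕ} {w : Fin p → PC Z → Cm 2 × ℂ → ℂ} {u : Fin r → PC Z → Cm 2 × ℂ → ℂ}
  {η : PC Z → Cm 2 × ℂ → ℂ}

/-- the frame of the forms of type `(2,0)` -/
def Geo.W (G : Geo F σ m χ w u η) (i : Fin p) : Md F σ χ := mF G.deck (G.hw i) (G.hwc i)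

/-- the frame of the forms of type `(0,2)` -/
def Geo.U (G : Geo F σ m χ w u η) (j : Fin r) : Md F σ χ := mG G.deck (G.hu j) (G.huc j)

/-- the section -/
def Geo.E (G : Geo F σ m χ w u η) : Md F σ χ := mF G.deck G.hη G.hηc

theorem Geo.neg (G : Geo F σ m χ w u η) {t : ℂ} (ht : t ∈ F.Ω) (a : Md F σ χ)
    (h1 : ∀ i, QM F σ χ t a (G.W i) = 0) (h2 : ∀ j, QM F σ χ t a (G.U j) = 0) :
    (QM F σ χ t a a).re ≤ 0 := by
  have := G.conn t ht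
  obtain ⟨g, hg⟩ := G.kahler t ht
  refine H723.hodge_index_fam ht hg σ G.deck.p_eq G.deck.mem G.m_pos G.iter G.pow G.ne_one
    (mRF a) (mCl a) (mCh a) (a := fun i => (G.W i).1) (b := fun j => (G.U j).1)
    (fun i => mRF (G.W i)) (fun j => mRF (G.U j)) ?_ ?_ h1 h2
  · intro h hh hc
    obtain ⟨c, hcs⟩ := G.sw t ht h hh hc
    refine ⟨c, fun f hf q hq => ?_⟩
    rw [hcs f hf q hq, Finset.sum_smul]
    refine Finset.sum_congr rfl fun i _ => ?_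
    rw [← smul_smul]
    congr 1
    exact (res_nrm_fm hf hq).symm
  · intro h hh hc
    obtain ⟨c, hcs⟩ := G.su t ht h hh hc
    refine ⟨fun j => conj (c j), fun f hf q hq => ?_⟩
    have h3 : cjB ((∑ j, c j * res F t (u j) f q) • dzz) =
        ∑ j, cjB ((c j * res F t (u j) f q) • dzz) := by
      rw [Finset.sum_smul]
      simp only [cjB, ContinuousLinearMap.comp_finset_sum]
    rw [hcs f hf q hq, h3]
    refine Finset.sum_congr rfl fun j _ => ?_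
    rw [← smul_smul, cjB_smul]
    congr 1
    exact (res_nrm_fmc hf hq).symm

/-- the abstract connection data -/
theorem Geo.connData (G : Geo F σ m χ w u η) (hv : IsLift F v) (hvσ : LInv F σ v) :
    H265.ConnData (QM F σ χ) (DM G.deck hv hvσ χ) (DM' G.deck hv hvσ χ) F.Ω G.W G.U G.E :=
  H39.connData G.deck hv hvσ G.hw G.hwc G.hu G.huc G.hη G.hηc G.iw G.iu G.mη
    fun _ ht a h1 h2 => G.neg ht a h1 h2

/-- output: all values of `x`, `y` come from the connection -/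
theorem Geo.hasConn (G : Geo F σ m χ w u η) (hv : IsLift F v) (hvσ : LInv F σ v) {N : ℂ → ℝ}
    (hN : ∀ t ∈ F.Ω, N t = (QM F σ χ t G.E G.E).re) :
    ∃ x y : ℂ → ℝ, (∀ t ∈ F.Ω, H265.IsX (QM F σ χ) (DM G.deck hv hvσ χ) G.W G.E t (x t) ∧
      H265.IsY (QM F σ χ) (DM G.deck hv hvσ χ) G.U G.E t (y t)) ∧
      ∀ t ∈ F.Ω, H265.HasConn N x y t := by
  have hC := G.connData hv hvσ
  have hx : ∀ t, ∃ x : ℝ, t ∈ F.Ω → H265.IsX (QM F σ χ) (DM G.deck hv hvσ χ) G.W G.E t x := by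
    intro t
    by_cases ht : t ∈ F.Ω
    · obtain ⟨c, hc⟩ := H265.exists_proj (hC.w_pos t ht) (DM G.deck hv hvσ χ G.E)
      exact ⟨_, fun _ => ⟨c, hc, rfl⟩⟩
    · exact ⟨0, fun h => absurd h ht⟩
  have hy : ∀ t, ∃ y : ℝ, t ∈ F.Ω → H265.IsY (QM F σ χ) (DM G.deck hv hvσ χ) G.U G.E t y := by
    intro t
    by_cases ht : t ∈ F.Ω
    · obtain ⟨c, hc⟩ := H265.exists_proj (hC.u_pos t ht)
        (DM G.deck hv hvσ χ (DM G.deck hv hvσ χ G.E))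
      exact ⟨_, fun _ => ⟨c, hc, rfl⟩⟩
    · exact ⟨0, fun h => absurd h ht⟩
  choose x hx using hx
  choose y hy using hy
  refine ⟨x, y, fun t ht => ⟨hx t ht, hy t ht⟩, fun t ht => ?_⟩
  exact ⟨Md F σ χ, inferInstance, inferInstance, QM F σ χ, DM G.deck hv hvσ χ,
    DM' G.deck hv hvσ χ, p, r, F.Ω, G.W, G.U, G.E, ht, hC,
    fun s hs => ⟨hN s hs, hx s hs, hy s hs⟩⟩

end geo

end Vale.Agent.P298.H39
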