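import Vale.Agent.P298.H39.Proj

/-!
# P298, block HYP: the charts of the projective surface
-/

open scoped ContDiff ComplexConjugate Topology
open Vale.Agent.P272.K

noncomputable section

namespace Vale.Agent.P298.H39

/-- affine coordinates -/
abbrev V3 : Type := Fin 3 → ℂ

/-- linear part of the affine embedding -/
def ja (a : Fin 4) : V3 →L[ℂ] V4 :=
  LinearMap.toContinuousLinearMap
    { toFun := fun v => a.insertNth (0 : ℂ) v
      map_add' := fun v w => by
        funext i
        rcases Fin.eq_self_or_eq_succAbove a i with rfl | ⟨j, rfl⟩ <;> simp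
      map_smul' := fun c v => by
        funext i
        rcases Fin.eq_self_or_eq_succAbove a i with rfl | ⟨j, rfl⟩ <;> simp }

lemma ja_same (a : Fin 4) (v : V3) : ja a v a = 0 := by simp [ja]

lemma ja_succ (a : Fin 4) (v : V3) (j : Fin 3) : ja a v (a.succAbove j) = v j := by simp [ja]

/-- the affine embedding `y ↦ (1 at place a, y elsewhere)` -/
def ia (a : Fin 4) (y : V3) : V4 := a.insertNth (1 : ℂ) y

lemma ia_same (a : Fin 4) (v : V3) : ia a v a = 1 := by simp [ia]

lemma ia_succ (a : Fin 4) (v : V3) (j : Fin 3) : ia a v (a.succAbove j) = v j := by simp [ia]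

lemma ia_eq (a : Fin 4) (y : V3) : ia a y = ja a y + Pi.single a 1 := by
  funext i
  rcases Fin.eq_self_or_eq_succAbove a i with rfl | ⟨j, rfl⟩
  · simp [ia_same, ja_same]
  · simp [ia_succ, ja_succ, Fin.succAbove_ne]

lemma ia_hasFDerivAt (a : Fin 4) (y : V3) : HasFDerivAt (ia a) (ja a) y := by
  have h : ia a = fun y => ja a y + Pi.single a 1 := funext fun y => ia_eq a y
  rw [h]
  exact (ja a).hasFDerivAt.add_const _

lemma ia_contDiff (a : Fin 4) : ContDiff ℂ ω (ia a) := by
  have h : ia a = fun y => ja a y + Pi.single a 1 := funext fun y => ia_eq a y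
  rw [h]
  exact (ja a).contDiff.add contDiff_const

lemma ia_continuous (a : Fin 4) : Continuous (ia a) := (ia_contDiff a).continuous

lemma ia_ne_zero (a : Fin 4) (y : V3) : ia a y ≠ 0 := fun h => by
  have := ia_same a y
  rw [h] at this
  simp at this

variable {d : ℕ} {G : V4 → ℂ}

/-- the partial derivative of `G` in the direction of the `b`-th affine coordinate -/
def pdv (G : V4 → ℂ) (a : Fin 4) (b : Fin 3) (y : V3) : ℂ :=
  fderiv ℂ G (ia a y) (Pi.single (a.succAbove b) 1)

/-- restriction map forgetting the `b`-th coordinate -/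
def fb (b : Fin 3) : V3 →L[ℂ] Cm 2 :=
  LinearMap.toContinuousLinearMap
    { toFun := fun v => fun j => v (b.succAbove j)
      map_add' := fun v w => rfl
      map_smul' := fun c v => rfl }

lemma fb_apply (b : Fin 3) (v : V3) (j : Fin 2) : fb b v j = v (b.succAbove j) := rfl

/-- inclusion of the slice -/
def sl (b : Fin 3) : Cm 2 →L[ℂ] V3 :=
  LinearMap.toContinuousLinearMap
    { toFun := fun v => b.insertNth (0 : ℂ) v
      map_add' := fun v w => by
        funext i
        rcases Fin.eq_self_or_eq_succAbove b i with rfl | ⟨j, rfl⟩ <;> simp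
      map_smul' := fun c v => by
        funext i
        rcases Fin.eq_self_or_eq_succAbove b i with rfl | ⟨j, rfl⟩ <;> simp }

lemma sl_same (b : Fin 3) (v : Cm 2) : sl b v b = 0 := by simp [sl]

lemma sl_succ (b : Fin 3) (v : Cm 2) (j : Fin 2) : sl b v (b.succAbove j) = v j := by simp [sl]

lemma fb_sl (b : Fin 3) (v : Cm 2) : fb b (sl b v) = v := by
  funext j
  rw [fb_apply, sl_succ]

/-- straightening map -/
def psi (G : V4 → ℂ) (a : Fin 4) (b : Fin 3) (y : V3) : V3 :=
  sl b (fb b y) + G (ia a y) • (Pi.single b 1 : V3)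

lemma psi_same (a : Fin 4) (b : Fin 3) (y : V3) : psi G a b y b = G (ia a y) := by
  simp [psi, sl_same]

lemma fb_psi (a : Fin 4) (b : Fin 3) (y : V3) : fb b (psi G a b y) = fb b y := by
  funext j
  simp [psi, fb_apply, sl_succ, Fin.succAbove_ne]

lemma psi_eq_of_zero {a : Fin 4} {b : Fin 3} {y : V3} (h : G (ia a y) = 0) :
    psi G a b y = sl b (fb b y) := by
  simp [psi, h]

/-- derivative of the straightening map -/
def dpsi (G : V4 → ℂ) (a : Fin 4) (b : Fin 3) (y : V3) : V3 →L[ℂ] V3 :=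
  (sl b).comp (fb b) + ((fderiv ℂ G (ia a y)).comp (ja a)).smulRight (Pi.single b 1 : V3)

lemma HG.diffAt (h : HG d G) (z : V4) : DifferentiableAt ℂ G z :=
  (h.smooth.differentiable (by simp)) z

lemma psi_hasFDerivAt (h : HG d G) (a : Fin 4) (b : Fin 3) (y : V3) :
    HasFDerivAt (psi G a b) (dpsi G a b y) y := by
  have h1 : HasFDerivAt (fun y => G (ia a y)) ((fderiv ℂ G (ia a y)).comp (ja a)) y :=
    (h.diffAt (ia a y)).hasFDerivAt.comp y (ia_hasFDerivAt a y)
  exact ((sl b).comp (fb b)).hasFDerivAt.add (h1.smul_const _)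

lemma psi_contDiff (h : HG d G) (a : Fin 4) (b : Fin 3) : ContDiff ℂ ω (psi G a b) :=
  ((sl b).comp (fb b)).contDiff.add ((h.smooth.comp (ia_contDiff a)).smul contDiff_const)

lemma dpsi_injective {a : Fin 4} {b : Fin 3} {y : V3} (hb : pdv G a b y ≠ 0) :
    Function.Injective (dpsi G a b y) := by
  rw [injective_iff_map_eq_zero]
  intro v hv
  have h1 : ∀ j, v (b.succAbove j) = 0 := by
    intro j
    have := congrFun hv (b.succAbove j)
    simpa [dpsi, sl_succ, fb_apply, Fin.succAbove_ne] using this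
  have h2 : ja a v = v b • (Pi.single (a.succAbove b) 1 : V4) := by
    funext i
    rcases Fin.eq_self_or_eq_succAbove a i with rfl | ⟨j, rfl⟩
    · simp [ja_same, (Fin.succAbove_ne _ b).symm]
    · rw [ja_succ]
      rcases Fin.eq_self_or_eq_succAbove b j with rfl | ⟨k, rfl⟩
      · simp
      · rw [h1 k]
        have : a.succAbove (b.succAbove k) ≠ a.succAbove b := fun hh =>
          Fin.succAbove_ne b k (Fin.succAbove_right_injective hh)
        simp [Pi.single_apply, this]
  have h3 : v b = 0 := by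
    have := congrFun hv b
    simp only [dpsi, _root_.add_apply, ContinuousLinearMap.comp_apply,
      ContinuousLinearMap.smulRight_apply, Pi.add_apply, sl_same, zero_add, Pi.smul_apply,
      Pi.single_eq_same, smul_eq_mul, mul_one, Pi.zero_apply, h2, map_smul] at this
    exact (mul_eq_zero.mp this).resolve_right hb
  funext i
  rcases Fin.eq_self_or_eq_succAbove b i with rfl | ⟨j, rfl⟩
  · exact h3
  · exact h1 j

/-- the derivative of the straightening map as an isomorphism -/
def epsi {a : Fin 4} {b : Fin 3} {y : V3} (hb : pdv G a b y ≠ 0) : V3 ≃L[ℂ] V3 :=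
  (LinearEquiv.ofInjectiveEndo (dpsi G a b y : V3 →ₗ[ℂ] V3)
    (dpsi_injective hb)).toContinuousLinearEquiv

lemma epsi_coe {a : Fin 4} {b : Fin 3} {y : V3} (hb : pdv G a b y ≠ 0) :
    (epsi hb : V3 →L[ℂ] V3) = dpsi G a b y := by
  ext v i
  rfl

lemma pdv_continuous (h : HG d G) (a : Fin 4) (b : Fin 3) : Continuous (pdv G a b) := by
  have h1 : Continuous (fderiv ℂ G) := h.smooth.continuous_fderiv (by simp)
  exact (h1.comp (ia_continuous a)).clm_apply continuous_const

/-- index data of a chart -/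
structure CI (G : V4 → ℂ) : Type where
  /-- affine index -/
  a : Fin 4
  /-- solved coordinate -/
  b : Fin 3
  /-- base point -/
  y : V3
  pd : pdv G a b y ≠ 0

/-- local straightening homeomorphism -/
def lh (h : HG d G) (c : CI G) : OpenPartialHomeomorph V3 V3 :=
  ((psi_contDiff h c.a c.b).contDiffAt.toOpenPartialHomeomorph (psi G c.a c.b)
    (f' := epsi c.pd) (a := c.y) (by rw [epsi_coe]; exact psi_hasFDerivAt h c.a c.b c.y)
    (by simp)).restrOpen {y | pdv G c.a c.b y ≠ 0}
      (isOpen_ne_fun (pdv_continuous h c.a c.b) continuous_const)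

lemma lh_coe (h : HG d G) (c : CI G) : ⇑(lh h c) = psi G c.a c.b := rfl

lemma mem_lh_source (h : HG d G) (c : CI G) : c.y ∈ (lh h c).source := by
  refine ⟨?_, c.pd⟩
  exact ContDiffAt.mem_toOpenPartialHomeomorph_source _ _ _

lemma pdv_of_mem (h : HG d G) (c : CI G) {y : V3} (hy : y ∈ (lh h c).source) :
    pdv G c.a c.b y ≠ 0 := hy.2

lemma lh_symm_contDiffAt (h : HG d G) (c : CI G) {w : V3} (hw : w ∈ (lh h c).target) :
    ContDiffAt ℂ ω (lh h c).symm w := by
  have h1 := (lh h c).map_target hw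
  refine (lh h c).contDiffAt_symm hw (f₀' := epsi (pdv_of_mem h c h1)) ?_ ?_
  · rw [epsi_coe]
    exact psi_hasFDerivAt h c.a c.b _
  · exact (psi_contDiff h c.a c.b).contDiffAt

/-- affine coordinates of a point of the surface -/
def ta (a : Fin 4) (p : XG G) : V3 := fun j => sg a p (a.succAbove j)

lemma ia_ta {a : Fin 4} {p : XG G} (hp : p ∈ Ua G a) : ia a (ta a p) = sg a p := by
  funext i
  rcases Fin.eq_self_or_eq_succAbove a i with rfl | ⟨j, rfl⟩
  · rw [ia_same, sg_self hp]
  · rw [ia_succ]; rfl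

lemma ta_mkp (p₀ : XG G) {a : Fin 4} {y : V3} (h0 : G (ia a y) = 0) :
    ta a (mkp p₀ (ia a y)) = y := by
  funext j
  rw [ta, sg_mkp p₀ (ia_same a y) h0, ia_succ]

lemma ta_continuousOn (a : Fin 4) : ContinuousOn (ta (G := G) a) (Ua G a) := by
  refine continuousOn_pi.mpr fun j => ?_
  exact (continuous_apply _).comp_continuousOn (sg_continuousOn a)

/-- the chart with data `c` -/
def cht (h : HG d G) (p₀ : XG G) (c : CI G) : OpenPartialHomeomorph (XG G) (Cm 2) where
  toFun p := fb c.b (ta c.a p)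
  invFun w := mkp p₀ (ia c.a ((lh h c).symm (sl c.b w)))
  source := Ua G c.a ∩ ta c.a ⁻¹' (lh h c).source
  target := sl c.b ⁻¹' (lh h c).target
  map_source' := by
    rintro p ⟨hp, hy⟩
    show sl c.b (fb c.b (ta c.a p)) ∈ (lh h c).target
    have h0 : G (ia c.a (ta c.a p)) = 0 := by rw [ia_ta hp]; exact G_sg h hp
    rw [← psi_eq_of_zero h0, ← lh_coe h c]
    exact (lh h c).map_source hy
  map_target' := by
    intro w hw
    have h1 := (lh h c).map_target hw
    have h2 : psi G c.a c.b ((lh h c).symm (sl c.b w)) = sl c.b w := (lh h c).right_inv hw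
    have h0 : G (ia c.a ((lh h c).symm (sl c.b w))) = 0 := by
      rw [← psi_same (G := G) c.a c.b, h2, sl_same]
    refine ⟨mkp_mem_Ua p₀ (ia_same _ _) h0, ?_⟩
    rw [Set.mem_preimage, ta_mkp p₀ h0]
    exact h1
  left_inv' := by
    rintro p ⟨hp, hy⟩
    have h0 : G (ia c.a (ta c.a p)) = 0 := by rw [ia_ta hp]; exact G_sg h hp
    show mkp p₀ (ia c.a ((lh h c).symm (sl c.b (fb c.b (ta c.a p))))) = p
    rw [← psi_eq_of_zero h0, ← lh_coe h c, (lh h c).left_inv hy, ia_ta hp, mkp_sg h p₀ hp]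
  right_inv' := by
    intro w hw
    have h2 : psi G c.a c.b ((lh h c).symm (sl c.b w)) = sl c.b w := (lh h c).right_inv hw
    have h0 : G (ia c.a ((lh h c).symm (sl c.b w))) = 0 := by
      rw [← psi_same (G := G) c.a c.b, h2, sl_same]
    show fb c.b (ta c.a (mkp p₀ (ia c.a ((lh h c).symm (sl c.b w))))) = w
    rw [ta_mkp p₀ h0, ← fb_psi (G := G) c.a c.b, h2, fb_sl]
  open_source := (ta_continuousOn c.a).isOpen_inter_preimage (isOpen_Ua c.a) (lh h c).open_source
  open_target := (lh h c).open_target.preimage (sl c.b).continuous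
  continuousOn_toFun := by
    refine (fb c.b).continuous.comp_continuousOn ?_
    exact (ta_continuousOn c.a).mono Set.inter_subset_left
  continuousOn_invFun := by
    refine (mkp_continuousOn p₀).comp (t := {z : V4 | z ≠ 0 ∧ G z = 0}) ?_ ?_
    · refine (ia_continuous c.a).comp_continuousOn ?_
      exact (lh h c).continuousOn_symm.comp (sl c.b).continuous.continuousOn fun w hw => hw
    · intro w hw
      refine ⟨ia_ne_zero _ _, ?_⟩
      have h2 : psi G c.a c.b ((lh h c).symm (sl c.b w)) = sl c.b w := (lh h c).right_inv hw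
      rw [← psi_same (G := G) c.a c.b, h2, sl_same]

/-- affine coordinates of the point with chart coordinates `w` -/
def gm (h : HG d G) (c : CI G) (w : Cm 2) : V3 := (lh h c).symm (sl c.b w)

lemma cht_apply (h : HG d G) (p₀ : XG G) (c : CI G) (p : XG G) :
    cht h p₀ c p = fb c.b (ta c.a p) := rfl

lemma cht_symm_apply (h : HG d G) (p₀ : XG G) (c : CI G) (w : Cm 2) :
    (cht h p₀ c).symm w = mkp p₀ (ia c.a (gm h c w)) := rfl

lemma mem_cht_source (h : HG d G) (p₀ : XG G) (c : CI G) (p : XG G) :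
    p ∈ (cht h p₀ c).source ↔ p ∈ Ua G c.a ∧ ta c.a p ∈ (lh h c).source := Iff.rfl

lemma mem_cht_target (h : HG d G) (p₀ : XG G) (c : CI G) (w : Cm 2) :
    w ∈ (cht h p₀ c).target ↔ sl c.b w ∈ (lh h c).target := Iff.rfl

lemma G_gm (h : HG d G) (p₀ : XG G) (c : CI G) {w : Cm 2} (hw : w ∈ (cht h p₀ c).target) :
    G (ia c.a (gm h c w)) = 0 := by
  have h2 : psi G c.a c.b ((lh h c).symm (sl c.b w)) = sl c.b w := (lh h c).right_inv hw
  rw [gm, ← psi_same (G := G) c.a c.b, h2, sl_same]

lemma fb_gm (h : HG d G) (p₀ : XG G) (c : CI G) {w : Cm 2} (hw : w ∈ (cht h p₀ c).target) :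
    fb c.b (gm h c w) = w := by
  have h2 : psi G c.a c.b ((lh h c).symm (sl c.b w)) = sl c.b w := (lh h c).right_inv hw
  rw [gm, ← fb_psi (G := G) c.a c.b, h2, fb_sl]

lemma ta_cht_symm (h : HG d G) (p₀ : XG G) (c : CI G) {w : Cm 2} (hw : w ∈ (cht h p₀ c).target) :
    ta c.a ((cht h p₀ c).symm w) = gm h c w :=
  ta_mkp p₀ (G_gm h p₀ c hw)

lemma gm_cht (h : HG d G) (p₀ : XG G) (c : CI G) {p : XG G} (hp : p ∈ (cht h p₀ c).source) :
    gm h c (cht h p₀ c p) = ta c.a p := by
  rw [← ta_cht_symm h p₀ c ((cht h p₀ c).map_source hp), (cht h p₀ c).left_inv hp]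

lemma gm_contDiffAt (h : HG d G) (p₀ : XG G) (c : CI G) {w : Cm 2}
    (hw : w ∈ (cht h p₀ c).target) : ContDiffAt ℂ ω (gm h c) w :=
  ContDiffAt.comp w (lh_symm_contDiffAt h c hw) (sl c.b).contDiff.contDiffAt

lemma pdv_gm (h : HG d G) (p₀ : XG G) (c : CI G) {w : Cm 2} (hw : w ∈ (cht h p₀ c).target) :
    pdv G c.a c.b (gm h c w) ≠ 0 :=
  pdv_of_mem h c ((lh h c).map_target hw)

lemma exists_cht (h : HG d G) (p₀ : XG G) (p : XG G) :
    ∃ c : CI G, p ∈ (cht h p₀ c).source := by
  obtain ⟨a, ha⟩ := exists_mem_Ua p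
  have h1 : sg a p a ≠ 0 := by rw [sg_self ha]; exact one_ne_zero
  obtain ⟨b, hb⟩ := h.exists_pd h1 (G_sg h ha)
  have h2 : pdv G a b (ta a p) ≠ 0 := by rw [pdv, ia_ta ha]; exact hb
  exact ⟨⟨a, b, ta a p, h2⟩, ha, mem_lh_source h ⟨a, b, ta a p, h2⟩⟩

end Vale.Agent.P298.H39
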