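import Vale.Agent.P298.H39.LPart

/-!
# P298, block S1-GEO: cut-off densities in a product chart, integrals depending on the parameter
-/

open scoped ContDiff Topology Manifold ComplexConjugate
open Vale.Agent.P272.K MeasureTheory

noncomputable section

namespace Vale.Agent.P298.H39

section locCalc

/-- divergence theorem for compactly supported functions -/
lemma div_zero' {G : Cm 2 → ℂ} (hG : ContDiff ℝ 1 G) (hc : HasCompactSupport G)
    {X : Cm 2 → Cm 2} (hX : ∀ w ∈ tsupport G, ContDiffAt ℝ 1 X w) :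
    ∫ w, (fderiv ℝ G w (X w) + ((trR (fderiv ℝ X w) : ℝ) : ℂ) * G w) = 0 := by
  have hoff : ∀ w, w ∉ tsupport G → G =ᶠ[𝓝 w] fun _ => 0 := fun w hw =>
    notMem_tsupport_iff_eventuallyEq.mp hw
  have hH : ∀ k, ContDiff ℝ 1 (fun w => ((co k (X w) : ℝ) : ℂ) * G w) := by
    intro k
    rw [contDiff_iff_contDiffAt]
    intro w
    by_cases hw : w ∈ tsupport G
    · have h1 : ContDiffAt ℝ 1 (fun w => co k (X w)) w :=
        (co k).contDiff.contDiffAt.comp w (hX w hw)
      exact (Complex.ofRealCLM.contDiff.contDiffAt.comp w h1).mul hG.contDiffAt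
    · have h1 : (fun w => ((co k (X w) : ℝ) : ℂ) * G w) =ᶠ[𝓝 w] fun _ => 0 := by
        filter_upwards [hoff w hw] with y hy
        rw [hy, mul_zero]
      exact contDiffAt_const.congr_of_eventuallyEq h1
  have hcH : ∀ k, HasCompactSupport (fun w => ((co k (X w) : ℝ) : ℂ) * G w) := fun k =>
    hc.mul_left
  have key : ∀ w, fderiv ℝ G w (X w) + ((trR (fderiv ℝ X w) : ℝ) : ℂ) * G w =
      ∑ k : Fin 4, fderiv ℝ (fun w => ((co k (X w) : ℝ) : ℂ) * G w) w (bs k) := by
    intro w
    by_cases hw : w ∈ tsupport G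
    · have hXd : DifferentiableAt ℝ X w := (hX w hw).differentiableAt (by simp)
      have hGd : DifferentiableAt ℝ G w := (hG.contDiffAt (x := w)).differentiableAt (by simp)
      have h1 : ∀ k, fderiv ℝ (fun w => ((co k (X w) : ℝ) : ℂ) * G w) w (bs k) =
          ((co k (X w) : ℝ) : ℂ) * fderiv ℝ G w (bs k) +
            ((co k (fderiv ℝ X w (bs k)) : ℝ) : ℂ) * G w := by
        intro k
        have h2 : HasFDerivAt (fun w => ((co k (X w) : ℝ) : ℂ))
            (Complex.ofRealCLM.comp ((co k).comp (fderiv ℝ X w))) w :=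
          Complex.ofRealCLM.hasFDerivAt.comp w ((co k).hasFDerivAt.comp w hXd.hasFDerivAt)
        have h3 : fderiv ℝ (fun w => ((co k (X w) : ℝ) : ℂ) * G w) w = _ :=
          (h2.mul hGd.hasFDerivAt).fderiv
        rw [h3]
        simp
        ring
      simp only [h1, Fin.sum_univ_four]
      have h3 : fderiv ℝ G w (X w) = ((co 0 (X w) : ℝ) : ℂ) * fderiv ℝ G w (bs 0) +
          ((co 1 (X w) : ℝ) : ℂ) * fderiv ℝ G w (bs 1) +
          ((co 2 (X w) : ℝ) : ℂ) * fderiv ℝ G w (bs 2) +
          ((co 3 (X w) : ℝ) : ℂ) * fderiv ℝ G w (bs 3) := by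
        conv_lhs => rw [co_expand (X w)]
        simp only [map_add, map_smul, Complex.real_smul]
      rw [h3, trR]
      push_cast
      ring
    · have h1 : G w = 0 := (hoff w hw).eq_of_nhds
      have h2 : fderiv ℝ G w = 0 := by rw [(hoff w hw).fderiv_eq]; simp
      have h3 : ∀ k, fderiv ℝ (fun w => ((co k (X w) : ℝ) : ℂ) * G w) w = 0 := by
        intro k
        have h4 : (fun w => ((co k (X w) : ℝ) : ℂ) * G w) =ᶠ[𝓝 w] fun _ => 0 := by
          filter_upwards [hoff w hw] with y hy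
          rw [hy, mul_zero]
        rw [h4.fderiv_eq]; simp
      simp [h1, h2, h3]
  simp only [key]
  rw [integral_finsetSum]
  · refine Finset.sum_eq_zero fun k _ => ?_
    exact INT.integral_fderiv_eq_zero (hH k) (hcH k) (bs k)
  · intro k _
    have h1 : Continuous (fun w => fderiv ℝ (fun w => ((co k (X w) : ℝ) : ℂ) * G w) w (bs k)) :=
      ((hH k).continuous_fderiv (by simp)).clm_apply continuous_const
    exact h1.integrable_of_hasCompactSupport ((hcH k).fderiv_apply ℝ (bs k))

/-- differentiation under the integral -/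
lemma hasFDerivAt_param {Φ : Cm 2 × ℂ → ℂ} {t0 : ℂ} {r : ℝ} (hr : 0 < r)
    (hΦ : ∀ q : Cm 2 × ℂ, q.2 ∈ Metric.closedBall t0 r → ContDiffAt ℝ 1 Φ q)
    {W : Set (Cm 2)} (hW : IsCompact W)
    (h0 : ∀ q : Cm 2 × ℂ, q.2 ∈ Metric.closedBall t0 r → q.1 ∉ W → Φ q = 0) :
    ∃ L : ℂ →L[ℝ] ℂ, HasFDerivAt (fun t => ∫ w, Φ (w, t)) L t0 ∧
      ∀ s, L s = ∫ w, fderiv ℝ Φ (w, t0) (0, s) := by
  have hcl : ∀ t ∈ Metric.closedBall t0 r, Continuous fun w => Φ (w, t) := by
    intro t ht
    rw [continuous_iff_continuousAt]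
    intro w
    exact ContinuousAt.comp (g := Φ) (hΦ (w, t) ht).continuousAt (by fun_prop)
  have hsup : ∀ t ∈ Metric.closedBall t0 r, HasCompactSupport fun w => Φ (w, t) := by
    intro t ht
    exact HasCompactSupport.intro hW fun w hw => h0 (w, t) ht hw
  have ht0 : t0 ∈ Metric.closedBall t0 r := Metric.mem_closedBall_self hr.le
  let F' : ℂ → Cm 2 → ℂ →L[ℝ] ℂ := fun t w =>
    (fderiv ℝ Φ (w, t)).comp (ContinuousLinearMap.inr ℝ (Cm 2) ℂ)
  have hcF : ContinuousOn (fun q : Cm 2 × ℂ => fderiv ℝ Φ q)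
      {q | q.2 ∈ Metric.closedBall t0 r} := by
    intro q hq
    exact ((hΦ q hq).fderiv_right (m := 0) (by simp)).continuousAt.continuousWithinAt
  have hz : ∀ t ∈ Metric.ball t0 r, ∀ w, w ∉ W → fderiv ℝ Φ (w, t) = 0 := by
    intro t ht w hw
    have h1 : Φ =ᶠ[𝓝 (w, t)] fun _ => 0 := by
      have h2 : ∀ᶠ q : Cm 2 × ℂ in 𝓝 (w, t), q.1 ∉ W :=
        continuous_fst.continuousAt.eventually
          (hW.isClosed.isOpen_compl.mem_nhds (show w ∈ Wᶜ from hw))
      have h3 : ∀ᶠ q : Cm 2 × ℂ in 𝓝 (w, t), q.2 ∈ Metric.ball t0 r :=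
        continuous_snd.continuousAt.eventually (Metric.isOpen_ball.mem_nhds ht)
      filter_upwards [h2, h3] with q hq2 hq3
      exact h0 q (Metric.ball_subset_closedBall hq3) hq2
    rw [h1.fderiv_eq]; simp
  obtain ⟨C, hC⟩ := (hW.prod (isCompact_closedBall t0 r)).exists_bound_of_continuousOn
    (f := fun q : Cm 2 × ℂ => fderiv ℝ Φ q) (hcF.mono fun q hq => hq.2)
  have hcF0 : Continuous (F' t0) := by
    have h1 : Continuous fun w => fderiv ℝ Φ (w, t0) := by
      rw [continuous_iff_continuousAt]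
      intro w
      exact ContinuousAt.comp (g := fun q : Cm 2 × ℂ => fderiv ℝ Φ q)
        ((hΦ (w, t0) ht0).fderiv_right (m := 0) (by simp)).continuousAt (by fun_prop)
    exact h1.clm_comp continuous_const
  have hsF0 : HasCompactSupport (F' t0) := by
    refine HasCompactSupport.intro hW fun w hw => ?_
    show (fderiv ℝ Φ (w, t0)).comp _ = 0
    rw [hz t0 (Metric.mem_ball_self hr) w hw]
    simp
  have hmain := hasFDerivAt_integral_of_dominated_of_fderiv_le (𝕜 := ℝ) (μ := volume)
    (F := fun t w => Φ (w, t)) (F' := F') (x₀ := t0) (s := Metric.ball t0 r)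
    (bound := W.indicator fun _ => C) (Metric.ball_mem_nhds t0 hr)
    (by
      filter_upwards [Metric.ball_mem_nhds t0 hr] with t ht
      exact (hcl t (Metric.ball_subset_closedBall ht)).aestronglyMeasurable)
    ((hcl t0 ht0).integrable_of_hasCompactSupport (hsup t0 ht0))
    hcF0.aestronglyMeasurable
    (by
      refine Filter.Eventually.of_forall fun w t ht => ?_
      by_cases hw : w ∈ W
      · rw [Set.indicator_of_mem hw]
        calc ‖F' t w‖ ≤ ‖fderiv ℝ Φ (w, t)‖ * ‖ContinuousLinearMap.inr ℝ (Cm 2) ℂ‖ :=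
              ContinuousLinearMap.opNorm_comp_le _ _
          _ ≤ ‖fderiv ℝ Φ (w, t)‖ * 1 := by
              gcongr
              exact ContinuousLinearMap.norm_inr_le_one ℝ (Cm 2) ℂ
          _ ≤ C := by
              rw [mul_one]
              exact hC (w, t) ⟨hw, Metric.ball_subset_closedBall ht⟩
      · rw [Set.indicator_of_notMem hw]
        show ‖(fderiv ℝ Φ (w, t)).comp _‖ ≤ 0
        rw [hz t ht w hw]
        simp)
    (by
      rw [integrable_indicator_iff hW.measurableSet]
      exact integrableOn_const hW.measure_lt_top.ne)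
    (by
      refine Filter.Eventually.of_forall fun w t ht => ?_
      have h1 := ((hΦ (w, t) (Metric.ball_subset_closedBall ht)).differentiableAt
        (by simp)).hasFDerivAt
      have h2 : HasFDerivAt (fun t : ℂ => (w, t)) (ContinuousLinearMap.inr ℝ (Cm 2) ℂ) t := by
        have := (hasFDerivAt_const w t).prodMk (hasFDerivAt_id (𝕜 := ℝ) t)
        exact this
      exact HasFDerivAt.comp (g := Φ) t h1 h2)
  refine ⟨_, hmain, fun s => ?_⟩
  rw [ContinuousLinearMap.integral_apply (hcF0.integrable_of_hasCompactSupport hsF0)]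
  rfl

end locCalc

end Vale.Agent.P298.H39
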