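import Vale.Agent.P298.H39.Loc

/-!
# P298, block S1-GEO: derivative of fibre integrals with respect to the parameter
-/

open scoped ContDiff Topology Manifold ComplexConjugate
open Vale.Agent.P272.K MeasureTheory

noncomputable section

namespace Vale.Agent.P298.H39

variable {Z : Type} [TopologicalSpace Z] {F : Fam Z}

/-- derivative of a function on the total space along the lift over the direction `s` -/
def VF (F : Fam Z) (v : PC Z → Cm 2 × ℂ → Cm 2) (s : ℂ) (κ : Z → ℂ) (z : Z) : ℂ :=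
  fderiv ℝ (fun q => κ ((F.cover z).choose.symm q)) ((F.cover z).choose z)
    (s • v (F.cover z).choose ((F.cover z).choose z), s)

lemma lift_smul {v : PC Z → Cm 2 × ℂ → Cm 2} (hv : IsLift F v) {e e' : PC Z} (he : e ∈ F.A)
    (he' : e' ∈ F.A) {z : Z} (hz : z ∈ e.source) (hz' : z ∈ e'.source) (s : ℂ) :
    tj e e' z (s • v e (e z), s) = (s • v e' (e' z), s) := by
  have h1 : ((s • v e (e z), s) : Cm 2 × ℂ) = s • (v e (e z), 1) := by simp
  have h2 : ((s • v e' (e' z), s) : Cm 2 × ℂ) = s • (v e' (e' z), 1) := by simp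
  rw [h1, h2, tj_smul he he' hz hz', hv.change e he e' he' z hz hz']

lemma fderiv_pull {V : Type} [NormedAddCommGroup V] [NormedSpace ℝ V] {κ : Z → V}
    (hκ : SmF F κ) {e e' : PC Z} (he : e ∈ F.A)
    (he' : e' ∈ F.A) {z : Z} (hz : z ∈ e.source) (hz' : z ∈ e'.source) (x : Cm 2 × ℂ) :
    fderiv ℝ (fun q => κ (e.symm q)) (e z) x =
      fderiv ℝ (fun q => κ (e'.symm q)) (e' z) (tj e e' z x) := by
  have h1 : (fun q => κ (e.symm q)) =ᶠ[𝓝 (e z)] fun q => κ (e'.symm (e' (e.symm q))) := by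
    filter_upwards [nhds_overlap hz hz'] with q hq
    rw [e'.left_inv hq.2]
  have h2 : e' (e.symm (e z)) = e' z := by rw [e.left_inv hz]
  have h3 : HasFDerivAt (fun q => κ (e'.symm q)) (fderiv ℝ (fun q => κ (e'.symm q)) (e' z))
      (e' (e.symm (e z))) := by
    rw [h2]
    exact ((hκ e' he' (e' z) (e'.map_source hz')).differentiableAt (by simp)).hasFDerivAt
  have h4 := h3.comp (e z) (tr_diffR he he' hz hz').hasFDerivAt
  rw [(h4.congr_of_eventuallyEq h1).fderiv]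
  rfl

lemma VF_eq {v : PC Z → Cm 2 × ℂ → Cm 2} (hv : IsLift F v) {κ : Z → ℂ} (hκ : SmF F κ)
    {e : PC Z} (he : e ∈ F.A) {z : Z} (hz : z ∈ e.source) (s : ℂ) :
    VF F v s κ z = fderiv ℝ (fun q => κ (e.symm q)) (e z) (s • v e (e z), s) := by
  have h0 := (F.cover z).choose_spec
  rw [VF, fderiv_pull hκ he h0.1 hz h0.2, lift_smul hv he h0.1 hz h0.2]

lemma VF_symm {v : PC Z → Cm 2 × ℂ → Cm 2} (hv : IsLift F v) {κ : Z → ℂ} (hκ : SmF F κ)
    {e : PC Z} (he : e ∈ F.A) {q : Cm 2 × ℂ} (hq : q ∈ e.target) (s : ℂ) :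
    VF F v s κ (e.symm q) = fderiv ℝ (fun q => κ (e.symm q)) q (s • v e q, s) := by
  rw [VF_eq hv hκ he (e.map_target hq), e.right_inv hq]

lemma smF_VF {v : PC Z → Cm 2 × ℂ → Cm 2} (hv : IsLift F v) {κ : Z → ℂ} (hκ : SmF F κ)
    (s : ℂ) : SmF F (VF F v s κ) := by
  intro e he q hq
  have h1 : (fun q => VF F v s κ (e.symm q)) =ᶠ[𝓝 q]
      fun q => fderiv ℝ (fun q => κ (e.symm q)) q (s • v e q, s) := by
    filter_upwards [e.open_target.mem_nhds hq] with q' hq'
    exact VF_symm hv hκ he hq' s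
  refine ContDiffAt.congr_of_eventuallyEq ?_ h1
  have h2 : ContDiffAt ℝ ∞ (fderiv ℝ (fun q => κ (e.symm q))) q :=
    (hκ e he q hq).fderiv_right (m := ∞) (by simp)
  have h3 : ContDiffAt ℝ ∞ (fun q => ((s • v e q, s) : Cm 2 × ℂ)) q :=
    ((hv.smooth e he q hq).const_smul s).prodMk contDiffAt_const
  exact h2.clm_apply h3

lemma VF_zero {v : PC Z → Cm 2 × ℂ → Cm 2} (hv : IsLift F v) {κ : Z → ℂ} (hκ : SmF F κ)
    (s : ℂ) {z : Z} (h : κ =ᶠ[𝓝 z] fun _ => 0) : VF F v s κ z = 0 := by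
  obtain ⟨e, he, hz⟩ := F.cover z
  rw [VF_eq hv hκ he hz]
  have h1 : (fun q => κ (e.symm q)) =ᶠ[𝓝 (e z)] fun _ => 0 := by
    have h2 := (e.continuousAt_symm (e.map_source hz)).eventually (p := fun y => κ y = 0)
      (by rw [e.left_inv hz]; exact h)
    exact h2
  rw [h1.fderiv_eq]; simp

lemma tsupport_VF {v : PC Z → Cm 2 × ℂ → Cm 2} (hv : IsLift F v) {κ : Z → ℂ} (hκ : SmF F κ)
    (s : ℂ) : tsupport (VF F v s κ) ⊆ tsupport κ := by
  refine closure_minimal ?_ (isClosed_tsupport κ)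
  intro z hz
  by_contra hcon
  exact hz (VF_zero hv hκ s (notMem_tsupport_iff_eventuallyEq.mp hcon))

lemma smF_ofReal {κ : Z → ℝ} (hκ : SmF F κ) : SmF F fun z => ((κ z : ℝ) : ℂ) :=
  fun e he q hq => Complex.ofRealCLM.contDiff.contDiffAt.comp q (hκ e he q hq)

lemma tsupport_ofReal (κ : Z → ℝ) : tsupport (fun z => ((κ z : ℝ) : ℂ)) = tsupport κ := by
  unfold tsupport
  congr 1
  ext z
  simp

lemma VF_sum_const {v : PC Z → Cm 2 × ℂ → Cm 2} (hv : IsLift F v) {N : ℕ} {κ : Fin N → Z → ℂ}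
    (hκ : ∀ i, SmF F (κ i)) (s c : ℂ) {z : Z} (h : ∀ᶠ y in 𝓝 z, ∑ i, κ i y = c) :
    ∑ i, VF F v s (κ i) z = 0 := by
  obtain ⟨e, he, hz⟩ := F.cover z
  have h1 : ∀ᶠ q in 𝓝 (e z), ∑ i, κ i (e.symm q) = c := by
    refine (e.continuousAt_symm (e.map_source hz)).eventually (p := fun y => ∑ i, κ i y = c) ?_
    rw [e.left_inv hz]
    exact h
  have h2 : HasFDerivAt (fun q => ∑ i, κ i (e.symm q))
      (∑ i, fderiv ℝ (fun q => κ i (e.symm q)) (e z)) (e z) := by
    refine HasFDerivAt.fun_sum fun i _ => ?_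
    exact ((hκ i e he (e z) (e.map_source hz)).differentiableAt (by simp)).hasFDerivAt
  have h3 : HasFDerivAt (fun q => ∑ i, κ i (e.symm q)) (0 : Cm 2 × ℂ →L[ℝ] ℂ) (e z) :=
    (hasFDerivAt_const c (e z)).congr_of_eventuallyEq h1
  have h4 := h2.unique h3
  have h5 := congrArg (fun L : Cm 2 × ℂ →L[ℝ] ℂ => L (s • v e (e z), s)) h4
  simp only [_root_.sum_apply, _root_.zero_apply] at h5
  rw [← h5]
  exact Finset.sum_congr rfl fun i _ => VF_eq hv (hκ i) he hz s

/-- the functions of the partition of unity with complex values -/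
def LPart.κ {t0 : ℂ} (P : LPart F t0) (i : Fin P.N) : Z → ℂ := fun z => ((P.ρ i z : ℝ) : ℂ)

lemma LPart.smF_κ {t0 : ℂ} (P : LPart F t0) (i : Fin P.N) : SmF F (P.κ i) :=
  smF_ofReal (P.smooth i)

lemma LPart.supp_κ {t0 : ℂ} (P : LPart F t0) (i : Fin P.N) :
    tsupport (P.κ i) ⊆ (P.e i).source := by
  have h1 : tsupport (P.κ i) = tsupport (P.ρ i) := tsupport_ofReal (P.ρ i)
  rw [h1]
  exact P.supp i

lemma LPart.sum_κ {t0 : ℂ} (P : LPart F t0) {z : Z} (hz : F.p z ∈ Metric.closedBall t0 P.r) :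
    ∑ i, P.κ i z = 1 := by
  show ∑ i, ((P.ρ i z : ℝ) : ℂ) = 1
  rw [← Complex.ofReal_sum, P.sum z hz]
  simp

variable [T2Space Z]

/-- a fibre integral in terms of a partition of unity -/
lemma intF_part {t0 : ℂ} (P : LPart F t0) {D : PC Z → Cm 2 × ℂ → ℂ} (hD : IsDen F D) {t : ℂ}
    (ht : t ∈ Metric.closedBall t0 P.r) :
    intF F t D = ∑ i, ∫ w, cut (P.e i) (P.κ i) (D (P.e i)) (w, t) := by
  have h1 : intF F t D = intF F t (fun e q => ∑ i, P.κ i (e.symm q) * D e q) := by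
    refine intF_congr hD (IsDen.sum _ fun i _ => hD.mul_fun (P.smF_κ i)) ?_
    intro e he q hq hqt
    have h2 : F.p (e.symm q) ∈ Metric.closedBall t0 P.r := by
      rw [Fam.p_symm he hq, hqt]; exact ht
    rw [← Finset.sum_mul, P.sum_κ h2, one_mul]
  rw [h1, intF_sum t _ fun i _ => hD.mul_fun (P.smF_κ i)]
  exact Finset.sum_congr rfl fun i _ => intF_cut (P.mem i) (P.smF_κ i) (P.supp_κ i) hD (P.sub ht)

/-- derivative of a fibre integral -/
theorem hasFDerivAt_intF {D : PC Z → Cm 2 × ℂ → ℂ} (hD : IsDen F D)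
    {v : PC Z → Cm 2 × ℂ → Cm 2} (hv : IsLift F v) {D' : ℂ → PC Z → Cm 2 × ℂ → ℂ}
    (hD' : ∀ s, IsDen F (D' s))
    (h : ∀ s, ∀ e ∈ F.A, ∀ q ∈ e.target, D' s e q =
      fderiv ℝ (D e) q (s • v e q, s) + ((trR (s • dfv (v e) q) : ℝ) : ℂ) * D e q)
    {t0 : ℂ} (ht : t0 ∈ F.Ω) :
    ∃ L : ℂ →L[ℝ] ℂ, HasFDerivAt (fun t => intF F t D) L t0 ∧
      ∀ s, L s = intF F t0 (D' s) := by
  obtain ⟨P⟩ := exists_lpart F ht
  obtain ⟨κ, hκdef⟩ : ∃ κ : Fin P.N → Z → ℂ, κ = P.κ := ⟨_, rfl⟩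
  have hκ : ∀ i, SmF F (κ i) := fun i => by rw [hκdef]; exact P.smF_κ i
  have hs : ∀ i, tsupport (κ i) ⊆ (P.e i).source := fun i => by
    rw [hκdef]; exact P.supp_κ i
  let Φ : Fin P.N → Cm 2 × ℂ → ℂ := fun i => cut (P.e i) (κ i) (D (P.e i))
  have hΦ : ∀ i (q : Cm 2 × ℂ), q.2 ∈ F.Ω → ContDiffAt ℝ ∞ (Φ i) q := fun i q hq =>
    contDiffAt_cut (P.mem i) (hκ i) (hs i) (hD.smooth _ (P.mem i)) hq
  have hC : ∀ i, IsCompact (Prod.fst '' supC F (P.e i) (κ i) (Metric.closedBall t0 P.r)) :=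
    fun i => (isCompact_supC (hs i) (isCompact_closedBall _ _) P.sub).image continuous_fst
  have hex : ∀ i, ∃ L : ℂ →L[ℝ] ℂ, HasFDerivAt (fun t => ∫ w, Φ i (w, t)) L t0 ∧
      ∀ s, L s = ∫ w, fderiv ℝ (Φ i) (w, t0) (0, s) := by
    intro i
    refine hasFDerivAt_param P.r_pos (fun q hq => (hΦ i q (P.sub hq)).of_le (by simp))
      (hC i) ?_
    intro q hq hqW
    exact cut_zero_of_notMem_supC (P.mem i) hq fun hh => hqW ⟨q, hh, rfl⟩
  choose L hL hLs using hex
  have hev : (fun t => intF F t D) =ᶠ[𝓝 t0] fun t => ∑ i, ∫ w, Φ i (w, t) := by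
    filter_upwards [Metric.closedBall_mem_nhds t0 P.r_pos] with t ht'
    rw [intF_part P hD ht', ← hκdef]
  refine ⟨∑ i, L i, (HasFDerivAt.fun_sum fun i _ => hL i).congr_of_eventuallyEq hev,
    fun s => ?_⟩
  have ht0 : t0 ∈ Metric.closedBall t0 P.r := Metric.mem_closedBall_self P.r_pos.le
  -- pointwise formula in one chart
  have hpt : ∀ i (w : Cm 2), fderiv ℝ (Φ i) (w, t0) (0, s) +
      (fderiv ℝ (fun w => Φ i (w, t0)) w (s • v (P.e i) (w, t0)) +
        ((trR (fderiv ℝ (fun w => s • v (P.e i) (w, t0)) w) : ℝ) : ℂ) * Φ i (w, t0)) =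
      cut (P.e i) (VF F v s (κ i)) (D (P.e i)) (w, t0) +
        cut (P.e i) (κ i) (D' s (P.e i)) (w, t0) := by
    intro i w
    have hslice : fderiv ℝ (fun w => Φ i (w, t0)) w (s • v (P.e i) (w, t0)) =
        fderiv ℝ (Φ i) (w, t0) (s • v (P.e i) (w, t0), 0) := by
      have h1 := ((hΦ i (w, t0) ht).differentiableAt (by simp)).hasFDerivAt
      have h2 : HasFDerivAt (fun w : Cm 2 => (w, t0)) (ContinuousLinearMap.inl ℝ (Cm 2) ℂ) w := by
        have := (hasFDerivAt_id (𝕜 := ℝ) w).prodMk (hasFDerivAt_const t0 w)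
        exact this
      have h3 : HasFDerivAt (fun w => Φ i (w, t0))
          ((fderiv ℝ (Φ i) (w, t0)).comp (ContinuousLinearMap.inl ℝ (Cm 2) ℂ)) w :=
        HasFDerivAt.comp (g := Φ i) w h1 h2
      rw [h3.fderiv]
      rfl
    by_cases hq : ((w, t0) : Cm 2 × ℂ) ∈ (P.e i).target
    · have hvd : DifferentiableAt ℝ (v (P.e i)) (w, t0) :=
        (hv.smooth _ (P.mem i) _ hq).differentiableAt (by simp)
      have h4 : fderiv ℝ (fun w => s • v (P.e i) (w, t0)) w = s • dfv (v (P.e i)) (w, t0) := by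
        have h2 : HasFDerivAt (fun w : Cm 2 => (w, t0)) (ContinuousLinearMap.inl ℝ (Cm 2) ℂ) w := by
          have := (hasFDerivAt_id (𝕜 := ℝ) w).prodMk (hasFDerivAt_const t0 w)
          exact this
        have h3 : HasFDerivAt (fun w => v (P.e i) (w, t0)) (dfv (v (P.e i)) (w, t0)) w :=
          HasFDerivAt.comp (g := v (P.e i)) w hvd.hasFDerivAt h2
        exact (h3.const_smul s).fderiv
      rw [hslice, h4, cut_of_mem hq, cut_of_mem hq, VF_symm hv (hκ i) (P.mem i) hq,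
        h s _ (P.mem i) _ hq]
      have h5 : fderiv ℝ (Φ i) (w, t0) = fderiv ℝ (fun q => κ i ((P.e i).symm q) *
          D (P.e i) q) (w, t0) := (cut_eventually hq).fderiv_eq
      have hκd := ((hκ i _ (P.mem i) _ hq).differentiableAt (by simp)).hasFDerivAt
      have hDd := ((hD.smooth _ (P.mem i) _ hq).differentiableAt (by simp)).hasFDerivAt
      have h6 : fderiv ℝ (fun q => κ i ((P.e i).symm q) * D (P.e i) q) (w, t0) = _ :=
        (hκd.mul hDd).fderiv
      have h7 : fderiv ℝ (Φ i) (w, t0) (0, s) +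
          fderiv ℝ (Φ i) (w, t0) (s • v (P.e i) (w, t0), 0) =
          fderiv ℝ (Φ i) (w, t0) (s • v (P.e i) (w, t0), s) := by
        rw [← map_add]
        congr 1
        simp
      have h8 : Φ i (w, t0) = κ i ((P.e i).symm (w, t0)) * D (P.e i) (w, t0) := cut_of_mem hq
      rw [h8, ← add_assoc, h7, h5, h6]
      simp only [_root_.add_apply, ContinuousLinearMap.smul_apply, smul_eq_mul]
      ring
    · have h5 := cut_ev_zero (P.mem i) (hs i) (D := D (P.e i)) (q := (w, t0)) ht hq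
      have h6 : fderiv ℝ (Φ i) (w, t0) = 0 := by
        have h7 : fderiv ℝ (Φ i) (w, t0) = fderiv ℝ (fun _ => (0 : ℂ)) (w, t0) := h5.fderiv_eq
        rw [h7]; simp
      have h8 : Φ i (w, t0) = 0 := h5.eq_of_nhds
      rw [hslice, h6, h8, cut_of_notMem hq, cut_of_notMem hq]
      simp
  -- the divergence terms integrate to zero
  have hdiv : ∀ i, ∫ w, (fderiv ℝ (fun w => Φ i (w, t0)) w (s • v (P.e i) (w, t0)) +
        ((trR (fderiv ℝ (fun w => s • v (P.e i) (w, t0)) w) : ℝ) : ℂ) * Φ i (w, t0)) = 0 := by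
    intro i
    have hsm := cut_slice_contDiff (P.mem i) (hκ i) (hs i) (hD.smooth _ (P.mem i)) ht
    have hcs := cut_slice_support (F := F) (P.mem i) (hs i) (D := D (P.e i)) ht
    refine div_zero' (G := fun w => Φ i (w, t0)) (hsm.of_le (by simp)) hcs
      (X := fun w => s • v (P.e i) (w, t0)) ?_
    intro w hw
    have hq : ((w, t0) : Cm 2 × ℂ) ∈ (P.e i).target := by
      by_contra hcon
      have h5 := cut_ev_zero (P.mem i) (hs i) (D := D (P.e i)) (q := (w, t0)) ht hcon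
      refine (notMem_tsupport_iff_eventuallyEq.mpr ?_) hw
      have h6 : Filter.Tendsto (fun w : Cm 2 => (w, t0)) (𝓝 w) (𝓝 (w, t0)) := by
        have : Continuous fun w : Cm 2 => (w, t0) := by fun_prop
        exact this.continuousAt
      exact h6.eventually h5
    have h2 : ContDiffAt ℝ ∞ (fun w : Cm 2 => (w, t0)) w := contDiffAt_id.prodMk contDiffAt_const
    have h3 : ContDiffAt ℝ ∞ (fun w => v (P.e i) (w, t0)) w :=
      ContDiffAt.comp (g := v (P.e i)) w (hv.smooth _ (P.mem i) _ hq) h2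
    have h4 : ContDiffAt ℝ ∞ (fun w => s • v (P.e i) (w, t0)) w := h3.const_smul s
    exact h4.of_le (by simp)
  have hVs : ∀ i, tsupport (VF F v s (κ i)) ⊆ (P.e i).source := fun i =>
    (tsupport_VF hv (hκ i) s).trans (hs i)
  have hI1 : ∀ i, Integrable fun w => cut (P.e i) (VF F v s (κ i)) (D (P.e i)) (w, t0) :=
    fun i => (cut_slice_contDiff (P.mem i) (smF_VF hv (hκ i) s) (hVs i)
      (hD.smooth _ (P.mem i)) ht).continuous.integrable_of_hasCompactSupport
      (cut_slice_support (F := F) (P.mem i) (hVs i) ht)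
  have hI2 : ∀ i, Integrable fun w => cut (P.e i) (κ i) (D' s (P.e i)) (w, t0) :=
    fun i => (cut_slice_contDiff (P.mem i) (hκ i) (hs i)
      ((hD' s).smooth _ (P.mem i)) ht).continuous.integrable_of_hasCompactSupport
      (cut_slice_support (F := F) (P.mem i) (hs i) ht)
  have hI3 : ∀ i, Integrable fun w => fderiv ℝ (Φ i) (w, t0) (0, s) := by
    intro i
    have hc : Continuous fun w => fderiv ℝ (Φ i) (w, t0) (0, s) := by
      have h1 : Continuous fun w => fderiv ℝ (Φ i) (w, t0) := by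
        rw [continuous_iff_continuousAt]
        intro w
        exact ContinuousAt.comp (g := fun q : Cm 2 × ℂ => fderiv ℝ (Φ i) q)
          ((hΦ i (w, t0) ht).fderiv_right (m := 0) (by simp)).continuousAt (by fun_prop)
      exact h1.clm_apply continuous_const
    refine hc.integrable_of_hasCompactSupport (HasCompactSupport.intro (hC i) fun w hw => ?_)
    have h1 : Φ i =ᶠ[𝓝 (w, t0)] fun _ => 0 := by
      have h2 : ∀ᶠ q : Cm 2 × ℂ in 𝓝 (w, t0),
          q.1 ∉ Prod.fst '' supC F (P.e i) (κ i) (Metric.closedBall t0 P.r) :=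
        continuous_fst.continuousAt.eventually ((hC i).isClosed.isOpen_compl.mem_nhds
          (show w ∈ (Prod.fst '' supC F (P.e i) (κ i) (Metric.closedBall t0 P.r))ᶜ from hw))
      have h3 : ∀ᶠ q : Cm 2 × ℂ in 𝓝 (w, t0), q.2 ∈ Metric.closedBall t0 P.r :=
        continuous_snd.continuousAt.eventually (Metric.closedBall_mem_nhds t0 P.r_pos)
      filter_upwards [h2, h3] with q hq2 hq3
      exact cut_zero_of_notMem_supC (P.mem i) hq3 fun hh => hq2 ⟨q, hh, rfl⟩
    rw [h1.fderiv_eq]; simp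
  have hsum : ∀ i, ∫ w, fderiv ℝ (Φ i) (w, t0) (0, s) =
      (∫ w, cut (P.e i) (VF F v s (κ i)) (D (P.e i)) (w, t0)) +
        ∫ w, cut (P.e i) (κ i) (D' s (P.e i)) (w, t0) := by
    intro i
    rw [← integral_add (hI1 i) (hI2 i), ← integral_congr_ae (Filter.Eventually.of_forall (hpt i))]
    have hI4 : Integrable fun w => (fderiv ℝ (fun w => Φ i (w, t0)) w (s • v (P.e i) (w, t0)) +
        ((trR (fderiv ℝ (fun w => s • v (P.e i) (w, t0)) w) : ℝ) : ℂ) * Φ i (w, t0)) := by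
      have h1 := ((hI1 i).add (hI2 i)).sub (hI3 i)
      refine h1.congr (Filter.Eventually.of_forall fun w => ?_)
      have h2 := hpt i w
      simp only [Pi.sub_apply, Pi.add_apply]
      rw [← h2]
      ring
    rw [integral_add (hI3 i) hI4, hdiv i, add_zero]
  have hA : ∑ i, ∫ w, cut (P.e i) (VF F v s (κ i)) (D (P.e i)) (w, t0) = 0 := by
    have h1 : ∀ i, ∫ w, cut (P.e i) (VF F v s (κ i)) (D (P.e i)) (w, t0) =
        intF F t0 (fun e q => VF F v s (κ i) (e.symm q) * D e q) := fun i =>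
      (intF_cut (P.mem i) (smF_VF hv (hκ i) s) (hVs i) hD ht).symm
    rw [Finset.sum_congr rfl fun i _ => h1 i,
      ← intF_sum t0 _ fun i _ => hD.mul_fun (smF_VF hv (hκ i) s)]
    rw [← intF_zero (F := F) t0]
    refine intF_congr (IsDen.sum _ fun i _ => hD.mul_fun (smF_VF hv (hκ i) s)) isDen_zero ?_
    intro e he q hq hqt
    rw [← Finset.sum_mul, VF_sum_const hv hκ s 1, zero_mul]
    have h2 : ∀ᶠ y in 𝓝 (e.symm q), F.p y ∈ Metric.closedBall t0 P.r := by
      refine F.cont.continuousAt.eventually (Metric.closedBall_mem_nhds_of_mem ?_)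
      rw [Fam.p_symm he hq, hqt]
      exact Metric.mem_ball_self P.r_pos
    filter_upwards [h2] with y hy
    rw [hκdef]
    exact P.sum_κ hy
  rw [_root_.sum_apply]
  calc ∑ i, L i s = ∑ i, ((∫ w, cut (P.e i) (VF F v s (κ i)) (D (P.e i)) (w, t0)) +
        ∫ w, cut (P.e i) (κ i) (D' s (P.e i)) (w, t0)) :=
        Finset.sum_congr rfl fun i _ => by rw [hLs i s, hsum i]
    _ = intF F t0 (D' s) := by
        rw [Finset.sum_add_distrib, hA, zero_add, intF_part P (hD' s) ht0, ← hκdef]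

end Vale.Agent.P298.H39
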