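import Vale.Agent.P298.H217.Bdd6
import Vale.Agent.P298.H863.C11
import Vale.Agent.P298.H39.Asm3

/-!
# P298, block S1-GEO: the projection of the cyclic cover as a map of families, the form `η`
-/

open scoped ContDiff Topology Manifold ComplexConjugate
open Vale.Agent.P272.K MeasureTheory

set_option maxSynthPendingDepth 3

noncomputable section

namespace Vale.Agent.P298.H39

open H863 (VN Dat CIF TZ gS gZ cifS cifZ prZ prZ_ind prZ_hol hsec hsec_change hsec_hol cf Peta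
  eta_eq IsPC)
open H217.Bdd (FMap TwForm etaG)

variable {D Ω : Set ℂ} {d M : ℕ} {G H : ℂ × VN (1 + 3) → ℂ}

/-- the projection is a map of families -/
theorem fmap_prZ (h : Dat D d M G H) (hΩD : Ω ⊆ D) (hZ : CIF Ω (gZ G H M) ![d, M]) :
    FMap (H863.fam hZ rfl) (H863.fam (cifS h) rfl) (prZ h hΩD hZ) where
  cont := (prZ_ind h hΩD hZ).continuous hZ rfl
  p_eq z := (prZ_ind h hΩD hZ).t z
  hol _ he _ hε _ hz hy := (prZ_ind h hΩD hZ).hol he hε hz hy

/-- the section `Y ^ (d - 4) w_S` -/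
theorem tw_hsec (hd : 5 ≤ d) (h : Dat D d M G H) (hΩD : Ω ⊆ D)
    (hZ : CIF Ω (gZ G H M) ![d, M]) :
    TwForm (H863.fam hZ rfl) (H863.fam (cifS h) rfl) (prZ h hΩD hZ) (hsec h hΩD hZ) where
  hol _ he _ hε _ hz hy := (hsec_hol (h := h) (hΩD := hΩD) (hZ := hZ) hd hε he hz hy).contDiffAt
  change _ hε _ hε' _ hy hy' u x := by
    have := hsec_change (h := h) (hΩD := hΩD) (hZ := hZ) hd hε hε' hy hy' u x
    simp only [H217.Bdd.detB_apply]
    exact this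

/-- the coefficient of `η` is that of the twisted form -/
theorem eta_etaG (hd : 5 ≤ d) (h : Dat D d M G H) (hΩD : Ω ⊆ D)
    (hZ : CIF Ω (gZ G H M) ![d, M]) {e : PC (TZ Ω (gZ G H M))} (he : IsPC e) {q : Cm 2 × ℂ}
    (hq : q ∈ e.target) :
    cf (Peta H d M) e q • H723.dzz =
      etaG (H863.fam (cifS h) rfl) (prZ h hΩD hZ) (hsec h hΩD hZ) e q := by
  obtain ⟨z, hz⟩ : ∃ z, z = e.symm q := ⟨_, rfl⟩
  have hzs : z ∈ e.source := hz ▸ e.map_target hq
  have hez : e z = q := by rw [hz, e.right_inv hq]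
  obtain ⟨ε, hε⟩ : ∃ ε, ε = H217.Bdd.cS (H863.fam (cifS h) rfl) (prZ h hΩD hZ z) := ⟨_, rfl⟩
  have hεA : IsPC ε := hε ▸ H217.Bdd.cS_mem (H863.fam (cifS h) rfl) (prZ h hΩD hZ z)
  have hεs : prZ h hΩD hZ z ∈ ε.source :=
    hε ▸ H217.Bdd.cS_src (H863.fam (cifS h) rfl) (prZ h hΩD hZ z)
  ext1 u
  ext1 x
  have h1 := eta_eq (h := h) (hΩD := hΩD) (hZ := hZ) hd hεA he hzs hεs u x
  rw [hez] at h1
  have h2 : (cf (Peta H d M) e q • H723.dzz) u x = H863.fm (cf (Peta H d M)) e q u x := rfl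
  rw [h2, h1]
  show _ = H217.Bdd.etaL (H217.Bdd.PM (prZ h hΩD hZ) e
    (H217.Bdd.cS (H863.fam (cifS h) rfl) (prZ h hΩD hZ (e.symm q))))
    (fun q' => hsec h hΩD hZ (H217.Bdd.cS (H863.fam (cifS h) rfl) (prZ h hΩD hZ (e.symm q)))
      (e.symm q')) (fun _ => 1) q u x
  rw [← hz, ← hε, H217.Bdd.etaL_apply]
  simp only [H217.Bdd.fg, mul_one, H217.Bdd.fpart_apply, H217.Bdd.detB_apply]
  rw [← hz]
  rfl

end Vale.Agent.P298.H39
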