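import Vale.Agent.P298.H39.Asm5
import Vale.Agent.P298.H39.End1
import Vale.Agent.P298.H39.Scale
import Vale.Agent.P298.H98.R7e
import Vale.Agent.P298.H265.Lift

/-!
# P298, block S1-GEO: from the geometric data of the cyclic covers to `GeoOut`
-/

open scoped ContDiff Topology Manifold ComplexConjugate
open Vale.Agent.P272.K MeasureTheory Metric

set_option maxSynthPendingDepth 3

noncomputable section

namespace Vale.Agent.P298.H39

open H863 (VN Dat CIF TZ gS gZ cifS cifZ prZ hsec cf Peta IsPC)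
open H412 (SFam)

section types
variable {Z : Type} [TopologicalSpace Z] {F : Fam Z} {σ : Z ≃ₜ Z} {χ : ℂ}

lemma ty20_smul_dzz (c : ℂ) : Ty20 (c • H723.dzz) := by
  intro u v
  simp only [ContinuousLinearMap.smul_apply, smul_eq_mul, dzz_smul_left, dzz_smul_right]
  constructor <;> ring

lemma ty02_cjB_dzz (c : ℂ) : Ty02 (cjB (c • H723.dzz)) := by
  intro u v
  simp only [cjB_apply, ContinuousLinearMap.smul_apply, smul_eq_mul, dzz_smul_left,
    dzz_smul_right, map_mul, Complex.conj_I]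
  constructor <;> ring

end types

variable {d m : ℕ} {D Ω : Set ℂ}

/-- the output of the geometry, given the structure `Geo` of the family of cyclic covers -/
theorem geo_end (F : SFam d D) {H : ℂ × (Fin 4 → ℂ) → ℂ} (hm : 2 ≤ m)
    (h : Dat D d (m * (d - 4)) F.G H) (hΩD : Ω ⊆ D)
    (hZ : CIF Ω (gZ F.G H (m * (d - 4))) ![d, m * (d - 4)])
    {σ : TZ Ω (gZ F.G H (m * (d - 4))) ≃ₜ TZ Ω (gZ F.G H (m * (d - 4)))} {k : ℕ} {χ : ℂ}
    {p r : ℕ} {w : Fin p → PC (TZ Ω (gZ F.G H (m * (d - 4)))) → Cm 2 × ℂ → ℂ}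
    {u : Fin r → PC (TZ Ω (gZ F.G H (m * (d - 4)))) → Cm 2 × ℂ → ℂ}
    (G : Geo (H863.fam hZ rfl) σ k χ w u (cf (Peta H d (m * (d - 4)))))
    {R : ℝ} (hR : closedBall 0 R ⊆ D)
    {B : ℝ} (hB : ∀ t ∈ closedBall (0 : ℂ) R, (F.N m H t).toReal ≤ B) :
    ∃ (K : ℝ) (x y : ℂ → ℝ), (∀ t ∈ ball (0 : ℂ) R ∩ Ω, x t ≤ K ∧ y t ≤ K) ∧
      ∀ t ∈ ball (0 : ℂ) R ∩ Ω, H265.HasConn (fun t => (F.N m H t).toReal) x y t := by
  have hd := F.hd
  have hM0 : 0 < m * (d - 4) := Nat.mul_pos (by omega) (by omega)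
  obtain ⟨v, hv, hvσ'⟩ := H265.exists_inv_lift (H863.fam hZ rfl) σ G.deck.mem G.m_pos G.iter
  have hvσ : LInv (H863.fam hZ rfl) σ v := fun e _ q _ => hvσ' e q
  obtain ⟨ν, hν⟩ := H265.exists_lift (H863.fam (cifS h) rfl)
  obtain ⟨C, hC, hbd⟩ := H217.Bdd.bdd (fmap_prZ h hΩD hZ) (tw_hsec hd h hΩD hZ) hν
    (isCompact_closedBall (0 : ℂ) R) hR
  have hηE : EqA (H863.fam hZ rfl) G.E.1 (H217.Bdd.etaG (H863.fam (cifS h) rfl) (prZ h hΩD hZ)
      (hsec h hΩD hZ)) := by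
    intro e he q hq
    rw [Geo.E, mF_apply he hq]
    exact eta_etaG hd h hΩD hZ he hq
  obtain ⟨c, hc⟩ : ∃ c : ℝ, c = 4 * ((m * (d - 4) : ℕ) : ℝ) := ⟨_, rfl⟩
  have hc0 : 0 < c := by
    rw [hc]
    have : (0 : ℝ) < ((m * (d - 4) : ℕ) : ℝ) := by exact_mod_cast hM0
    linarith
  have hNQ : ∀ t ∈ (H863.fam hZ rfl).Ω,
      c * (F.N m H t).toReal = (QM (H863.fam hZ rfl) σ χ t G.E G.E).re := by
    intro t ht
    have h1 := (H98.R7.intF_eta F hm h hΩD hZ ht).2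
    have h2 : QM (H863.fam hZ rfl) σ χ t G.E G.E = intF (H863.fam hZ rfl) t (fun e q =>
        prh (H863.fm (cf (Peta H d (m * (d - 4)))) e q)
          (H863.fm (cf (Peta H d (m * (d - 4)))) e q)) := by
      rw [QM_apply]
      have h3 : ∀ e ∈ (H863.fam hZ rfl).A, ∀ q ∈ e.target, G.E.1 e q =
          H863.fm (cf (Peta H d (m * (d - 4)))) e q := by
        intro e he q hq
        rw [Geo.E, mF_apply he hq]
        rfl
      have h4 := (H863.isHolCf_cf hZ (H863.hPol_Peta h hΩD) (H863.hN_Z hd)).isRF2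
      refine intF_congr (isDen_prh (mRF G.E) (mRF G.E)) (isDen_prh h4 h4) fun e he q hq _ => ?_
      rw [h3 e he q hq]
    rw [h2, h1, Complex.ofReal_re, hc]
  obtain ⟨x, y, hxy, hconn⟩ := G.hasConn hv hvσ (N := fun t => c * (F.N m H t).toReal) hNQ
  have hW : ∀ (t : ℂ) (i : Fin p), ∀ e ∈ (H863.fam hZ rfl).A, ∀ q ∈ e.target, q.2 = t →
      Ty20 ((G.W i).1 e q) := by
    intro t i e he q hq _
    rw [Geo.W, mF_apply he hq]
    exact ty20_smul_dzz _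
  have hU : ∀ (t : ℂ) (j : Fin r), ∀ e ∈ (H863.fam hZ rfl).A, ∀ q ∈ e.target, q.2 = t →
      Ty02 ((G.U j).1 e q) := by
    intro t j e he q hq _
    rw [Geo.U, mG_apply he hq]
    exact ty02_cjB_dzz _
  have hfin : ∀ t ∈ ball (0 : ℂ) R ∩ Ω, ∀ z : ℝ, z ≤ C * (QM (H863.fam hZ rfl) σ χ t G.E G.E).re →
      c⁻¹ * z ≤ C * B := by
    intro t ht z hz
    rw [← hNQ t ht.2] at hz
    have h1 : c⁻¹ * z ≤ c⁻¹ * (C * (c * (F.N m H t).toReal)) :=
      mul_le_mul_of_nonneg_left hz (inv_nonneg.mpr hc0.le)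
    have h2 : c⁻¹ * (C * (c * (F.N m H t).toReal)) = C * (F.N m H t).toReal := by
      field_simp
    rw [h2] at h1
    exact h1.trans (mul_le_mul_of_nonneg_left (hB t (ball_subset_closedBall ht.1)) hC)
  refine ⟨C * B, fun t => c⁻¹ * x t, fun t => c⁻¹ * y t, fun t ht => ⟨?_, ?_⟩, fun t ht => ?_⟩
  · exact hfin t ht _ ((hbd v hv σ G.deck hvσ χ G.E hηE t ht.2 (ball_subset_closedBall ht.1) p
      G.W (x t)).1 (hW t) (hxy t ht.2).1)
  · exact hfin t ht _ ((hbd v hv σ G.deck hvσ χ G.E hηE t ht.2 (ball_subset_closedBall ht.1) r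
      G.U (y t)).2 (hU t) (hxy t ht.2).2)
  · refine hasConn_scale (hconn t ht.2) (inv_pos.mpr hc0) (V := Ω) hZ.isOpen ht.2 ?_
      (fun _ _ => rfl) (fun _ _ => rfl)
    intro s _
    show (F.N m H s).toReal = c⁻¹ * (c * (F.N m H s).toReal)
    field_simp

end Vale.Agent.P298.H39
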