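import Vale.Agent.P272.K.INT.Dens

/-!
# P298, block S1-GEO: analytic families of compact complex surfaces (definitions)

`Z` is the total space, `p : Z → ℂ` the projection onto the open set `Ω`, a product chart is a
pair (fibre coordinates in `ℂ²`, parameter). A relative 2-form is given, in every product chart, by
a smooth family of alternating real-bilinear forms on `ℂ²` with values in `ℂ`.
-/

open scoped ContDiff Topology Manifold
open Vale.Agent.P272.K

noncomputable section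

namespace Vale.Agent.P298.H39

/-- product charts: fibre coordinates and parameter -/
abbrev PC (Z : Type) [TopologicalSpace Z] : Type := OpenPartialHomeomorph Z (Cm 2 × ℂ)

/-- the change of charts from `e` to `e'` is holomorphic -/
def HolTr {Z : Type} [TopologicalSpace Z] (e e' : PC Z) : Prop :=
  ∀ z ∈ e.source, z ∈ e'.source → ContDiffAt ℂ ω (fun q => e' (e.symm q)) (e z)

/-- an analytic family of compact complex surfaces over the open set `Ω` -/
structure Fam (Z : Type) [TopologicalSpace Z] where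
  /-- base -/
  Ω : Set ℂ
  isOpen : IsOpen Ω
  /-- projection -/
  p : Z → ℂ
  cont : Continuous p
  p_mem : ∀ z, p z ∈ Ω
  surj : ∀ t ∈ Ω, ∃ z, p z = t
  proper : ∀ K : Set ℂ, IsCompact K → K ⊆ Ω → IsCompact (p ⁻¹' K)
  /-- product charts -/
  A : Set (PC Z)
  chart_p : ∀ e ∈ A, ∀ z ∈ e.source, (e z).2 = p z
  cover : ∀ z, ∃ e ∈ A, z ∈ e.source
  trans : ∀ e ∈ A, ∀ e' ∈ A, HolTr e e'
  max : ∀ e : PC Z, (∀ z ∈ e.source, (e z).2 = p z) →
    (∀ e' ∈ A, HolTr e e' ∧ HolTr e' e) → e ∈ A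

/-- real-bilinear forms on the tangent space of the fibre -/
abbrev BF : Type := Cm 2 →L[ℝ] Cm 2 →L[ℝ] ℂ

/-- real-linear forms on the tangent space of the fibre -/
abbrev LF : Type := Cm 2 →L[ℝ] ℂ

section
variable {Z : Type} [TopologicalSpace Z]

/-- full Jacobian of the change of charts -/
def tj (e e' : PC Z) (z : Z) : Cm 2 × ℂ →L[ℝ] Cm 2 × ℂ :=
  fderiv ℝ (fun q => e' (e.symm q)) (e z)

/-- fibre Jacobian of the change of charts -/
def fj (e e' : PC Z) (z : Z) (u : Cm 2) : Cm 2 := (tj e e' z (u, 0)).1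

variable (F : Fam Z)

/-- relative smooth 1-form -/
structure IsRF1 (θ : PC Z → Cm 2 × ℂ → LF) : Prop where
  smooth : ∀ e ∈ F.A, ∀ q ∈ e.target, ContDiffAt ℝ ∞ (θ e) q
  change : ∀ e ∈ F.A, ∀ e' ∈ F.A, ∀ z ∈ e.source, z ∈ e'.source → ∀ u,
    θ e (e z) u = θ e' (e' z) (fj e e' z u)

/-- relative smooth 2-form -/
structure IsRF2 (α : PC Z → Cm 2 × ℂ → BF) : Prop where
  smooth : ∀ e ∈ F.A, ∀ q ∈ e.target, ContDiffAt ℝ ∞ (α e) q
  alt : ∀ e ∈ F.A, ∀ q ∈ e.target, ∀ u v, α e q u v = -α e q v u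
  change : ∀ e ∈ F.A, ∀ e' ∈ F.A, ∀ z ∈ e.source, z ∈ e'.source → ∀ u v,
    α e (e z) u v = α e' (e' z) (fj e e' z u) (fj e e' z v)

/-- closed along the fibres -/
def IsCl2 (α : PC Z → Cm 2 × ℂ → BF) : Prop :=
  ∀ e ∈ F.A, ∀ q ∈ e.target, ∀ u v x : Cm 2,
    fderiv ℝ (α e) q (u, 0) v x - fderiv ℝ (α e) q (v, 0) u x + fderiv ℝ (α e) q (x, 0) u v = 0

/-- smooth lift (of type `(1,0)`) of the vector field `∂/∂t`: in the chart `e` it is
`∂/∂t + v e`, i.e. over the real direction `s` of the base it is `(s • v e, s)` -/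
structure IsLift (v : PC Z → Cm 2 × ℂ → Cm 2) : Prop where
  smooth : ∀ e ∈ F.A, ∀ q ∈ e.target, ContDiffAt ℝ ∞ (v e) q
  change : ∀ e ∈ F.A, ∀ e' ∈ F.A, ∀ z ∈ e.source, z ∈ e'.source →
    tj e e' z (v e (e z), 1) = (v e' (e' z), 1)

end

/-- exterior derivative (along the fibres) of a relative 1-form in a chart -/
def d1 (θ : Cm 2 × ℂ → LF) (q : Cm 2 × ℂ) (u v : Cm 2) : ℂ :=
  fderiv ℝ θ q (u, 0) v - fderiv ℝ θ q (v, 0) u

/-- Lie derivative in a chart along the vector field `(s • v, s)` over the direction `s : ℂ` -/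
def lie (v : Cm 2 × ℂ → Cm 2) (s : ℂ) (α : Cm 2 × ℂ → BF) (q : Cm 2 × ℂ) (u x : Cm 2) : ℂ :=
  fderiv ℝ α q (s • v q, s) u x + α q (s • fderiv ℝ v q (u, 0)) x +
    α q u (s • fderiv ℝ v q (x, 0))

/-- the real basis `1, i` of the two coordinate lines -/
def bs : Fin 4 → Cm 2 :=
  ![Pi.single 0 1, Pi.single 0 Complex.I, Pi.single 1 1, Pi.single 1 Complex.I]

/-- the coefficient of `α ∧ β` with respect to `dx₀ ∧ dy₀ ∧ dx₁ ∧ dy₁` -/
def prg (α β : BF) : ℂ :=
  α (bs 0) (bs 1) * β (bs 2) (bs 3) - α (bs 0) (bs 2) * β (bs 1) (bs 3) +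
    α (bs 0) (bs 3) * β (bs 1) (bs 2) + α (bs 1) (bs 2) * β (bs 0) (bs 3) -
    α (bs 1) (bs 3) * β (bs 0) (bs 2) + α (bs 2) (bs 3) * β (bs 0) (bs 1)

/-- conjugate linear form -/
def cjL (θ : LF) : LF := (Complex.conjCLE : ℂ →L[ℝ] ℂ).comp θ

/-- conjugate bilinear form -/
def cjB (β : BF) : BF :=
  (ContinuousLinearMap.compL ℝ (Cm 2) ℂ ℂ (Complex.conjCLE : ℂ →L[ℝ] ℂ)).comp β

lemma cjB_apply (β : BF) (u v : Cm 2) : cjB β u v = (starRingEnd ℂ) (β u v) := rfl

/-- the coefficient of `α ∧ conj β` -/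
def prh (α β : BF) : ℂ := prg α (cjB β)

/-- type `(2,0)` -/
def Ty20 (α : BF) : Prop := ∀ u v, α (Complex.I • u) v = Complex.I * α u v ∧
  α u (Complex.I • v) = Complex.I * α u v

/-- type `(0,2)` -/
def Ty02 (α : BF) : Prop := ∀ u v, α (Complex.I • u) v = -Complex.I * α u v ∧
  α u (Complex.I • v) = -Complex.I * α u v

/-- type `(1,1)` -/
def Ty11 (α : BF) : Prop := ∀ u v, α (Complex.I • u) (Complex.I • v) = α u v

end Vale.Agent.P298.H39
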