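import Vale.Agent.P298.H39.Fam
import Vale.Agent.P272.K.Inv.Chart

/-!
# P298, block S1-GEO: the fibres of an analytic family as compact complex manifolds
-/

open scoped ContDiff Topology Manifold
open Vale.Agent.P272.K

noncomputable section

namespace Vale.Agent.P298.H39

variable {Z : Type} [TopologicalSpace Z]

/-- the fibre over `t` -/
@[ext] structure Fam.Fib (F : Fam Z) (t : ℂ) : Type where
  /-- the point of the total space -/
  val : Z
  prop : F.p val = t

variable {F : Fam Z} {t : ℂ}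

instance : TopologicalSpace (F.Fib t) := TopologicalSpace.induced Fam.Fib.val inferInstance

lemma isEmbedding_fib : Topology.IsEmbedding (Fam.Fib.val (F := F) (t := t)) :=
  ⟨⟨rfl⟩, fun _ _ h => Fam.Fib.ext h⟩

lemma continuous_fib : Continuous (Fam.Fib.val (F := F) (t := t)) := isEmbedding_fib.continuous

instance [T2Space Z] : T2Space (F.Fib t) := isEmbedding_fib.t2Space

lemma Fam.p_symm {e : PC Z} (he : e ∈ F.A) {q : Cm 2 × ℂ} (hq : q ∈ e.target) :
    F.p (e.symm q) = q.2 := by
  rw [← F.chart_p e he _ (e.map_target hq), e.right_inv hq]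

/-- `f` is the restriction to the fibre over `t` of the product chart `e` -/
structure IsFC (F : Fam Z) (t : ℂ) (f : Chart 2 (F.Fib t)) (e : PC Z) : Prop where
  mem : e ∈ F.A
  src : ∀ z : F.Fib t, z ∈ f.source ↔ z.1 ∈ e.source
  eq : ∀ z ∈ f.source, f z = (e z.1).1

lemma fst_mk {e : PC Z} (he : e ∈ F.A) (z : F.Fib t) (hz : z.val ∈ e.source) :
    ((e z.val).1, t) = e z.val := by
  refine Prod.ext rfl ?_
  show t = (e z.val).2
  rw [F.chart_p e he z.val hz]
  exact z.prop.symm

/-- the inverse of a fibre chart -/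
def finv (z₀ : F.Fib t) (e : PC Z) (he : e ∈ F.A) (w : Cm 2) : F.Fib t :=
  open Classical in if h : (w, t) ∈ e.target then ⟨e.symm (w, t), Fam.p_symm he h⟩ else z₀

lemma finv_val (z₀ : F.Fib t) {e : PC Z} (he : e ∈ F.A) {w : Cm 2} (hw : (w, t) ∈ e.target) :
    (finv z₀ e he w).val = e.symm (w, t) := by
  rw [finv, dif_pos hw]

/-- the restriction of a product chart to the fibre -/
def fch (z₀ : F.Fib t) (e : PC Z) (he : e ∈ F.A) : Chart 2 (F.Fib t) where
  toFun z := (e z.1).1
  invFun w := finv z₀ e he w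
  source := {z | z.1 ∈ e.source}
  target := {w | (w, t) ∈ e.target}
  map_source' := by
    intro z hz
    show ((e z.1).1, t) ∈ e.target
    rw [fst_mk he z hz]
    exact e.map_source hz
  map_target' := by
    intro w hw
    show (finv z₀ e he w).val ∈ e.source
    rw [finv_val z₀ he hw]
    exact e.map_target hw
  left_inv' := by
    intro z hz
    have hz' : z.1 ∈ e.source := hz
    have h2 : ((e z.1).1, t) ∈ e.target := by
      rw [fst_mk he z hz]
      exact e.map_source hz'
    apply Fam.Fib.ext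
    show (finv z₀ e he (e z.1).1).val = z.1
    rw [finv_val z₀ he h2, fst_mk he z hz, e.left_inv hz']
  right_inv' := by
    intro w hw
    have hw' : (w, t) ∈ e.target := hw
    show (e (finv z₀ e he w).val).1 = w
    rw [finv_val z₀ he hw', e.right_inv hw']
  open_source := e.open_source.preimage continuous_fib
  open_target := e.open_target.preimage (by fun_prop)
  continuousOn_toFun := by
    refine continuous_fst.comp_continuousOn ?_
    exact e.continuousOn.comp continuous_fib.continuousOn fun z hz => hz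
  continuousOn_invFun := by
    rw [(isEmbedding_fib (F := F) (t := t)).isInducing.continuousOn_iff]
    have h1 : ContinuousOn (fun w : Cm 2 => e.symm (w, t)) {w | (w, t) ∈ e.target} := by
      refine e.continuousOn_symm.comp (by fun_prop) fun w hw => hw
    refine h1.congr ?_
    intro w hw
    exact finv_val z₀ he hw

lemma isFC_fch (z₀ : F.Fib t) {e : PC Z} (he : e ∈ F.A) : IsFC F t (fch z₀ e he) e :=
  ⟨he, fun _ => Iff.rfl, fun _ _ => rfl⟩

section
variable {f f' : Chart 2 (F.Fib t)} {e e' : PC Z}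

lemma IsFC.apply (h : IsFC F t f e) {z : F.Fib t} (hz : z ∈ f.source) : e z.1 = (f z, t) := by
  rw [h.eq z hz]
  refine Prod.ext rfl ?_
  show (e z.1).2 = t
  rw [F.chart_p e h.mem z.1 ((h.src z).mp hz)]
  exact z.2

lemma IsFC.mem_target (h : IsFC F t f e) {w : Cm 2} (hw : w ∈ f.target) : (w, t) ∈ e.target := by
  have h1 := f.map_target hw
  have h2 := h.apply h1
  rw [f.right_inv hw] at h2
  rw [← h2]
  exact e.map_source ((h.src _).mp h1)

lemma IsFC.symm_val (h : IsFC F t f e) {w : Cm 2} (hw : w ∈ f.target) :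
    (f.symm w).1 = e.symm (w, t) := by
  have h1 := f.map_target hw
  have h2 := h.apply h1
  rw [f.right_inv hw] at h2
  rw [← h2, e.left_inv ((h.src _).mp h1)]

lemma IsFC.target (h : IsFC F t f e) {w : Cm 2} : w ∈ f.target ↔ (w, t) ∈ e.target := by
  refine ⟨h.mem_target, fun hw => ?_⟩
  have h1 := e.map_target hw
  let z : F.Fib t := ⟨e.symm (w, t), Fam.p_symm h.mem hw⟩
  have hz : z ∈ f.source := (h.src z).mpr h1
  have h2 : f z = w := by
    rw [h.eq z hz]
    show (e (e.symm (w, t))).1 = w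
    rw [e.right_inv hw]
  rw [← h2]
  exact f.map_source hz

/-- the fibre chart change is the restriction of the chart change of the total space -/
lemma IsFC.trans_eventually (h : IsFC F t f e) (h' : IsFC F t f' e') {z : F.Fib t}
    (hz : z ∈ f.source) (hz' : z ∈ f'.source) :
    (fun w => f' (f.symm w)) =ᶠ[𝓝 (f z)] fun w => (e' (e.symm (w, t))).1 := by
  have h1 : ∀ᶠ w in 𝓝 (f z), w ∈ f.target := f.open_target.mem_nhds (f.map_source hz)
  have h2 : ∀ᶠ w in 𝓝 (f z), f.symm w ∈ f'.source := by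
    refine (f.continuousAt_symm (f.map_source hz)).eventually (f'.open_source.mem_nhds ?_)
    rw [f.left_inv hz]
    exact hz'
  filter_upwards [h1, h2] with w hw hw'
  rw [h'.eq _ hw', h.symm_val hw]

lemma IsFC.trans_contDiffAt (h : IsFC F t f e) (h' : IsFC F t f' e') {z : F.Fib t}
    (hz : z ∈ f.source) (hz' : z ∈ f'.source) :
    ContDiffAt ℂ ω (fun w => f' (f.symm w)) (f z) := by
  refine ContDiffAt.congr_of_eventuallyEq ?_ (h.trans_eventually h' hz hz')
  have h1 := F.trans e h.mem e' h'.mem z.1 ((h.src z).mp hz) ((h'.src z).mp hz')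
  rw [h.apply hz] at h1
  have h2 : ContDiffAt ℂ ω (fun w : Cm 2 => (w, t)) (f z) := contDiffAt_id.prodMk contDiffAt_const
  have h3 : ContDiffAt ℂ ω (fun w : Cm 2 => e' (e.symm (w, t))) (f z) :=
    ContDiffAt.comp (g := fun q : Cm 2 × ℂ => e' (e.symm q)) (f z) h1 h2
  exact contDiffAt_fst.comp (f z) h3

end

instance instChartedSpaceFib : ChartedSpace (Cm 2) (F.Fib t) where
  atlas := {f | ∃ e, IsFC F t f e}
  chartAt z := fch z (F.cover z.1).choose (F.cover z.1).choose_spec.1
  mem_chart_source z := (F.cover z.1).choose_spec.2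
  chart_mem_atlas z := ⟨_, isFC_fch z _⟩

lemma mem_atlas_fib {f : Chart 2 (F.Fib t)} : f ∈ atlas (Cm 2) (F.Fib t) ↔ ∃ e, IsFC F t f e :=
  Iff.rfl

instance instIsManifoldFib : IsManifold 𝓘(ℂ, Cm 2) ω (F.Fib t) := by
  refine isManifold_of_contDiffOn 𝓘(ℂ, Cm 2) ω (F.Fib t) ?_
  rintro f f' ⟨e, he⟩ ⟨e', he'⟩ w hw
  have hw1 : w ∈ f.target ∧ f.symm w ∈ f'.source := by
    simpa using hw
  have h1 := he.trans_contDiffAt he' (f.map_target hw1.1) hw1.2
  rw [f.right_inv hw1.1] at h1
  exact h1.contDiffWithinAt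

lemma Fam.compact_fib (F : Fam Z) {t : ℂ} (ht : t ∈ F.Ω) : CompactSpace (F.Fib t) := by
  have h1 : IsCompact (F.p ⁻¹' {t}) :=
    F.proper {t} isCompact_singleton (Set.singleton_subset_iff.mpr ht)
  have h2 : Set.range (Fam.Fib.val (F := F) (t := t)) = F.p ⁻¹' {t} := by
    ext z
    exact ⟨fun ⟨y, hy⟩ => hy ▸ y.prop, fun hz => ⟨⟨z, hz⟩, rfl⟩⟩
  rw [← h2, ← Set.image_univ, ← isEmbedding_fib.isCompact_iff] at h1
  exact ⟨h1⟩

lemma Fam.nonempty_fib (F : Fam Z) {t : ℂ} (ht : t ∈ F.Ω) : Nonempty (F.Fib t) := by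
  obtain ⟨z, hz⟩ := F.surj t ht
  exact ⟨⟨z, hz⟩⟩

/-- a product chart inducing the fibre chart `f` -/
def up (f : Chart 2 (F.Fib t)) (hf : ∃ e, IsFC F t f e) : PC Z := hf.choose

lemma isFC_up (f : Chart 2 (F.Fib t)) (hf : ∃ e, IsFC F t f e) : IsFC F t f (up f hf) :=
  hf.choose_spec

/-- restriction of a relative object to the fibre over `t` -/
def res {V : Type} [Zero V] (F : Fam Z) (t : ℂ) (D : PC Z → Cm 2 × ℂ → V)
    (f : Chart 2 (F.Fib t)) (w : Cm 2) : V :=
  open Classical in if h : ∃ e, IsFC F t f e then D (up f h) (w, t) else 0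

end Vale.Agent.P298.H39
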