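import Vale.Agent.P298.H39.End2
import Vale.Agent.P298.H723.E3
import Vale.Agent.P298.H412.Fin

/-!
# P298, block S1-GEO: `GeoOut` and the final estimates `(R)`, `(P2)`
-/

open scoped ContDiff Topology Manifold ComplexConjugate
open Vale.Agent.P272.K MeasureTheory Metric Set

set_option maxSynthPendingDepth 3

noncomputable section

namespace Vale.Agent.P298.H39

open H863 (VN Dat CIF TZ gS gZ cifS cifZ prZ hsec cf Peta IsPC Good HPol)
open H412 (SFam HomFam GoodAt GeoOut)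

variable {d m : ℕ} {D Ω : Set ℂ}

/-- the data of the cyclic covers -/
theorem dat_of (F : SFam d D) (hm : 1 ≤ m) {H : ℂ × (Fin 4 → ℂ) → ℂ}
    (hH : HomFam D (m * (d - 4)) H) : Dat D d (m * (d - 4)) F.G H where
  hD := F.hD
  hd := by have := F.hd; omega
  hM := Nat.mul_pos (by omega) (by have := F.hd; omega)
  anG t ht z := F.G_analytic (t, z) ⟨ht, mem_univ _⟩
  anH t ht z := hH.an (t, z) ⟨ht, mem_univ _⟩
  homG t _ c z := F.G_hom t c z
  homH t ht c z := hH.hom t ht c z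
  reg t ht z hz h0 := F.G_reg ht hz h0
  ne t _ := by
    have hd := F.hd
    obtain ⟨w, hw⟩ : ∃ w : ℂ, w ^ d = -(F.c 0 / F.c 1) :=
      ⟨_, Complex.cpow_nat_inv_pow _ (by omega : d ≠ 0)⟩
    refine ⟨(![0, 1, w, 0] : Fin 4 → ℂ), ?_, ?_⟩
    · intro h
      have := congrFun h 1
      simp at this
    · have h1 := H98.R7.G_inf F t (z := ![0, 1, w, 0]) rfl
      refine h1.trans ?_
      rw [Fin.sum_univ_three]
      have e0 : (![0, 1, w, 0] : Fin 4 → ℂ) (Fin.succ 0) = 1 := rfl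
      have e1 : (![0, 1, w, 0] : Fin 4 → ℂ) (Fin.succ 1) = w := rfl
      have e2 : (![0, 1, w, 0] : Fin 4 → ℂ) (Fin.succ 2) = 0 := rfl
      rw [e0, e1, e2, hw, one_pow, zero_pow (by omega : d ≠ 0)]
      have h2 := F.hc 1
      field_simp
      ring

theorem hmon_of (F : SFam d D) (t : ℂ) :
    F.G (t, Pi.single (Fin.last (1 + 2)) 1) ≠ 0 := by
  have hd := F.hd
  have h1 := H98.R7.G_inf F t (z := (Pi.single (Fin.last (1 + 2)) 1 : Fin 4 → ℂ)) (by
    rw [Pi.single_apply, if_neg (by decide)])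
  rw [h1, Fin.sum_univ_three]
  have e0 : (Pi.single (Fin.last (1 + 2)) (1 : ℂ) : Fin 4 → ℂ) (Fin.succ 0) = 0 := by
    rw [Pi.single_apply, if_neg (by decide)]
  have e1 : (Pi.single (Fin.last (1 + 2)) (1 : ℂ) : Fin 4 → ℂ) (Fin.succ 1) = 0 := by
    rw [Pi.single_apply, if_neg (by decide)]
  have e2 : (Pi.single (Fin.last (1 + 2)) (1 : ℂ) : Fin 4 → ℂ) (Fin.succ 2) = 1 := by
    rw [Pi.single_apply, if_pos (by decide)]
  rw [e0, e1, e2, zero_pow (by omega : d ≠ 0), one_pow]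
  simpa using F.hc 2

/-- the geometric half of the block S1 -/
theorem geoOut : GeoOut := by
  intro d D F m hm H hH T hT hgood R _ hRD
  have hd := F.hd
  have h := dat_of F (by omega : 1 ≤ m) hH
  have hΩD : D \ T ⊆ D := sdiff_subset
  have hg : ∀ t ∈ D \ T, Good F.G H t := fun t ht => hgood t ht
  have hΩ : IsOpen (D \ T) := F.hD.sdiff hT.isClosed
  have hZ : CIF (D \ T) (gZ F.G H (m * (d - 4))) ![d, m * (d - 4)] := cifZ h hΩ hΩD hg
  have hM0 : m * (d - 4) ≠ 0 := h.hM.ne'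
  have hM1 : 2 * (d - 4) ≤ m * (d - 4) := Nat.mul_le_mul_right _ hm
  obtain ⟨ζ, hζ⟩ : ∃ ζ : ℂ, IsPrimitiveRoot ζ (m * (d - 4)) :=
    ⟨_, Complex.isPrimitiveRoot_exp _ hM0⟩
  have hζ0 : ζ ≠ 0 := hζ.ne_zero hM0
  have hζM : ζ ^ (m * (d - 4)) = 1 := hζ.pow_eq_one
  have hP : HPol (D \ T) (Peta H d (m * (d - 4))) (m * (d - 4) + (d - 5)) :=
    H863.hPol_Peta h hΩD
  have hN : (m * (d - 4) + (d - 5)) + (2 + 3) = ∑ k, ![d, m * (d - 4)] k := H863.hN_Z hd
  have G := H723.geoZ h hΩD hZ hg (fun t _ => hmon_of F t) hζ hζ0 hζM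
    (N := m * (d - 4) + (d - 5)) (j := d - 5) (j' := m * (d - 4) + 3 - d)
    (k := m * (d - 4)) (k' := 2 * d - 8) hN (by omega) rfl (by omega)
    (P := Peta H d (m * (d - 4))) hP
    (by
      intro t _ x _
      show (((m * (d - 4) : ℕ) : ℂ) * H (t, H863.ini (H863.dlin ζ x))) *
        H863.lst (H863.dlin ζ x) ^ (d - 5) =
        ζ ^ (d - 5) * ((((m * (d - 4) : ℕ) : ℂ) * H (t, H863.ini x)) * H863.lst x ^ (d - 5))
      rw [H863.ini_dlin, H863.lst_dlin, mul_pow]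
      ring)
    (fun e he q hq => H863.cf_mulY hZ hζ0 hζM hP hN he hq)
  obtain ⟨B, hB⟩ : ∃ B : ℝ, ∀ t ∈ closedBall (0 : ℂ) R, (F.N m H t).toReal ≤ B := by
    have h1 := (H412.continuousOn_N_toReal F (by omega : 1 ≤ m) hH 0).mono hRD
    obtain ⟨B, hB⟩ := (isCompact_closedBall (0 : ℂ) R).exists_bound_of_continuousOn h1
    refine ⟨B, fun t ht => ?_⟩
    have h2 := hB t ht
    have h3 : H217.Gen.Ha H (m * (d - 4)) 0 = H := by
      funext p
      simp [H217.Gen.Ha, H217.Gen.pert]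
    rw [h3] at h2
    exact (le_abs_self _).trans h2
  obtain ⟨K, x, y, h1, h2⟩ := geo_end F hm h hΩD hZ G hRD hB
  exact ⟨K, x, y, fun t ht => h1 t ⟨ht.1, hRD (ball_subset_closedBall ht.1), ht.2⟩,
    fun t ht => h2 t ⟨ht.1, hRD (ball_subset_closedBall ht.1), ht.2⟩⟩

/-- three circles estimate -/
theorem s1AllR : H412.S1AllR := H412.s1AllR geoOut

/-- mean value estimate -/
theorem s1AllP2 : H412.S1AllP2 := H412.s1AllP2 geoOut

end Vale.Agent.P298.H39
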