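import Vale.Agent.P298.H39.Den
import Mathlib.Geometry.Manifold.PartitionOfUnity

/-!
# P298, block S1-GEO: partitions of unity on the total space of a family near a fibre
-/

open scoped ContDiff Topology Manifold ComplexConjugate
open Vale.Agent.P272.K MeasureTheory

noncomputable section

namespace Vale.Agent.P298.H39

variable {Z : Type} [TopologicalSpace Z]

/-- the total space as a manifold -/
@[reducible] def Fam.chartedSpace (F : Fam Z) : ChartedSpace (Cm 2 × ℂ) Z where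
  atlas := F.A
  chartAt z := (F.cover z).choose
  mem_chart_source z := (F.cover z).choose_spec.2
  chart_mem_atlas z := (F.cover z).choose_spec.1

lemma Fam.isManifold (F : Fam Z) :
    letI := F.chartedSpace
    IsManifold 𝓘(ℝ, Cm 2 × ℂ) ∞ Z := by
  let _ := F.chartedSpace
  refine isManifold_of_contDiffOn 𝓘(ℝ, Cm 2 × ℂ) ∞ Z ?_
  intro e e' he he' q hq
  have hw1 : q ∈ e.target ∧ e.symm q ∈ e'.source := by
    simpa using hq
  have h1 := F.trans e he e' he' (e.symm q) (e.map_target hw1.1) hw1.2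
  rw [e.right_inv hw1.1] at h1
  exact ((h1.restrict_scalars ℝ).of_le (by exact le_top)).contDiffWithinAt

lemma Fam.sigmaCompact (F : Fam Z) : SigmaCompactSpace Z := by
  have hLC : LocallyCompactSpace F.Ω := F.isOpen.locallyCompactSpace
  have h1 : SigmaCompactSpace F.Ω := inferInstance
  refine ⟨⟨fun n => F.p ⁻¹' (Subtype.val '' compactCovering F.Ω n), fun n => ?_, ?_⟩⟩
  · refine F.proper _ ((isCompact_compactCovering F.Ω n).image continuous_subtype_val) ?_
    rintro _ ⟨y, _, rfl⟩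
    exact y.2
  · refine Set.eq_univ_of_forall fun z => ?_
    have h2 : (⟨F.p z, F.p_mem z⟩ : F.Ω) ∈ ⋃ n, compactCovering F.Ω n := by
      rw [iUnion_compactCovering]; trivial
    obtain ⟨n, hn⟩ := Set.mem_iUnion.mp h2
    exact Set.mem_iUnion.mpr ⟨n, ⟨_, hn, rfl⟩⟩

/-- smooth function on the total space -/
def SmF {V : Type} [NormedAddCommGroup V] [NormedSpace ℝ V] (F : Fam Z) (κ : Z → V) : Prop :=
  ∀ e ∈ F.A, ∀ q ∈ e.target, ContDiffAt ℝ ∞ (fun q => κ (e.symm q)) q

/-- finite partition of unity by product charts near the fibre over `t0` -/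
structure LPart (F : Fam Z) (t0 : ℂ) where
  /-- radius -/
  r : ℝ
  r_pos : 0 < r
  sub : Metric.closedBall t0 r ⊆ F.Ω
  /-- number of charts -/
  N : ℕ
  /-- charts -/
  e : Fin N → PC Z
  mem : ∀ i, e i ∈ F.A
  /-- functions -/
  ρ : Fin N → Z → ℝ
  smooth : ∀ i, SmF F (ρ i)
  cont : ∀ i, Continuous (ρ i)
  supp : ∀ i, tsupport (ρ i) ⊆ (e i).source
  sum : ∀ z, F.p z ∈ Metric.closedBall t0 r → ∑ i, ρ i z = 1

theorem exists_lpart [T2Space Z] (F : Fam Z) {t0 : ℂ} (ht : t0 ∈ F.Ω) : Nonempty (LPart F t0) := by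
  let _ := F.chartedSpace
  have := F.isManifold
  have := F.sigmaCompact
  obtain ⟨r, hr, hsub⟩ := Metric.nhds_basis_closedBall.mem_iff.mp (F.isOpen.mem_nhds ht)
  have hcomp : IsCompact (F.p ⁻¹' Metric.closedBall t0 r) :=
    F.proper _ (isCompact_closedBall t0 r) hsub
  obtain ⟨T, hT⟩ := hcomp.elim_finite_subcover
    (fun x : Z => (chartAt (Cm 2 × ℂ) x).source) (fun x => (chartAt (Cm 2 × ℂ) x).open_source)
    (fun x _ => Set.mem_iUnion.2 ⟨x, mem_chart_source _ x⟩)
  let N := T.card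
  let c : Fin N → Z := fun i => (T.equivFin.symm i : Z)
  have hc : F.p ⁻¹' Metric.closedBall t0 r ⊆ ⋃ i, (chartAt (Cm 2 × ℂ) (c i)).source := by
    intro x hx
    obtain ⟨y, hy⟩ := Set.mem_iUnion.1 (hT hx)
    obtain ⟨hyt, hxy⟩ := Set.mem_iUnion.1 hy
    exact Set.mem_iUnion.2 ⟨T.equivFin ⟨y, hyt⟩, by simpa [c] using hxy⟩
  obtain ⟨f, hf⟩ := SmoothPartitionOfUnity.exists_isSubordinate 𝓘(ℝ, Cm 2 × ℂ)
    (Metric.isClosed_closedBall.preimage F.cont) (fun i => (chartAt (Cm 2 × ℂ) (c i)).source)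
    (fun i => (chartAt (Cm 2 × ℂ) (c i)).open_source) hc
  refine ⟨⟨r, hr, hsub, N, fun i => chartAt (Cm 2 × ℂ) (c i), fun i => chart_mem_atlas (Cm 2 × ℂ) (c i),
    fun i => f i, fun i => ?_, fun i => (f i).contMDiff.continuous, fun i => hf i, fun z hz => ?_⟩⟩
  · intro e he q hq
    rw [← contMDiffAt_iff_contDiffAt]
    have h1 : ContMDiffAt 𝓘(ℝ, Cm 2 × ℂ) 𝓘(ℝ, Cm 2 × ℂ) ∞ e.symm q :=
      (contMDiffOn_symm_of_mem_maximalAtlas (IsManifold.subset_maximalAtlas he)).contMDiffAt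
        (e.open_target.mem_nhds hq)
    exact ContMDiffAt.comp q ((f i).contMDiff.contMDiffAt) h1
  · have := f.sum_eq_one hz
    rwa [finsum_eq_sum_of_fintype] at this

end Vale.Agent.P298.H39
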