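import Vale.Agent.P298.H39.Cut

/-!
# P298, block S1-GEO: densities supported in a product chart
-/

open scoped ContDiff Topology Manifold ComplexConjugate
open Vale.Agent.P272.K MeasureTheory

noncomputable section

namespace Vale.Agent.P298.H39

variable {Z : Type} [TopologicalSpace Z] {F : Fam Z}

/-- the density `κ D` in the chart `e`, extended by zero -/
def cut (e : PC Z) (κ : Z → ℂ) (D : Cm 2 × ℂ → ℂ) (q : Cm 2 × ℂ) : ℂ :=
  open Classical in if q ∈ e.target then κ (e.symm q) * D q else 0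

lemma cut_of_mem {e : PC Z} {κ : Z → ℂ} {D : Cm 2 × ℂ → ℂ} {q : Cm 2 × ℂ} (hq : q ∈ e.target) :
    cut e κ D q = κ (e.symm q) * D q := by rw [cut, if_pos hq]

lemma cut_of_notMem {e : PC Z} {κ : Z → ℂ} {D : Cm 2 × ℂ → ℂ} {q : Cm 2 × ℂ}
    (hq : q ∉ e.target) : cut e κ D q = 0 := by rw [cut, if_neg hq]

lemma cut_eventually {e : PC Z} {κ : Z → ℂ} {D : Cm 2 × ℂ → ℂ} {q : Cm 2 × ℂ}
    (hq : q ∈ e.target) : cut e κ D =ᶠ[𝓝 q] fun q => κ (e.symm q) * D q := by
  filter_upwards [e.open_target.mem_nhds hq] with q' hq'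
  exact cut_of_mem hq'

/-- the part over a compact subset of the base of the support of `κ`, in the chart `e` -/
def supC (F : Fam Z) (e : PC Z) (κ : Z → ℂ) (K : Set ℂ) : Set (Cm 2 × ℂ) :=
  e '' (tsupport κ ∩ F.p ⁻¹' K)

lemma isCompact_supC {e : PC Z} {κ : Z → ℂ} (hs : tsupport κ ⊆ e.source)
    {K : Set ℂ} (hK : IsCompact K) (hKΩ : K ⊆ F.Ω) : IsCompact (supC F e κ K) := by
  have h1 : IsCompact (tsupport κ ∩ F.p ⁻¹' K) :=
    (F.proper K hK hKΩ).inter_left (isClosed_tsupport κ)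
  exact h1.image_of_continuousOn (e.continuousOn.mono fun z hz => hs hz.1)

lemma cut_zero_of_notMem_supC {e : PC Z} (he : e ∈ F.A) {κ : Z → ℂ} {D : Cm 2 × ℂ → ℂ}
    {K : Set ℂ} {q : Cm 2 × ℂ} (hq2 : q.2 ∈ K) (hq : q ∉ supC F e κ K) : cut e κ D q = 0 := by
  by_cases h1 : q ∈ e.target
  · rw [cut_of_mem h1]
    have h2 : e.symm q ∉ tsupport κ := fun h => by
      refine hq ⟨e.symm q, ⟨h, ?_⟩, e.right_inv h1⟩
      show F.p (e.symm q) ∈ K
      rw [Fam.p_symm he h1]
      exact hq2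
    rw [image_eq_zero_of_notMem_tsupport h2, zero_mul]
  · exact cut_of_notMem h1

lemma cut_ev_zero {e : PC Z} (he : e ∈ F.A) {κ : Z → ℂ} (hs : tsupport κ ⊆ e.source)
    {D : Cm 2 × ℂ → ℂ} {q : Cm 2 × ℂ} (hΩ : q.2 ∈ F.Ω) (hq : q ∉ e.target) :
    cut e κ D =ᶠ[𝓝 q] fun _ => 0 := by
  obtain ⟨r, hr, hsub⟩ := Metric.nhds_basis_closedBall.mem_iff.mp (F.isOpen.mem_nhds hΩ)
  have hC := isCompact_supC hs (isCompact_closedBall q.2 r) hsub
  have h1 : q ∉ supC F e κ (Metric.closedBall q.2 r) := by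
    rintro ⟨z, hz, hzq⟩
    exact hq (hzq ▸ e.map_source (hs hz.1))
  have h2 : ∀ᶠ q' in 𝓝 q, q' ∉ supC F e κ (Metric.closedBall q.2 r) :=
    hC.isClosed.isOpen_compl.mem_nhds h1
  have h3 : ∀ᶠ q' : Cm 2 × ℂ in 𝓝 q, q'.2 ∈ Metric.closedBall q.2 r :=
    continuous_snd.continuousAt.eventually (Metric.closedBall_mem_nhds q.2 hr)
  filter_upwards [h2, h3] with q' h2' h3'
  exact cut_zero_of_notMem_supC he h3' h2'

lemma contDiffAt_cut {e : PC Z} (he : e ∈ F.A) {κ : Z → ℂ} (hκ : SmF F κ)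
    (hs : tsupport κ ⊆ e.source) {D : Cm 2 × ℂ → ℂ}
    (hD : ∀ q ∈ e.target, ContDiffAt ℝ ∞ D q) {q : Cm 2 × ℂ} (hΩ : q.2 ∈ F.Ω) :
    ContDiffAt ℝ ∞ (cut e κ D) q := by
  by_cases hq : q ∈ e.target
  · exact ((hκ e he q hq).mul (hD q hq)).congr_of_eventuallyEq (cut_eventually hq)
  · exact contDiffAt_const.congr_of_eventuallyEq (cut_ev_zero he hs hΩ hq)

/-- restriction to a fibre: smooth with compact support -/
lemma cut_slice_contDiff {e : PC Z} (he : e ∈ F.A) {κ : Z → ℂ} (hκ : SmF F κ)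
    (hs : tsupport κ ⊆ e.source) {D : Cm 2 × ℂ → ℂ}
    (hD : ∀ q ∈ e.target, ContDiffAt ℝ ∞ D q) {t : ℂ} (ht : t ∈ F.Ω) :
    ContDiff ℝ ∞ fun w => cut e κ D (w, t) := by
  rw [contDiff_iff_contDiffAt]
  intro w
  have h1 : ContDiffAt ℝ ∞ (fun w : Cm 2 => (w, t)) w := contDiffAt_id.prodMk contDiffAt_const
  exact ContDiffAt.comp (g := cut e κ D) w (contDiffAt_cut he hκ hs hD (q := (w, t)) ht) h1

lemma cut_slice_support {e : PC Z} (he : e ∈ F.A) {κ : Z → ℂ}
    (hs : tsupport κ ⊆ e.source) {D : Cm 2 × ℂ → ℂ} {t : ℂ} (ht : t ∈ F.Ω) :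
    HasCompactSupport fun w => cut e κ D (w, t) := by
  have hC := (isCompact_supC (F := F) hs (isCompact_singleton (x := t))
    (Set.singleton_subset_iff.mpr ht)).image continuous_fst
  refine HasCompactSupport.intro hC fun w hw => ?_
  refine cut_zero_of_notMem_supC (q := (w, t)) he (Set.mem_singleton t) fun h => hw ?_
  exact ⟨(w, t), h, rfl⟩

section fib
variable [T2Space Z]

/-- the integral of a density supported in a chart -/
lemma intF_cut {e : PC Z} (he : e ∈ F.A) {κ : Z → ℂ} (hκ : SmF F κ)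
    (hs : tsupport κ ⊆ e.source) {D : PC Z → Cm 2 × ℂ → ℂ} (hD : IsDen F D)
    {t : ℂ} (ht : t ∈ F.Ω) :
    intF F t (fun e' q => κ (e'.symm q) * D e' q) = ∫ w, cut e κ (D e) (w, t) := by
  have := F.compact_fib ht
  obtain ⟨z₀⟩ := F.nonempty_fib ht
  set f := fch z₀ e he with hf
  have hfc : IsFC F t f e := isFC_fch z₀ he
  have hden : IsDen F (fun e' q => κ (e'.symm q) * D e' q) := hD.mul_fun hκ
  have hK : IsClosed {x : F.Fib t | x.val ∈ tsupport κ} :=
    (isClosed_tsupport κ).preimage continuous_fib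
  have hKs : {x : F.Fib t | x.val ∈ tsupport κ} ⊆ f.source := fun x hx => hs hx
  have hoff : ∀ (f' : Chart 2 (F.Fib t)) (x : F.Fib t), At f' x →
      x ∉ {x : F.Fib t | x.val ∈ tsupport κ} →
      res F t (fun e' q => κ (e'.symm q) * D e' q) f' (f' x) = 0 := by
    intro f' x hx hxK
    obtain ⟨e', he'⟩ := mem_atlas_fib.mp hx.1
    rw [hden.res_apply he' hx.2, e'.left_inv ((he'.src x).mp hx.2),
      image_eq_zero_of_notMem_tsupport hxK, zero_mul]
  have h1 := INT.intX_of_support (hden.isDensity_re t) (mem_atlas_fib.mpr ⟨e, hfc⟩) hK hKs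
    (fun f' x hx hxK => by rw [hoff f' x hx hxK, Complex.zero_re])
  have h2 := INT.intX_of_support (hden.isDensity_im t) (mem_atlas_fib.mpr ⟨e, hfc⟩) hK hKs
    (fun f' x hx hxK => by rw [hoff f' x hx hxK, Complex.zero_im])
  have hint : Integrable fun w => cut e κ (D e) (w, t) :=
    (cut_slice_contDiff he hκ hs (hD.smooth e he) ht).continuous.integrable_of_hasCompactSupport
      (cut_slice_support he hs ht)
  have key : ∀ w ∈ f.target, res F t (fun e' q => κ (e'.symm q) * D e' q) f w =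
      cut e κ (D e) (w, t) := by
    intro w hw
    rw [hden.res_eq hfc hw, cut_of_mem (hfc.mem_target hw)]
  have koff : ∀ w, w ∉ f.target → cut e κ (D e) (w, t) = 0 := fun w hw =>
    cut_of_notMem fun h => hw (hfc.target.mpr h)
  have e1 : ∫ w in f.target, (res F t (fun e' q => κ (e'.symm q) * D e' q) f w).re =
      ∫ w, (cut e κ (D e) (w, t)).re := by
    rw [setIntegral_congr_fun f.open_target.measurableSet (g := fun w =>
      (cut e κ (D e) (w, t)).re) fun w hw => by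
        show (res F t (fun e' q => κ (e'.symm q) * D e' q) f w).re = _
        rw [key w hw]]
    refine setIntegral_eq_integral_of_forall_compl_eq_zero fun w hw => ?_
    rw [koff w hw, Complex.zero_re]
  have e2 : ∫ w in f.target, (res F t (fun e' q => κ (e'.symm q) * D e' q) f w).im =
      ∫ w, (cut e κ (D e) (w, t)).im := by
    rw [setIntegral_congr_fun f.open_target.measurableSet (g := fun w =>
      (cut e κ (D e) (w, t)).im) fun w hw => by
        show (res F t (fun e' q => κ (e'.symm q) * D e' q) f w).im = _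
        rw [key w hw]]
    refine setIntegral_eq_integral_of_forall_compl_eq_zero fun w hw => ?_
    rw [koff w hw, Complex.zero_im]
  rw [intF_def ht, h1, h2, e1, e2]
  have h3 := integral_re_add_im hint
  simpa using h3

end fib

end Vale.Agent.P298.H39
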