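import Vale.Agent.P298.H39.Chart
import Mathlib.Geometry.Manifold.IsManifold.Basic

/-!
# P298, block HYP: the complex manifold structure of the projective surface

The atlas consists of all graph charts: two affine coordinates, with arbitrary open domain.
-/

open scoped ContDiff ComplexConjugate Topology Manifold
open Vale.Agent.P272.K

noncomputable section

namespace Vale.Agent.P298.H39

variable {d : ℕ} {G : V4 → ℂ}

/-- `e` is a graph chart with affine index `a` and solved coordinate `b` -/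
def IsGC (G : V4 → ℂ) (a : Fin 4) (b : Fin 3) (e : OpenPartialHomeomorph (XG G) (Cm 2)) : Prop :=
  ∀ p ∈ e.source, p ∈ Ua G a ∧ pdv G a b (ta a p) ≠ 0 ∧ e p = fb b (ta a p)

/-- affine coordinates of the point with chart coordinates `w` -/
def gr (a : Fin 4) (e : OpenPartialHomeomorph (XG G) (Cm 2)) (w : Cm 2) : V3 := ta a (e.symm w)

lemma isGC_cht (h : HG d G) (p₀ : XG G) (c : CI G) : IsGC G c.a c.b (cht h p₀ c) :=
  fun _ hp => ⟨hp.1, pdv_of_mem h c hp.2, rfl⟩

section
variable {a a' : Fin 4} {b b' : Fin 3} {e e' : OpenPartialHomeomorph (XG G) (Cm 2)}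

lemma G_gr (h : HG d G) (he : IsGC G a b e) {w : Cm 2} (hw : w ∈ e.target) :
    G (ia a (gr a e w)) = 0 := by
  have k1 := (he _ (e.map_target hw)).1
  rw [gr, ia_ta k1]
  exact G_sg h k1

lemma fb_gr (he : IsGC G a b e) {w : Cm 2} (hw : w ∈ e.target) : fb b (gr a e w) = w := by
  have k := (he _ (e.map_target hw)).2.2
  rw [gr, ← k, e.right_inv hw]

lemma pdv_gr (he : IsGC G a b e) {w : Cm 2} (hw : w ∈ e.target) :
    pdv G a b (gr a e w) ≠ 0 := (he _ (e.map_target hw)).2.1

lemma gr_continuousAt (he : IsGC G a b e) {w : Cm 2} (hw : w ∈ e.target) :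
    ContinuousAt (gr a e) w := by
  refine ContinuousAt.comp (g := ta a) ?_ (e.continuousAt_symm hw)
  exact (ta_continuousOn a).continuousAt ((isOpen_Ua a).mem_nhds (he _ (e.map_target hw)).1)

lemma gr_contDiffAt (h : HG d G) (he : IsGC G a b e) {w : Cm 2} (hw : w ∈ e.target) :
    ContDiffAt ℂ ω (gr a e) w := by
  have h2 : pdv G a b (gr a e w) ≠ 0 := pdv_gr he hw
  let c : CI G := ⟨a, b, gr a e w, h2⟩
  have hy : gr a e w ∈ (lh h c).source := mem_lh_source h c
  have key : ∀ w', w' ∈ e.target → lh h c (gr a e w') = sl b w' := by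
    intro w' hw2
    show psi G a b (gr a e w') = _
    rw [psi_eq_of_zero (G_gr h he hw2), fb_gr he hw2]
  have hev : gr a e =ᶠ[𝓝 w] fun w' => (lh h c).symm (sl b w') := by
    filter_upwards [(gr_continuousAt he hw).preimage_mem_nhds ((lh h c).open_source.mem_nhds hy),
      e.open_target.mem_nhds hw] with w' hw1 hw2
    rw [← key w' hw2, (lh h c).left_inv hw1]
  refine ContDiffAt.congr_of_eventuallyEq ?_ hev
  refine ContDiffAt.comp w (lh_symm_contDiffAt h c ?_) (sl b).contDiff.contDiffAt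
  rw [← key w hw]
  exact (lh h c).map_source hy

/-- change of the affine index -/
lemma sg_change {p : XG G} (hp : p ∈ Ua G a) (hp' : p ∈ Ua G a') :
    sg a p a' ≠ 0 ∧ sg a' p = (sg a p a')⁻¹ • sg a p := by
  obtain ⟨z, hz, h0, hpz⟩ := exists_rep p
  have ha := (mem_Ua_iff hz p hpz).mp hp
  have ha' := (mem_Ua_iff hz p hpz).mp hp'
  rw [sg_prj hz ha p hpz, sg_prj hz ha' p hpz]
  refine ⟨by simp [ha, ha'], ?_⟩
  funext i
  simp only [Pi.smul_apply, smul_eq_mul]
  field_simp

/-- the affine coordinates with index `a'` in terms of those with index `a` -/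
def chg (a a' : Fin 4) (y : V3) : V3 := fun j => ia a y (a'.succAbove j) / ia a y a'

lemma ta_change {p : XG G} (hp : p ∈ Ua G a) (hp' : p ∈ Ua G a') :
    ta a' p = chg a a' (ta a p) := by
  funext j
  rw [chg, ia_ta hp, ta, (sg_change hp hp').2]
  simp only [Pi.smul_apply, smul_eq_mul]
  rw [div_eq_inv_mul]

lemma chg_contDiffAt {y : V3} (hy : ia a y a' ≠ 0) : ContDiffAt ℂ ω (chg a a') y := by
  rw [contDiffAt_pi]
  intro j
  have h1 : ∀ i, ContDiffAt ℂ ω (fun y => ia a y i) y := fun i =>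
    (contDiff_pi.mp (ia_contDiff a) i).contDiffAt
  exact (h1 _).div (h1 _) hy

lemma trans_contDiffAt (h : HG d G) (he : IsGC G a b e) (he' : IsGC G a' b' e') {w : Cm 2}
    (hw : w ∈ e.target) (hw' : e.symm w ∈ e'.source) :
    ContDiffAt ℂ ω (fun w => e' (e.symm w)) w := by
  have hp := (he _ (e.map_target hw)).1
  have hp' := (he' _ hw').1
  have h1 : ia a (gr a e w) a' ≠ 0 := by
    rw [gr, ia_ta hp]
    exact (sg_change hp hp').1
  have hev : (fun w => e' (e.symm w)) =ᶠ[𝓝 w] fun w => fb b' (chg a a' (gr a e w)) := by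
    filter_upwards [(e.continuousAt_symm hw).preimage_mem_nhds (e'.open_source.mem_nhds hw'),
      e.open_target.mem_nhds hw] with w' hw1 hw2
    rw [(he' _ hw1).2.2, ta_change (he _ (e.map_target hw2)).1 (he' _ hw1).1]
    rfl
  refine ContDiffAt.congr_of_eventuallyEq ?_ hev
  refine (fb b').contDiff.contDiffAt.comp w ?_
  exact ContDiffAt.comp w (chg_contDiffAt h1) (gr_contDiffAt h he hw)

end

/-- `G` is the equation of a smooth projective surface -/
class IsHG (G : V4 → ℂ) : Prop where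
  out : ∃ d, HG d G

lemma HG.isHG (h : HG d G) : IsHG G := ⟨⟨d, h⟩⟩

lemma exists_chart (G : V4 → ℂ) [hG : IsHG G] (p : XG G) :
    ∃ e : OpenPartialHomeomorph (XG G) (Cm 2), (∃ a b, IsGC G a b e) ∧ p ∈ e.source := by
  obtain ⟨d, h⟩ := hG.out
  obtain ⟨c, hc⟩ := exists_cht h p p
  exact ⟨cht h p c, ⟨c.a, c.b, isGC_cht h p c⟩, hc⟩

instance instChartedSpace (G : V4 → ℂ) [IsHG G] : ChartedSpace (Cm 2) (XG G) where
  atlas := {e | ∃ a b, IsGC G a b e}
  chartAt p := (exists_chart G p).choose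
  mem_chart_source p := (exists_chart G p).choose_spec.2
  chart_mem_atlas p := (exists_chart G p).choose_spec.1

lemma mem_atlas_iff (G : V4 → ℂ) [IsHG G] (e : OpenPartialHomeomorph (XG G) (Cm 2)) :
    e ∈ atlas (Cm 2) (XG G) ↔ ∃ a b, IsGC G a b e := Iff.rfl

instance instNonempty (G : V4 → ℂ) [hG : IsHG G] : Nonempty (XG G) := by
  obtain ⟨d, h⟩ := hG.out
  exact h.nonempty

instance instCompactSpace (G : V4 → ℂ) [hG : IsHG G] : CompactSpace (XG G) := by
  obtain ⟨d, h⟩ := hG.out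
  exact h.compactSpace

instance instIsManifold (G : V4 → ℂ) [hG : IsHG G] : IsManifold 𝓘(ℂ, Cm 2) ω (XG G) := by
  obtain ⟨d, h⟩ := hG.out
  refine isManifold_of_contDiffOn 𝓘(ℂ, Cm 2) ω (XG G) ?_
  rintro e e' ⟨a, b, he⟩ ⟨a', b', he'⟩ w hw
  have hw1 : w ∈ e.target ∧ e.symm w ∈ e'.source := by
    simpa using hw
  exact (trans_contDiffAt h he he' hw1.1 hw1.2).contDiffWithinAt

end Vale.Agent.P298.H39
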