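import Vale.Agent.P298.H39.Jac

/-!
# P298, block S1-GEO: linear algebra of the pairing of 2-forms on `ℂ²`
-/

open scoped ContDiff Topology Manifold ComplexConjugate
open Vale.Agent.P272.K

noncomputable section

namespace Vale.Agent.P298.H39

/-- the real coordinates with respect to `bs` -/
def co : Fin 4 → Cm 2 →L[ℝ] ℝ :=
  ![Complex.reCLM.comp (ContinuousLinearMap.proj 0), Complex.imCLM.comp (ContinuousLinearMap.proj 0),
    Complex.reCLM.comp (ContinuousLinearMap.proj 1), Complex.imCLM.comp (ContinuousLinearMap.proj 1)]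

lemma co_zero (u : Cm 2) : co 0 u = (u 0).re := rfl
lemma co_one (u : Cm 2) : co 1 u = (u 0).im := rfl
lemma co_two (u : Cm 2) : co 2 u = (u 1).re := rfl
lemma co_three (u : Cm 2) : co 3 u = (u 1).im := rfl

lemma co_expand (u : Cm 2) :
    u = co 0 u • bs 0 + co 1 u • bs 1 + co 2 u • bs 2 + co 3 u • bs 3 := by
  funext j
  fin_cases j
  · apply Complex.ext <;> simp [co, bs]
  · apply Complex.ext <;> simp [co, bs]

/-- real trace of a real-linear endomorphism of `ℂ²` -/
def trR (B : Cm 2 →L[ℝ] Cm 2) : ℝ :=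
  co 0 (B (bs 0)) + co 1 (B (bs 1)) + co 2 (B (bs 2)) + co 3 (B (bs 3))

/-- expansion of a bilinear form in the basis `bs` -/
lemma bf_expand (α : BF) (u x : Cm 2) : α u x =
    ∑ i : Fin 4, ∑ j : Fin 4, ((co i u : ℝ) : ℂ) * ((co j x : ℝ) : ℂ) * α (bs i) (bs j) := by
  conv_lhs => rw [co_expand u, co_expand x]
  simp only [map_add, map_smul, _root_.add_apply, ContinuousLinearMap.smul_apply, Fin.sum_univ_four,
    Complex.real_smul]
  ring

/-- the pairing of two alternating forms in terms of the pull back by a linear map, infinitesimal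
version -/
lemma prg_act (B : Cm 2 →L[ℝ] Cm 2) {α β : BF} (hα : ∀ u v, α u v = -α v u)
    (hβ : ∀ u v, β u v = -β v u) :
    prg (act B α) β + prg α (act B β) = (trR B : ℂ) * prg α β := by
  have h0 : ∀ i, α (bs i) (bs i) = 0 := fun i => by
    have := hα (bs i) (bs i)
    linear_combination this / 2
  have k0 : ∀ i, β (bs i) (bs i) = 0 := fun i => by
    have := hβ (bs i) (bs i)
    linear_combination this / 2
  have e1 : ∀ (γ : BF) (i j : Fin 4), γ (B (bs i)) (bs j) =
      co 0 (B (bs i)) * γ (bs 0) (bs j) + co 1 (B (bs i)) * γ (bs 1) (bs j) +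
      co 2 (B (bs i)) * γ (bs 2) (bs j) + co 3 (B (bs i)) * γ (bs 3) (bs j) := by
    intro γ i j
    conv_lhs => rw [co_expand (B (bs i))]
    simp only [map_add, map_smul, _root_.add_apply, ContinuousLinearMap.smul_apply,
      Complex.real_smul]
  have e2 : ∀ (γ : BF) (i j : Fin 4), γ (bs i) (B (bs j)) =
      co 0 (B (bs j)) * γ (bs i) (bs 0) + co 1 (B (bs j)) * γ (bs i) (bs 1) +
      co 2 (B (bs j)) * γ (bs i) (bs 2) + co 3 (B (bs j)) * γ (bs i) (bs 3) := by
    intro γ i j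
    conv_lhs => rw [co_expand (B (bs j))]
    simp only [map_add, map_smul, _root_.add_apply, ContinuousLinearMap.smul_apply,
      Complex.real_smul]
  simp only [prg, act_apply, trR, Complex.ofReal_add]
  simp only [e1, e2, h0, k0]
  simp only [hα (bs 1) (bs 0), hα (bs 2) (bs 0), hα (bs 3) (bs 0), hα (bs 2) (bs 1),
    hα (bs 3) (bs 1), hα (bs 3) (bs 2), hβ (bs 1) (bs 0), hβ (bs 2) (bs 0), hβ (bs 3) (bs 0),
    hβ (bs 2) (bs 1), hβ (bs 3) (bs 1), hβ (bs 3) (bs 2)]
  ring

/-- the pairing of the pull backs by a linear map which is complex linear -/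
lemma prg_pull {A : Cm 2 →L[ℝ] Cm 2} (hA : ∀ u, A (Complex.I • u) = Complex.I • A u)
    {α β : BF} {α' β' : BF} (hα : ∀ u v, α u v = -α v u) (hβ : ∀ u v, β u v = -β v u)
    (h1 : ∀ u v, α' u v = α (A u) (A v)) (h2 : ∀ u v, β' u v = β (A u) (A v)) :
    prg α' β' = ((Complex.normSq (A (Pi.single 0 1) 0 * A (Pi.single 1 1) 1 -
      A (Pi.single 0 1) 1 * A (Pi.single 1 1) 0) : ℝ) : ℂ) * prg α β := by
  have h0 : ∀ i, α (bs i) (bs i) = 0 := fun i => by
    have := hα (bs i) (bs i)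
    linear_combination this / 2
  have k0 : ∀ i, β (bs i) (bs i) = 0 := fun i => by
    have := hβ (bs i) (bs i)
    linear_combination this / 2
  obtain ⟨a, ha⟩ : ∃ a, a = A (Pi.single 0 1) 0 := ⟨_, rfl⟩
  obtain ⟨b, hb⟩ : ∃ b, b = A (Pi.single 0 1) 1 := ⟨_, rfl⟩
  obtain ⟨c, hc⟩ : ∃ c, c = A (Pi.single 1 1) 0 := ⟨_, rfl⟩
  obtain ⟨d, hd⟩ : ∃ d, d = A (Pi.single 1 1) 1 := ⟨_, rfl⟩
  have i1 : (Pi.single 0 Complex.I : Cm 2) = Complex.I • Pi.single 0 1 := by
    rw [← Pi.single_smul]; simp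
  have i2 : (Pi.single 1 Complex.I : Cm 2) = Complex.I • Pi.single 1 1 := by
    rw [← Pi.single_smul]; simp
  have b0 : A (bs 0) = a.re • bs 0 + a.im • bs 1 + b.re • bs 2 + b.im • bs 3 := by
    rw [co_expand (A (bs 0))]
    simp only [co_zero, co_one, co_two, co_three, ha, hb]
    rfl
  have b1 : A (bs 1) = (-a.im) • bs 0 + a.re • bs 1 + (-b.im) • bs 2 + b.re • bs 3 := by
    have : A (bs 1) = Complex.I • A (bs 0) := by
      rw [← hA]
      show A (Pi.single 0 Complex.I) = _
      rw [i1]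
      rfl
    rw [co_expand (A (bs 1)), this]
    simp only [co_zero, co_one, co_two, co_three, ha, hb, Pi.smul_apply, smul_eq_mul,
      Complex.mul_re, Complex.mul_im, Complex.I_re, Complex.I_im]
    norm_num
    rfl
  have b2 : A (bs 2) = c.re • bs 0 + c.im • bs 1 + d.re • bs 2 + d.im • bs 3 := by
    rw [co_expand (A (bs 2))]
    simp only [co_zero, co_one, co_two, co_three, hc, hd]
    rfl
  have b3 : A (bs 3) = (-c.im) • bs 0 + c.re • bs 1 + (-d.im) • bs 2 + d.re • bs 3 := by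
    have : A (bs 3) = Complex.I • A (bs 2) := by
      rw [← hA]
      show A (Pi.single 1 Complex.I) = _
      rw [i2]
      rfl
    rw [co_expand (A (bs 3)), this]
    simp only [co_zero, co_one, co_two, co_three, hc, hd, Pi.smul_apply, smul_eq_mul,
      Complex.mul_re, Complex.mul_im, Complex.I_re, Complex.I_im]
    norm_num
    rfl
  rw [← ha, ← hb, ← hc, ← hd]
  simp only [prg, h1, h2, b0, b1, b2, b3]
  simp only [map_add, map_smul, _root_.add_apply, ContinuousLinearMap.smul_apply,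
    Complex.real_smul, h0, k0]
  simp only [hα (bs 1) (bs 0), hα (bs 2) (bs 0), hα (bs 3) (bs 0), hα (bs 2) (bs 1),
    hα (bs 3) (bs 1), hα (bs 3) (bs 2), hβ (bs 1) (bs 0), hβ (bs 2) (bs 0), hβ (bs 3) (bs 0),
    hβ (bs 2) (bs 1), hβ (bs 3) (bs 1), hβ (bs 3) (bs 2)]
  simp only [Complex.normSq_apply, Complex.sub_re, Complex.sub_im, Complex.mul_re, Complex.mul_im]
  push_cast
  ring

end Vale.Agent.P298.H39
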