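import Vale.Agent.P272.K.Iface
import Mathlib.Analysis.Calculus.InverseFunctionTheorem.ContDiff
import Mathlib.Analysis.Calculus.ContDiff.Operations
import Mathlib.Topology.Sequences

/-!
# P298, block HYP: the projective surface `{G = 0}` in `P³`

`G : ℂ⁴ → ℂ` is holomorphic, homogeneous of degree `d`, with non-zero differential on
`{G = 0} \ {0}`. The point `[z]` of `P³` is represented by the rank one projector
`z z* / |z|²`, so that the surface is a compact subset of `ℂ¹⁶`.
-/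

open scoped ContDiff ComplexConjugate Topology

noncomputable section

namespace Vale.Agent.P298.H39

/-- homogeneous coordinates -/
abbrev V4 : Type := Fin 4 → ℂ

/-- homogeneous equation of a smooth surface -/
structure HG (d : ℕ) (G : V4 → ℂ) : Prop where
  smooth : ContDiff ℂ ω G
  hom : ∀ (c : ℂ) (z : V4), G (c • z) = c ^ d * G z
  reg : ∀ z : V4, z ≠ 0 → G z = 0 → fderiv ℂ G z ≠ 0
  ne : ∃ z : V4, z ≠ 0 ∧ G z = 0

/-- squared norm -/
def nsq (z : V4) : ℝ := ∑ i, Complex.normSq (z i)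

lemma nsq_nonneg (z : V4) : 0 ≤ nsq z := Finset.sum_nonneg fun i _ => Complex.normSq_nonneg _

lemma nsq_pos {z : V4} (hz : z ≠ 0) : 0 < nsq z := by
  obtain ⟨i, hi⟩ := Function.ne_iff.mp hz
  exact Finset.sum_pos' (fun i _ => Complex.normSq_nonneg _)
    ⟨i, Finset.mem_univ _, Complex.normSq_pos.mpr hi⟩

lemma nsq_smul (c : ℂ) (z : V4) : nsq (c • z) = Complex.normSq c * nsq z := by
  simp [nsq, Finset.mul_sum]

lemma nsq_continuous : Continuous nsq := by
  unfold nsq
  fun_prop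

/-- the projector `z z* / |z|²` -/
def prj (z : V4) : Fin 4 → Fin 4 → ℂ := fun i j => z i * conj (z j) / (nsq z : ℂ)

lemma prj_smul {c : ℂ} (hc : c ≠ 0) (z : V4) : prj (c • z) = prj z := by
  funext i j
  have h1 : (Complex.normSq c : ℂ) ≠ 0 := by
    exact_mod_cast (Complex.normSq_pos.mpr hc).ne'
  by_cases hz : (nsq z : ℂ) = 0
  · simp [prj, nsq_smul, hz]
  · simp only [prj, nsq_smul, Pi.smul_apply, smul_eq_mul, map_mul, Complex.ofReal_mul]
    rw [← Complex.mul_conj] at h1 ⊢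
    have h2 : conj c ≠ 0 := right_ne_zero_of_mul h1
    field_simp

lemma prj_diag (z : V4) (a : Fin 4) : prj z a a = ((Complex.normSq (z a) / nsq z : ℝ) : ℂ) := by
  simp [prj, Complex.mul_conj]

/-- the surface `{G = 0}` -/
@[ext] structure XG (G : V4 → ℂ) : Type where
  /-- the projector on the line -/
  val : Fin 4 → Fin 4 → ℂ
  prop : ∃ z : V4, z ≠ 0 ∧ G z = 0 ∧ val = prj z

instance (G : V4 → ℂ) : TopologicalSpace (XG G) := TopologicalSpace.induced XG.val inferInstance

lemma isEmbedding_val (G : V4 → ℂ) : Topology.IsEmbedding (XG.val (G := G)) :=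
  ⟨⟨rfl⟩, fun _ _ h => XG.ext h⟩

lemma continuous_val (G : V4 → ℂ) : Continuous (XG.val (G := G)) := (isEmbedding_val G).continuous

instance (G : V4 → ℂ) : T2Space (XG G) := (isEmbedding_val G).t2Space

variable {d : ℕ} {G : V4 → ℂ}

lemma HG.nonempty (h : HG d G) : Nonempty (XG G) := by
  obtain ⟨z, hz, h0⟩ := h.ne
  exact ⟨⟨prj z, z, hz, h0, rfl⟩⟩

lemma HG.compactSpace (h : HG d G) : CompactSpace (XG G) := by
  have hK : IsCompact {z : V4 | nsq z = 1 ∧ G z = 0} := by
    refine Metric.isCompact_of_isClosed_isBounded ?_ ?_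
    · exact (isClosed_eq nsq_continuous continuous_const).inter
        (isClosed_eq h.smooth.continuous continuous_const)
    · refine (Metric.isBounded_closedBall (x := (0 : V4)) (r := 1)).subset ?_
      rintro z ⟨hz, -⟩
      rw [mem_closedBall_zero_iff, pi_norm_le_iff_of_nonneg zero_le_one]
      intro i
      have h1 : Complex.normSq (z i) ≤ 1 := by
        rw [← hz]
        exact Finset.single_le_sum (f := fun i => Complex.normSq (z i))
          (fun i _ => Complex.normSq_nonneg _) (Finset.mem_univ i)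
      rw [Complex.normSq_eq_norm_sq] at h1
      nlinarith [norm_nonneg (z i)]
  have h2 : IsCompact ((fun (z : V4) (i j : Fin 4) => z i * conj (z j)) ''
      {z : V4 | nsq z = 1 ∧ G z = 0}) := by
    refine hK.image ?_
    fun_prop
  have h3 : (fun (z : V4) (i j : Fin 4) => z i * conj (z j)) '' {z : V4 | nsq z = 1 ∧ G z = 0}
      = {A | ∃ z : V4, z ≠ 0 ∧ G z = 0 ∧ A = prj z} := by
    ext A
    constructor
    · rintro ⟨z, ⟨hz, h0⟩, rfl⟩
      refine ⟨z, ?_, h0, ?_⟩
      · rintro rfl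
        simp [nsq] at hz
      · funext i j
        simp [prj, hz]
    · rintro ⟨z, hz, h0, rfl⟩
      have hp := nsq_pos hz
      have hs : 0 < Real.sqrt (nsq z) := Real.sqrt_pos.mpr hp
      have hc : (((Real.sqrt (nsq z))⁻¹ : ℝ) : ℂ) ≠ 0 := by
        exact_mod_cast (inv_pos.mpr hs).ne'
      refine ⟨(((Real.sqrt (nsq z))⁻¹ : ℝ) : ℂ) • z, ⟨?_, ?_⟩, ?_⟩
      · rw [nsq_smul, Complex.normSq_ofReal, ← sq, inv_pow, Real.sq_sqrt hp.le,
          inv_mul_cancel₀ hp.ne']
      · rw [h.hom, h0, mul_zero]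
      · rw [← prj_smul hc z]
        have : nsq ((((Real.sqrt (nsq z))⁻¹ : ℝ) : ℂ) • z) = 1 := by
          rw [nsq_smul, Complex.normSq_ofReal, ← sq, inv_pow, Real.sq_sqrt hp.le,
            inv_mul_cancel₀ hp.ne']
        funext i j
        simp only [prj, this]
        simp
  rw [h3] at h2
  have h4 : Set.range (XG.val (G := G)) = {A | ∃ z : V4, z ≠ 0 ∧ G z = 0 ∧ A = prj z} := by
    ext A
    exact ⟨fun ⟨p, hp⟩ => hp ▸ p.prop, fun hA => ⟨⟨A, hA⟩, rfl⟩⟩
  rw [← h4, ← Set.image_univ, ← (isEmbedding_val G).isCompact_iff] at h2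
  exact ⟨h2⟩

/-- the point `[z]` of the surface (a default point if `z` is not on the cone) -/
def mkp (p₀ : XG G) (z : V4) : XG G :=
  open Classical in if h : z ≠ 0 ∧ G z = 0 then ⟨prj z, z, h.1, h.2, rfl⟩ else p₀

lemma mkp_val {p₀ : XG G} {z : V4} (hz : z ≠ 0) (h : G z = 0) : (mkp p₀ z).1 = prj z := by
  rw [mkp, dif_pos (And.intro hz h)]

/-- normalized homogeneous coordinates, `z / z_a` -/
def sg (a : Fin 4) (p : XG G) : V4 := fun i => p.1 i a / p.1 a a

lemma sg_apply (a i : Fin 4) (p : XG G) : sg a p i = p.1 i a / p.1 a a := rfl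

/-- the affine chart domain -/
def Ua (G : V4 → ℂ) (a : Fin 4) : Set (XG G) := {p | p.1 a a ≠ 0}

lemma continuous_entry (i j : Fin 4) : Continuous fun p : XG G => p.1 i j :=
  (continuous_apply j).comp ((continuous_apply i).comp (continuous_val G))

lemma isOpen_Ua (a : Fin 4) : IsOpen (Ua G a) :=
  isOpen_ne_fun (continuous_entry a a) continuous_const

lemma sg_continuousOn (a : Fin 4) : ContinuousOn (sg (G := G) a) (Ua G a) := by
  refine continuousOn_pi.mpr fun i => ?_
  exact (continuous_entry i a).continuousOn.div (continuous_entry a a).continuousOn fun p hp => hp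

lemma sg_prj {a : Fin 4} {z : V4} (hz : z ≠ 0) (ha : z a ≠ 0) (p : XG G) (hp : p.1 = prj z) :
    sg a p = (z a)⁻¹ • z := by
  have h1 : (nsq z : ℂ) ≠ 0 := by exact_mod_cast (nsq_pos hz).ne'
  have h2 : conj (z a) ≠ 0 := by simpa using ha
  funext i
  simp only [sg, hp, prj, Pi.smul_apply, smul_eq_mul]
  field_simp

lemma mem_Ua_iff {a : Fin 4} {z : V4} (hz : z ≠ 0) (p : XG G) (hp : p.1 = prj z) :
    p ∈ Ua G a ↔ z a ≠ 0 := by
  have h1 : (nsq z : ℂ) ≠ 0 := by exact_mod_cast (nsq_pos hz).ne'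
  simp [Ua, hp, prj, h1]

lemma exists_rep (p : XG G) : ∃ z : V4, z ≠ 0 ∧ G z = 0 ∧ p.1 = prj z := p.2

lemma sg_self {a : Fin 4} {p : XG G} (hp : p ∈ Ua G a) : sg a p a = 1 := div_self hp

lemma sg_ne_zero {a : Fin 4} {p : XG G} (hp : p ∈ Ua G a) : sg a p ≠ 0 := fun h => by
  have := sg_self hp
  rw [h] at this
  simp at this

lemma G_sg (h : HG d G) {a : Fin 4} {p : XG G} (hp : p ∈ Ua G a) : G (sg a p) = 0 := by
  obtain ⟨z, hz, h0, hpz⟩ := exists_rep p
  have ha := (mem_Ua_iff hz p hpz).mp hp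
  rw [sg_prj hz ha p hpz, h.hom, h0, mul_zero]

lemma prj_sg {a : Fin 4} {p : XG G} (hp : p ∈ Ua G a) : prj (sg a p) = p.1 := by
  obtain ⟨z, hz, h0, hpz⟩ := exists_rep p
  have ha := (mem_Ua_iff hz p hpz).mp hp
  rw [sg_prj hz ha p hpz, prj_smul (inv_ne_zero ha), hpz]

lemma mkp_sg (h : HG d G) (p₀ : XG G) {a : Fin 4} {p : XG G} (hp : p ∈ Ua G a) :
    mkp p₀ (sg a p) = p :=
  XG.ext (by rw [mkp_val (sg_ne_zero hp) (G_sg h hp), prj_sg hp])

lemma sg_mkp (p₀ : XG G) {a : Fin 4} {z : V4} (hz : z a = 1) (h0 : G z = 0) :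
    sg a (mkp p₀ z) = z := by
  have hz0 : z ≠ 0 := fun h => by rw [h] at hz; simp at hz
  rw [sg_prj hz0 (by rw [hz]; exact one_ne_zero) _ (mkp_val hz0 h0), hz]
  simp

lemma mkp_mem_Ua (p₀ : XG G) {a : Fin 4} {z : V4} (hz : z a = 1) (h0 : G z = 0) :
    mkp p₀ z ∈ Ua G a := by
  have hz0 : z ≠ 0 := fun h => by rw [h] at hz; simp at hz
  rw [mem_Ua_iff hz0 _ (mkp_val hz0 h0), hz]
  exact one_ne_zero

lemma prj_continuousAt {z : V4} (hz : z ≠ 0) : ContinuousAt prj z := by
  refine continuousAt_pi.mpr fun i => continuousAt_pi.mpr fun j => ?_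
  have h1 : (nsq z : ℂ) ≠ 0 := by exact_mod_cast (nsq_pos hz).ne'
  have h2 : ContinuousAt (fun z : V4 => (nsq z : ℂ)) z :=
    (Complex.continuous_ofReal.comp nsq_continuous).continuousAt
  have h3 : ContinuousAt (fun z : V4 => z i * conj (z j)) z := by
    have : Continuous (fun z : V4 => z i * conj (z j)) := by fun_prop
    exact this.continuousAt
  exact h3.div h2 h1

lemma mkp_continuousOn (p₀ : XG G) : ContinuousOn (mkp p₀) {z : V4 | z ≠ 0 ∧ G z = 0} := by
  rw [(isEmbedding_val G).isInducing.continuousOn_iff]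
  have h1 : ContinuousOn prj {z : V4 | z ≠ 0 ∧ G z = 0} := fun z hz =>
    (prj_continuousAt hz.1).continuousWithinAt
  refine h1.congr ?_
  intro z hz
  exact mkp_val hz.1 hz.2

lemma exists_mem_Ua (p : XG G) : ∃ a : Fin 4, p ∈ Ua G a := by
  obtain ⟨z, hz, h0, hpz⟩ := exists_rep p
  obtain ⟨a, ha⟩ := Function.ne_iff.mp hz
  exact ⟨a, (mem_Ua_iff hz p hpz).mpr ha⟩

/-- Euler's relation -/
lemma HG.euler (h : HG d G) (z : V4) : fderiv ℂ G z z = d * G z := by
  have hd : DifferentiableAt ℂ G z := (h.smooth.differentiable (by simp)) z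
  have h1 : HasDerivAt (fun c : ℂ => c • z) z 1 := by
    simpa using (hasDerivAt_id (1 : ℂ)).smul_const z
  have h2 : HasDerivAt (fun c : ℂ => G (c • z)) (fderiv ℂ G z z) 1 := by
    have h3 : HasFDerivAt G (fderiv ℂ G z) ((fun c : ℂ => c • z) 1) := by
      simpa using hd.hasFDerivAt
    exact h3.comp_hasDerivAt (1 : ℂ) h1
  have h4 : HasDerivAt (fun c : ℂ => c ^ d * G z) (d * G z) 1 := by
    have := (hasDerivAt_pow d (1 : ℂ)).mul_const (G z)
    simpa using this
  have h5 : (fun c : ℂ => G (c • z)) = fun c : ℂ => c ^ d * G z := funext fun c => h.hom c z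
  rw [h5] at h2
  exact h2.unique h4

/-- some partial derivative other than the `a`-th is non-zero -/
lemma HG.exists_pd (h : HG d G) {a : Fin 4} {z : V4} (ha : z a ≠ 0) (h0 : G z = 0) :
    ∃ b : Fin 3, fderiv ℂ G z (Pi.single (a.succAbove b) 1) ≠ 0 := by
  have hz : z ≠ 0 := fun h => ha (by rw [h]; rfl)
  by_contra hcon
  push Not at hcon
  refine h.reg z hz h0 ?_
  have hsum : fderiv ℂ G z z = ∑ i, z i * fderiv ℂ G z (Pi.single i 1) := by
    have hz2 : z = ∑ i, z i • (Pi.single i (1 : ℂ) : V4) := by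
      funext j; simp [Finset.sum_apply, Pi.single_apply]
    have h3 : fderiv ℂ G z z = fderiv ℂ G z (∑ i, z i • (Pi.single i (1 : ℂ) : V4)) :=
      congrArg _ hz2
    rw [h3, map_sum]
    simp
  rw [h.euler, h0, mul_zero, Fin.sum_univ_succAbove _ a] at hsum
  simp only [hcon, mul_zero, Finset.sum_const_zero, add_zero] at hsum
  have ha' : fderiv ℂ G z (Pi.single a 1) = 0 := by
    rcases mul_eq_zero.mp hsum.symm with h | h
    · exact absurd h ha
    · exact h
  ext v
  rw [show v = ∑ i, v i • (Pi.single i (1 : ℂ) : V4) by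
      funext j; simp [Finset.sum_apply, Pi.single_apply], map_sum]
  rw [Fin.sum_univ_succAbove _ a]
  simp [ha', hcon]

end Vale.Agent.P298.H39
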