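import Vale.Agent.P298.H39.Fib

/-!
# P298, block S1-GEO, row R1: relative forms, Lie derivative, pairing (definitions and goals)
-/

open scoped ContDiff Topology Manifold
open Vale.Agent.P272.K

noncomputable section

namespace Vale.Agent.P298.H39

/-- derivative along the fibre of a vector field given in a chart -/
def dfv (v : Cm 2 × ℂ → Cm 2) (q : Cm 2 × ℂ) : Cm 2 →L[ℝ] Cm 2 :=
  (fderiv ℝ v q).comp (ContinuousLinearMap.inl ℝ (Cm 2) ℂ)

lemma dfv_apply (v : Cm 2 × ℂ → Cm 2) (q : Cm 2 × ℂ) (u : Cm 2) :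
    dfv v q u = fderiv ℝ v q (u, 0) := rfl

/-- the bilinear form `(u, x) ↦ α (B u) x + α u (B x)` -/
def act (B : Cm 2 →L[ℝ] Cm 2) (α : BF) : BF :=
  α.comp B + ((ContinuousLinearMap.compL ℝ (Cm 2) (Cm 2) ℂ).flip B).comp α

lemma act_apply (B : Cm 2 →L[ℝ] Cm 2) (α : BF) (u x : Cm 2) :
    act B α u x = α (B u) x + α u (B x) := rfl

/-- Lie derivative in a chart along the vector field `(s • v, s)` -/
def lieB (v : Cm 2 × ℂ → Cm 2) (s : ℂ) (α : Cm 2 × ℂ → BF) (q : Cm 2 × ℂ) : BF :=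
  fderiv ℝ α q (s • v q, s) + act (s • dfv v q) (α q)

lemma lieB_apply (v : Cm 2 × ℂ → Cm 2) (s : ℂ) (α : Cm 2 × ℂ → BF) (q : Cm 2 × ℂ)
    (u x : Cm 2) : lieB v s α q u x = lie v s α q u x := by
  simp only [lieB, lie, _root_.add_apply, act_apply, ContinuousLinearMap.smul_apply,
    dfv_apply]
  ring

section
variable {Z : Type} [TopologicalSpace Z] (F : Fam Z)

/-- Lie derivative of a relative 2-form along a lift, over the direction `s` -/
def lieF (v : PC Z → Cm 2 × ℂ → Cm 2) (s : ℂ) (α : PC Z → Cm 2 × ℂ → BF) :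
    PC Z → Cm 2 × ℂ → BF := fun e q => lieB (v e) s (α e) q

/-- goal R1-NAT: the Lie derivative of a relative form is a relative form -/
def R1Nat : Prop :=
  ∀ (v : PC Z → Cm 2 × ℂ → Cm 2) (s : ℂ) (α : PC Z → Cm 2 × ℂ → BF), IsLift F v → IsRF2 F α →
    IsRF2 F (lieF v s α) ∧ (IsCl2 F α → IsCl2 F (lieF v s α))

/-- goal R1-FLAT: the commutator of the Lie derivatives of a closed form is exact -/
def R1Flat : Prop :=
  ∀ (v : PC Z → Cm 2 × ℂ → Cm 2) (α : PC Z → Cm 2 × ℂ → BF), IsLift F v → IsRF2 F α →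
    IsCl2 F α → ∃ θ : PC Z → Cm 2 × ℂ → LF, IsRF1 F θ ∧ ∀ e ∈ F.A, ∀ q ∈ e.target, ∀ u x,
      lieF v 1 (lieF v Complex.I α) e q u x - lieF v Complex.I (lieF v 1 α) e q u x =
        d1 (θ e) q u x

end

end Vale.Agent.P298.H39
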