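import Vale.Agent.P298.H39.Deriv
import Vale.Agent.P298.H369.R1Nat

/-!
# P298, block S1-GEO: Stokes' theorem on the fibres
-/

open scoped ContDiff Topology Manifold ComplexConjugate
open Vale.Agent.P272.K MeasureTheory

set_option maxSynthPendingDepth 3

noncomputable section

namespace Vale.Agent.P298.H39

/-- fibre derivative of a 1-form in a chart -/
def dA (θ : Cm 2 × ℂ → LF) (q : Cm 2 × ℂ) : Cm 2 →L[ℝ] LF :=
  (fderiv ℝ θ q).comp (ContinuousLinearMap.inl ℝ (Cm 2) ℂ)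

/-- exterior derivative of a 1-form in a chart -/
def d1B (θ : Cm 2 × ℂ → LF) (q : Cm 2 × ℂ) : BF := dA θ q - (dA θ q).flip

lemma d1B_apply (θ : Cm 2 × ℂ → LF) (q : Cm 2 × ℂ) (u v : Cm 2) :
    d1B θ q u v = d1 θ q u v := rfl

/-- coefficients of the 3-form `θ ∧ β` -/
def W3 (k : Fin 4) (θ : LF) (β : BF) : ℂ :=
  ![θ (bs 1) * β (bs 2) (bs 3) - θ (bs 2) * β (bs 1) (bs 3) + θ (bs 3) * β (bs 1) (bs 2),
    -(θ (bs 0) * β (bs 2) (bs 3) - θ (bs 2) * β (bs 0) (bs 3) + θ (bs 3) * β (bs 0) (bs 2)),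
    θ (bs 0) * β (bs 1) (bs 3) - θ (bs 1) * β (bs 0) (bs 3) + θ (bs 3) * β (bs 0) (bs 1),
    -(θ (bs 0) * β (bs 1) (bs 2) - θ (bs 1) * β (bs 0) (bs 2) + θ (bs 2) * β (bs 0) (bs 1))] k

/-- `d (θ ∧ β) = dθ ∧ β` for closed `β` -/
lemma sum_W3 {θ : Cm 2 × ℂ → LF} {β : Cm 2 × ℂ → BF} {q : Cm 2 × ℂ}
    (hθ : DifferentiableAt ℝ θ q) (hβ : DifferentiableAt ℝ β q)
    (hc : ∀ u v x : Cm 2, fderiv ℝ β q (u, 0) v x - fderiv ℝ β q (v, 0) u x +
      fderiv ℝ β q (x, 0) u v = 0) :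
    ∑ k : Fin 4, fderiv ℝ (fun q => W3 k (θ q) (β q)) q (bs k, 0) =
      prg (d1B θ q) (β q) := by
  have hT : ∀ (i : Fin 4), HasFDerivAt (fun q => θ q (bs i))
      ((fderiv ℝ θ q).flip (bs i)) q := fun i => by
    have h1 := hθ.hasFDerivAt.clm_apply (hasFDerivAt_const (bs i) q)
    simpa using h1
  have hB1 : ∀ (i : Fin 4), HasFDerivAt (fun q => β q (bs i))
      ((fderiv ℝ β q).flip (bs i)) q := fun i => by
    have h1 := hβ.hasFDerivAt.clm_apply (hasFDerivAt_const (bs i) q)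
    simpa using h1
  have hB : ∀ (i j : Fin 4), HasFDerivAt (fun q => β q (bs i) (bs j))
      (((fderiv ℝ β q).flip (bs i)).flip (bs j)) q := fun i j => by
    have h1 := (hB1 i).clm_apply (hasFDerivAt_const (bs j) q)
    simpa using h1
  have hP : ∀ (i j k : Fin 4), HasFDerivAt (fun q => θ q (bs i) * β q (bs j) (bs k))
      (θ q (bs i) • (((fderiv ℝ β q).flip (bs j)).flip (bs k)) +
        β q (bs j) (bs k) • ((fderiv ℝ θ q).flip (bs i))) q := fun i j k =>
    (hT i).mul (hB j k)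
  have e0 : fderiv ℝ (fun q => W3 0 (θ q) (β q)) q = _ :=
    (((hP 1 2 3).sub (hP 2 1 3)).add (hP 3 1 2)).fderiv
  have e1 : fderiv ℝ (fun q => W3 1 (θ q) (β q)) q = _ :=
    (((hP 0 2 3).sub (hP 2 0 3)).add (hP 3 0 2)).neg.fderiv
  have e2 : fderiv ℝ (fun q => W3 2 (θ q) (β q)) q = _ :=
    (((hP 0 1 3).sub (hP 1 0 3)).add (hP 3 0 1)).fderiv
  have e3 : fderiv ℝ (fun q => W3 3 (θ q) (β q)) q = _ :=
    (((hP 0 1 2).sub (hP 1 0 2)).add (hP 2 0 1)).neg.fderiv
  rw [Fin.sum_univ_four, e0, e1, e2, e3]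
  simp only [prg, d1B_apply, d1, _root_.add_apply, _root_.sub_apply, _root_.neg_apply,
    ContinuousLinearMap.smul_apply, ContinuousLinearMap.flip_apply, smul_eq_mul]
  linear_combination (-(θ q (bs 0))) * hc (bs 1) (bs 2) (bs 3) +
    θ q (bs 1) * hc (bs 0) (bs 2) (bs 3) - θ q (bs 2) * hc (bs 0) (bs 1) (bs 3) +
    θ q (bs 3) * hc (bs 0) (bs 1) (bs 2)

lemma contDiffAt_d1B {θ : Cm 2 × ℂ → LF} {q : Cm 2 × ℂ} (hθ : ContDiffAt ℝ ∞ θ q) :
    ContDiffAt ℝ ∞ (d1B θ) q := by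
  have h1 : ContDiffAt ℝ ∞ (dA θ) q :=
    (H369.contDiffAt_fderiv hθ).clm_comp contDiffAt_const
  have h2 : ContDiffAt ℝ ∞ (fun q => (dA θ q).flip) q :=
    (ContinuousLinearMap.flipₗᵢ ℝ (Cm 2) (Cm 2) ℂ).contDiff.contDiffAt.comp q h1
  exact h1.sub h2

variable {Z : Type} [TopologicalSpace Z] {F : Fam Z}

/-- the exterior derivative of a relative 1-form is a relative closed 2-form -/
lemma isRF2_d1B {θ : PC Z → Cm 2 × ℂ → LF} (hθ : IsRF1 F θ) :
    IsRF2 F fun e q => d1B (θ e) q where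
  smooth e he q hq := contDiffAt_d1B (hθ.smooth e he q hq)
  alt e he q hq u v := by
    rw [d1B_apply, d1B_apply, d1, d1]
    ring
  change e he e' he' z hz hz' u v := by
    have hT := H369.tr_contDiffAt he he' hz hz'
    have hθ' := hθ.smooth e' he' (e' z) (e'.map_source hz')
    have hT2 := H369.contDiffAt_fderiv hT
    have hcomp : HasFDerivAt (fun q => θ e' (H369.tr e e' q))
        ((fderiv ℝ (θ e') (e' z)).comp (fderiv ℝ (H369.tr e e') (e z))) (e z) := by
      have h1 : HasFDerivAt (θ e') (fderiv ℝ (θ e') (e' z)) (H369.tr e e' (e z)) := by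
        rw [H369.tr_apply hz]
        exact H369.hasFDerivAt_of hθ'
      exact h1.comp (e z) (H369.hasFDerivAt_of hT)
    have key : ∀ u v : Cm 2, fderiv ℝ (θ e) (e z) (u, 0) v =
        fderiv ℝ (θ e') (e' z) (fj e e' z u, 0) (fj e e' z v) +
          θ e' (e' z) (H369.D2 (H369.tr e e') (e z) (u, 0) (v, 0)).1 := by
      intro u v
      have h1 : (fun q => θ e q v) =ᶠ[𝓝 (e z)]
          fun q => θ e' (H369.tr e e' q) (fderiv ℝ (H369.tr e e') q (v, 0)).1 := by
        filter_upwards [H369.tr_near hz hz'] with q hq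
        obtain ⟨z', hz1, hz2, rfl⟩ := hq
        rw [hθ.change e he e' he' z' hz1 hz2, H369.tr_apply hz1]
        rfl
      have h2 : HasFDerivAt (fun q => θ e q v) ((fderiv ℝ (θ e) (e z)).flip v) (e z) := by
        have := (H369.hasFDerivAt_of (hθ.smooth e he (e z) (e.map_source hz))).clm_apply
          (hasFDerivAt_const v (e z))
        simpa using this
      have h3 : HasFDerivAt (fun q => fderiv ℝ (H369.tr e e') q (v, 0))
          ((fderiv ℝ (fderiv ℝ (H369.tr e e')) (e z)).flip (v, 0)) (e z) := by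
        have := (H369.hasFDerivAt_of hT2).clm_apply (hasFDerivAt_const (v, (0 : ℂ)) (e z))
        simpa using this
      have h4 := hcomp.clm_apply h3.fst
      have h5 := (h4.congr_of_eventuallyEq h1).unique h2
      have h6 := congrArg (fun L : Cm 2 × ℂ →L[ℝ] ℂ => L (u, 0)) h5
      simp only [ContinuousLinearMap.flip_apply, _root_.add_apply,
        ContinuousLinearMap.comp_apply] at h6
      rw [← h6]
      have h7 : fderiv ℝ (H369.tr e e') (e z) (u, 0) = (fj e e' z u, 0) := tj_inl he he' hz hz' u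
      have h8 : H369.tr e e' (e z) = e' z := H369.tr_apply hz
      rw [h7, h8]
      rw [add_comm]
      rfl
    show d1 (θ e) (e z) u v = d1 (θ e') (e' z) (fj e e' z u) (fj e e' z v)
    rw [d1, d1, key u v, key v u, H369.D2_symm hT (u, 0) (v, 0)]
    ring

/-- derivative of a sum of products with a partition of unity -/
lemma isRF1_smul {θ : PC Z → Cm 2 × ℂ → LF} (hθ : IsRF1 F θ) {ρ : Z → ℝ} (hρ : SmF F ρ) :
    IsRF1 F fun e q => ρ (e.symm q) • θ e q where
  smooth e he q hq := (hρ e he q hq).smul (hθ.smooth e he q hq)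
  change e he e' he' z hz hz' u := by
    rw [e.left_inv hz, e'.left_inv hz']
    show ρ z • θ e (e z) u = ρ z • θ e' (e' z) (fj e e' z u)
    rw [hθ.change e he e' he' z hz hz']

end Vale.Agent.P298.H39
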