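import Vale.Agent.P298.H39.Stokes

/-!
# P298, block S1-GEO: Stokes' theorem on the fibres, global form
-/

open scoped ContDiff Topology Manifold ComplexConjugate
open Vale.Agent.P272.K MeasureTheory

set_option maxSynthPendingDepth 3

noncomputable section

namespace Vale.Agent.P298.H39

variable {Z : Type} [TopologicalSpace Z] {F : Fam Z}

/-- extension by zero of a function in the chart `e` -/
def ext0 (e : PC Z) (D : Cm 2 × ℂ → ℂ) (q : Cm 2 × ℂ) : ℂ :=
  open Classical in if q ∈ e.target then D q else 0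

lemma ext0_of_mem {e : PC Z} {D : Cm 2 × ℂ → ℂ} {q : Cm 2 × ℂ} (hq : q ∈ e.target) :
    ext0 e D q = D q := by rw [ext0, if_pos hq]

lemma ext0_of_notMem {e : PC Z} {D : Cm 2 × ℂ → ℂ} {q : Cm 2 × ℂ} (hq : q ∉ e.target) :
    ext0 e D q = 0 := by rw [ext0, if_neg hq]

lemma ext0_eventually {e : PC Z} {D : Cm 2 × ℂ → ℂ} {q : Cm 2 × ℂ} (hq : q ∈ e.target) :
    ext0 e D =ᶠ[𝓝 q] D := by
  filter_upwards [e.open_target.mem_nhds hq] with q' hq'
  exact ext0_of_mem hq'

/-- `D` vanishes off the closed set `K` of the chart domain -/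
structure Sup0 (e : PC Z) (K : Set Z) (D : Cm 2 × ℂ → ℂ) : Prop where
  closed : IsClosed K
  sub : K ⊆ e.source
  zero : ∀ q ∈ e.target, e.symm q ∉ K → D q = 0

lemma Sup0.zero_off {e : PC Z} (he : e ∈ F.A) {K : Set Z} {D : Cm 2 × ℂ → ℂ}
    (h : Sup0 e K D) {B : Set ℂ} {q : Cm 2 × ℂ} (hq2 : q.2 ∈ B)
    (hq : q ∉ e '' (K ∩ F.p ⁻¹' B)) : ext0 e D q = 0 := by
  by_cases h1 : q ∈ e.target
  · rw [ext0_of_mem h1]
    refine h.zero q h1 fun hk => hq ⟨e.symm q, ⟨hk, ?_⟩, e.right_inv h1⟩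
    show F.p (e.symm q) ∈ B
    rw [Fam.p_symm he h1]
    exact hq2
  · exact ext0_of_notMem h1

lemma Sup0.isCompact {e : PC Z} {K : Set Z} {D : Cm 2 × ℂ → ℂ} (h : Sup0 e K D) {B : Set ℂ}
    (hB : IsCompact B) (hBΩ : B ⊆ F.Ω) : IsCompact (e '' (K ∩ F.p ⁻¹' B)) := by
  have h1 : IsCompact (K ∩ F.p ⁻¹' B) := (F.proper B hB hBΩ).inter_left h.closed
  exact h1.image_of_continuousOn (e.continuousOn.mono fun z hz => h.sub hz.1)

lemma Sup0.ev_zero {e : PC Z} (he : e ∈ F.A) {K : Set Z} {D : Cm 2 × ℂ → ℂ}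
    (h : Sup0 e K D) {q : Cm 2 × ℂ} (hΩ : q.2 ∈ F.Ω) (hq : q ∉ e.target) :
    ext0 e D =ᶠ[𝓝 q] fun _ => 0 := by
  obtain ⟨r, hr, hsub⟩ := Metric.nhds_basis_closedBall.mem_iff.mp (F.isOpen.mem_nhds hΩ)
  have hC := h.isCompact (F := F) (isCompact_closedBall q.2 r) hsub
  have h1 : q ∉ e '' (K ∩ F.p ⁻¹' Metric.closedBall q.2 r) := by
    rintro ⟨z, hz, hzq⟩
    exact hq (hzq ▸ e.map_source (h.sub hz.1))
  have h2 : ∀ᶠ q' in 𝓝 q, q' ∉ e '' (K ∩ F.p ⁻¹' Metric.closedBall q.2 r) :=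
    hC.isClosed.isOpen_compl.mem_nhds h1
  have h3 : ∀ᶠ q' : Cm 2 × ℂ in 𝓝 q, q'.2 ∈ Metric.closedBall q.2 r :=
    continuous_snd.continuousAt.eventually (Metric.closedBall_mem_nhds q.2 hr)
  filter_upwards [h2, h3] with q' h2' h3'
  exact h.zero_off he h3' h2'

lemma Sup0.contDiffAt {e : PC Z} (he : e ∈ F.A) {K : Set Z} {D : Cm 2 × ℂ → ℂ}
    (h : Sup0 e K D) (hD : ∀ q ∈ e.target, ContDiffAt ℝ ∞ D q) {q : Cm 2 × ℂ}
    (hΩ : q.2 ∈ F.Ω) : ContDiffAt ℝ ∞ (ext0 e D) q := by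
  by_cases hq : q ∈ e.target
  · exact (hD q hq).congr_of_eventuallyEq (ext0_eventually hq)
  · exact contDiffAt_const.congr_of_eventuallyEq (h.ev_zero he hΩ hq)

lemma Sup0.slice_contDiff {e : PC Z} (he : e ∈ F.A) {K : Set Z} {D : Cm 2 × ℂ → ℂ}
    (h : Sup0 e K D) (hD : ∀ q ∈ e.target, ContDiffAt ℝ ∞ D q) {t : ℂ} (ht : t ∈ F.Ω) :
    ContDiff ℝ ∞ fun w => ext0 e D (w, t) := by
  rw [contDiff_iff_contDiffAt]
  intro w
  have h1 : ContDiffAt ℝ ∞ (fun w : Cm 2 => (w, t)) w := contDiffAt_id.prodMk contDiffAt_const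
  exact ContDiffAt.comp (g := ext0 e D) w (h.contDiffAt he hD (q := (w, t)) ht) h1

lemma Sup0.slice_support {e : PC Z} (he : e ∈ F.A) {K : Set Z} {D : Cm 2 × ℂ → ℂ}
    (h : Sup0 e K D) {t : ℂ} (ht : t ∈ F.Ω) : HasCompactSupport fun w => ext0 e D (w, t) := by
  have hC := (h.isCompact (F := F) (isCompact_singleton (x := t))
    (Set.singleton_subset_iff.mpr ht)).image continuous_fst
  refine HasCompactSupport.intro hC fun w hw => ?_
  refine h.zero_off (q := (w, t)) he (Set.mem_singleton t) fun hh => hw ?_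
  exact ⟨(w, t), hh, rfl⟩

variable [T2Space Z]

/-- the integral of a density supported in a chart -/
lemma intF_supp {e : PC Z} (he : e ∈ F.A) {D : PC Z → Cm 2 × ℂ → ℂ} (hD : IsDen F D)
    {K : Set Z} (hK : IsClosed K) (hKs : K ⊆ e.source)
    (h0 : ∀ e' ∈ F.A, ∀ q ∈ e'.target, e'.symm q ∉ K → D e' q = 0)
    {t : ℂ} (ht : t ∈ F.Ω) : intF F t D = ∫ w, ext0 e (D e) (w, t) := by
  have := F.compact_fib ht
  obtain ⟨z₀⟩ := F.nonempty_fib ht
  have hS : Sup0 e K (D e) := ⟨hK, hKs, h0 e he⟩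
  set f := fch z₀ e he with hf
  have hfc : IsFC F t f e := isFC_fch z₀ he
  have hK' : IsClosed {x : F.Fib t | x.val ∈ K} := hK.preimage continuous_fib
  have hKs' : {x : F.Fib t | x.val ∈ K} ⊆ f.source := fun x hx => hKs hx
  have hoff : ∀ (f' : Chart 2 (F.Fib t)) (x : F.Fib t), At f' x →
      x ∉ {x : F.Fib t | x.val ∈ K} → res F t D f' (f' x) = 0 := by
    intro f' x hx hxK
    obtain ⟨e', he'⟩ := mem_atlas_fib.mp hx.1
    have h1 := (he'.src x).mp hx.2
    rw [hD.res_apply he' hx.2]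
    refine h0 e' he'.mem _ (e'.map_source h1) ?_
    rw [e'.left_inv h1]
    exact hxK
  have h1 := INT.intX_of_support (hD.isDensity_re t) (mem_atlas_fib.mpr ⟨e, hfc⟩) hK' hKs'
    (fun f' x hx hxK => by rw [hoff f' x hx hxK, Complex.zero_re])
  have h2 := INT.intX_of_support (hD.isDensity_im t) (mem_atlas_fib.mpr ⟨e, hfc⟩) hK' hKs'
    (fun f' x hx hxK => by rw [hoff f' x hx hxK, Complex.zero_im])
  have hint : Integrable fun w => ext0 e (D e) (w, t) :=
    (hS.slice_contDiff he (hD.smooth e he) ht).continuous.integrable_of_hasCompactSupport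
      (hS.slice_support he ht)
  have key : ∀ w ∈ f.target, res F t D f w = ext0 e (D e) (w, t) := by
    intro w hw
    rw [hD.res_eq hfc hw, ext0_of_mem (hfc.mem_target hw)]
  have koff : ∀ w, w ∉ f.target → ext0 e (D e) (w, t) = 0 := fun w hw =>
    ext0_of_notMem fun h => hw (hfc.target.mpr h)
  have e1 : ∫ w in f.target, (res F t D f w).re = ∫ w, (ext0 e (D e) (w, t)).re := by
    rw [setIntegral_congr_fun f.open_target.measurableSet (g := fun w =>
      (ext0 e (D e) (w, t)).re) fun w hw => by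
        show (res F t D f w).re = _
        rw [key w hw]]
    refine setIntegral_eq_integral_of_forall_compl_eq_zero fun w hw => ?_
    rw [koff w hw, Complex.zero_re]
  have e2 : ∫ w in f.target, (res F t D f w).im = ∫ w, (ext0 e (D e) (w, t)).im := by
    rw [setIntegral_congr_fun f.open_target.measurableSet (g := fun w =>
      (ext0 e (D e) (w, t)).im) fun w hw => by
        show (res F t D f w).im = _
        rw [key w hw]]
    refine setIntegral_eq_integral_of_forall_compl_eq_zero fun w hw => ?_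
    rw [koff w hw, Complex.zero_im]
  rw [intF_def ht, h1, h2, e1, e2]
  have h3 := integral_re_add_im hint
  simpa using h3

/-- Stokes for a 1-form supported in a chart -/
lemma stokes_supp {e : PC Z} (he : e ∈ F.A) {θ : PC Z → Cm 2 × ℂ → LF} (hθ : IsRF1 F θ)
    {β : PC Z → Cm 2 × ℂ → BF} (hβ : IsRF2 F β) (hc : IsCl2 F β) {K : Set Z}
    (hK : IsClosed K) (hKs : K ⊆ e.source)
    (h0 : ∀ e' ∈ F.A, ∀ q ∈ e'.target, e'.symm q ∉ K → θ e' q = 0)
    {t : ℂ} (ht : t ∈ F.Ω) : intF F t (fun e q => prg (d1B (θ e) q) (β e q)) = 0 := by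
  have hd0 : ∀ e' ∈ F.A, ∀ q ∈ e'.target, e'.symm q ∉ K → d1B (θ e') q = 0 := by
    intro e' he' q hq hqK
    have h1 : θ e' =ᶠ[𝓝 q] fun _ => 0 := by
      have h2 : ∀ᶠ q' in 𝓝 q, q' ∈ e'.target := e'.open_target.mem_nhds hq
      have h3 : ∀ᶠ q' in 𝓝 q, e'.symm q' ∉ K :=
        (e'.continuousAt_symm hq).eventually (hK.isOpen_compl.mem_nhds hqK)
      filter_upwards [h2, h3] with q' h2' h3'
      exact h0 e' he' q' h2' h3'
    have h4 : fderiv ℝ (θ e') q = 0 := by rw [h1.fderiv_eq]; simp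
    ext u v
    rw [d1B_apply, d1, h4]
    simp
  rw [intF_supp he (isDen_prg (isRF2_d1B hθ) hβ) hK hKs
    (fun e' he' q hq hqK => by rw [hd0 e' he' q hq hqK]; simp [prg]) ht]
  -- the coefficient functions
  have hW : ∀ k : Fin 4, Sup0 e K fun q => W3 k (θ e q) (β e q) := fun k =>
    ⟨hK, hKs, fun q hq hqK => by rw [h0 e he q hq hqK]; fin_cases k <;> simp [W3]⟩
  have hWs : ∀ (k : Fin 4), ∀ q ∈ e.target, ContDiffAt ℝ ∞ (fun q => W3 k (θ e q) (β e q)) q := by
    intro k q hq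
    have a1 : ∀ i, ContDiffAt ℝ ∞ (fun q => θ e q (bs i)) q := fun i =>
      (hθ.smooth e he q hq).clm_apply contDiffAt_const
    have a2 : ∀ i j, ContDiffAt ℝ ∞ (fun q => β e q (bs i) (bs j)) q := fun i j =>
      ((hβ.smooth e he q hq).clm_apply contDiffAt_const).clm_apply contDiffAt_const
    have a3 : ∀ i j k, ContDiffAt ℝ ∞ (fun q => θ e q (bs i) * β e q (bs j) (bs k)) q :=
      fun i j k => (a1 i).mul (a2 j k)
    fin_cases k
    · exact ((a3 1 2 3).sub (a3 2 1 3)).add (a3 3 1 2)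
    · exact (((a3 0 2 3).sub (a3 2 0 3)).add (a3 3 0 2)).neg
    · exact ((a3 0 1 3).sub (a3 1 0 3)).add (a3 3 0 1)
    · exact (((a3 0 1 2).sub (a3 1 0 2)).add (a3 2 0 1)).neg
  have hpt : ∀ w, ext0 e (fun q => prg (d1B (θ e) q) (β e q)) (w, t) =
      ∑ k : Fin 4, fderiv ℝ (fun w => ext0 e (fun q => W3 k (θ e q) (β e q)) (w, t)) w (bs k) := by
    intro w
    have hsl : ∀ k, fderiv ℝ (fun w => ext0 e (fun q => W3 k (θ e q) (β e q)) (w, t)) w (bs k) =
        fderiv ℝ (ext0 e (fun q => W3 k (θ e q) (β e q))) (w, t) (bs k, 0) := by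
      intro k
      have h1 := (((hW k).contDiffAt he (hWs k) (q := (w, t)) ht).differentiableAt
        (by simp)).hasFDerivAt
      have h2 : HasFDerivAt (fun w : Cm 2 => (w, t)) (ContinuousLinearMap.inl ℝ (Cm 2) ℂ) w := by
        have := (hasFDerivAt_id (𝕜 := ℝ) w).prodMk (hasFDerivAt_const t w)
        exact this
      have h3 : HasFDerivAt (fun w => ext0 e (fun q => W3 k (θ e q) (β e q)) (w, t))
          ((fderiv ℝ (ext0 e (fun q => W3 k (θ e q) (β e q))) (w, t)).comp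
            (ContinuousLinearMap.inl ℝ (Cm 2) ℂ)) w :=
        HasFDerivAt.comp (g := ext0 e (fun q => W3 k (θ e q) (β e q))) w h1 h2
      rw [h3.fderiv]
      rfl
    by_cases hq : ((w, t) : Cm 2 × ℂ) ∈ e.target
    · rw [ext0_of_mem hq, ← sum_W3 ((hθ.smooth e he _ hq).differentiableAt (by simp))
        ((hβ.smooth e he _ hq).differentiableAt (by simp)) (hc e he _ hq)]
      refine Finset.sum_congr rfl fun k _ => ?_
      rw [hsl k, (ext0_eventually hq).fderiv_eq]
    · rw [ext0_of_notMem hq]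
      symm
      refine Finset.sum_eq_zero fun k _ => ?_
      rw [hsl k, ((hW k).ev_zero he (q := (w, t)) ht hq).fderiv_eq]
      simp
  rw [integral_congr_ae (Filter.Eventually.of_forall hpt), integral_finsetSum]
  · refine Finset.sum_eq_zero fun k _ => ?_
    exact INT.integral_fderiv_eq_zero (((hW k).slice_contDiff he (hWs k) ht).of_le (by simp))
      ((hW k).slice_support he ht) (bs k)
  · intro k _
    have h1 := (((hW k).slice_contDiff he (hWs k) ht).continuous_fderiv (by simp)).clm_apply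
      (continuous_const (y := bs k))
    exact h1.integrable_of_hasCompactSupport (((hW k).slice_support he ht).fderiv_apply ℝ (bs k))

/-- Stokes' theorem on the fibres -/
theorem stokes {θ : PC Z → Cm 2 × ℂ → LF} (hθ : IsRF1 F θ) {β : PC Z → Cm 2 × ℂ → BF}
    (hβ : IsRF2 F β) (hc : IsCl2 F β) {t : ℂ} (ht : t ∈ F.Ω) :
    intF F t (fun e q => prg (d1B (θ e) q) (β e q)) = 0 := by
  obtain ⟨P⟩ := exists_lpart F ht
  have hθi : ∀ i, IsRF1 F fun e q => P.ρ i (e.symm q) • θ e q := fun i =>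
    isRF1_smul hθ (P.smooth i)
  have hDi : ∀ i, IsDen F fun e q => prg (d1B (fun q => P.ρ i (e.symm q) • θ e q) q) (β e q) :=
    fun i => isDen_prg (isRF2_d1B (hθi i)) hβ
  have h1 : intF F t (fun e q => prg (d1B (θ e) q) (β e q)) =
      intF F t (fun e q => ∑ i, prg (d1B (fun q => P.ρ i (e.symm q) • θ e q) q) (β e q)) := by
    refine intF_congr (isDen_prg (isRF2_d1B hθ) hβ) (IsDen.sum _ fun i _ => hDi i) ?_
    intro e he q hq hqt
    have h2 : θ e =ᶠ[𝓝 q] fun q => ∑ i, P.ρ i (e.symm q) • θ e q := by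
      have h3 : ∀ᶠ q' in 𝓝 q, q' ∈ e.target := e.open_target.mem_nhds hq
      have h4 : ∀ᶠ q' : Cm 2 × ℂ in 𝓝 q, q'.2 ∈ Metric.closedBall t P.r := by
        refine continuous_snd.continuousAt.eventually (Metric.closedBall_mem_nhds_of_mem ?_)
        rw [hqt]
        exact Metric.mem_ball_self P.r_pos
      filter_upwards [h3, h4] with q' h3' h4'
      rw [← Finset.sum_smul, P.sum, one_smul]
      rw [Fam.p_symm he h3']
      exact h4'
    have h5 : fderiv ℝ (θ e) q = ∑ i, fderiv ℝ (fun q => P.ρ i (e.symm q) • θ e q) q := by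
      rw [h2.fderiv_eq]
      have h6 : HasFDerivAt (fun q => ∑ i, P.ρ i (e.symm q) • θ e q)
          (∑ i, fderiv ℝ (fun q => P.ρ i (e.symm q) • θ e q) q) q :=
        HasFDerivAt.fun_sum fun i _ => H369.hasFDerivAt_of ((hθi i).smooth e he q hq)
      exact h6.fderiv
    have h7 : ∀ u v, d1B (θ e) q u v =
        ∑ i, d1B (fun q => P.ρ i (e.symm q) • θ e q) q u v := by
      intro u v
      simp only [d1B_apply, d1, h5, _root_.sum_apply, Finset.sum_sub_distrib]
    simp only [prg, h7]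
    simp only [Finset.sum_mul, ← Finset.sum_sub_distrib, ← Finset.sum_add_distrib]
  rw [h1, intF_sum t _ fun i _ => hDi i]
  refine Finset.sum_eq_zero fun i _ => ?_
  refine stokes_supp (P.mem i) (hθi i) hβ hc (isClosed_tsupport (P.ρ i)) (P.supp i) ?_ ht
  intro e' he' q hq hqK
  rw [image_eq_zero_of_notMem_tsupport hqK, zero_smul]

end Vale.Agent.P298.H39
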